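import Vale.Agent.P256.H721.Lift

/-! Hyperbolic polynomials `p` with a representation `l p = Q R - ∑ G_i ^ 2`, where `l` is a
linear form which is nonnegative on the cone: the cone is a spectrahedral shadow. -/

namespace Vale.Agent.P256

open Matrix

section Lorentz

variable {k : ℕ}

/-- the Lorentz form `X₀ X₁ - ∑ X_i ^ 2` -/
noncomputable def lorP (k : ℕ) : MvPolynomial (Fin (k + 2)) ℝ :=
  MvPolynomial.X 0 * MvPolynomial.X 1 - ∑ i : Fin k, MvPolynomial.X i.succ.succ ^ 2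

theorem eval_lorP (x : Fin (k + 2) → ℝ) :
    MvPolynomial.eval x (lorP k) = x 0 * x 1 - ∑ i : Fin k, x i.succ.succ ^ 2 := by
  simp [lorP]

theorem aeval_lorP (x : Fin (k + 2) → ℂ) :
    MvPolynomial.aeval x (lorP k) = x 0 * x 1 - ∑ i : Fin k, x i.succ.succ ^ 2 := by
  simp [lorP]

theorem lorP_hom : (lorP k).IsHomogeneous 2 := by
  refine MvPolynomial.IsHomogeneous.sub ?_ ?_
  · exact (MvPolynomial.isHomogeneous_X ℝ _).mul (MvPolynomial.isHomogeneous_X ℝ _)
  · refine MvPolynomial.IsHomogeneous.sum _ _ _ fun i _ => ?_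
    exact (MvPolynomial.isHomogeneous_X ℝ _).pow 2

theorem lor_pair {x₀ x₁ e₀ e₁ X E M : ℝ} (h0 : 0 ≤ x₀) (h1 : 0 ≤ x₁) (hX : X ≤ x₀ * x₁)
    (g0 : 0 ≤ e₀) (g1 : 0 ≤ e₁) (hE : E ≤ e₀ * e₁) (hX0 : 0 ≤ X)
    (hM : M ^ 2 ≤ X * E) : 2 * M ≤ x₀ * e₁ + x₁ * e₀ := by
  have h2 : X * E ≤ (x₀ * x₁) * (e₀ * e₁) :=
    (mul_le_mul_of_nonneg_left hE hX0).trans (mul_le_mul_of_nonneg_right hX (by positivity))
  have h3 : (2 * M) ^ 2 ≤ (x₀ * e₁ + x₁ * e₀) ^ 2 := by
    nlinarith [sq_nonneg (x₀ * e₁ - x₁ * e₀)]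
  exact (abs_le_of_sq_le_sq' h3 (by positivity)).2

theorem lorP_hyp {e : Fin (k + 2) → ℝ} (hE : 0 < MvPolynomial.eval e (lorP k)) :
    IsHyperbolic (lorP k) e := by
  refine ⟨⟨2, lorP_hom⟩, hE, fun x t ht => ?_⟩
  rw [eval_lorP] at hE
  by_contra him
  rw [aeval_lorP] at ht
  set y : Fin (k + 2) → ℝ := fun i => t.re * e i - x i with hy
  set b : ℝ := t.im with hb
  have hte : ∀ i, t * (e i : ℂ) - (x i : ℂ) = (y i : ℂ) + ((b * e i : ℝ) : ℂ) * Complex.I := by
    intro i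
    apply Complex.ext <;> simp [hy, hb]
  have hmul : ∀ a b c d : ℝ, ((a : ℂ) + (b : ℂ) * Complex.I) * ((c : ℂ) + (d : ℂ) * Complex.I) =
      ((a * c - b * d : ℝ) : ℂ) + ((a * d + b * c : ℝ) : ℂ) * Complex.I := by
    intro a b c d
    push_cast
    linear_combination (b * d : ℂ) * Complex.I_sq
  simp only [hte, sq, hmul] at ht
  have hre := congrArg Complex.re ht
  have him' := congrArg Complex.im ht
  simp only [Complex.sub_re, Complex.sub_im, Complex.add_re, Complex.add_im, Complex.re_sum,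
    Complex.im_sum, Complex.ofReal_re, Complex.ofReal_im, Complex.mul_re, Complex.mul_im,
    Complex.I_re, Complex.I_im, Complex.zero_re, Complex.zero_im, mul_zero, mul_one,
    sub_zero, add_zero, zero_add] at hre him'
  set SY : ℝ := ∑ i : Fin k, y i.succ.succ ^ 2 with hSY
  set SE : ℝ := ∑ i : Fin k, e i.succ.succ ^ 2 with hSE
  set S : ℝ := ∑ i : Fin k, y i.succ.succ * e i.succ.succ with hS
  have h1 : ∑ i : Fin k, (y i.succ.succ * y i.succ.succ -
      b * e i.succ.succ * (b * e i.succ.succ)) = SY - b ^ 2 * SE := by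
    rw [Finset.sum_sub_distrib, hSY, hSE, Finset.mul_sum]
    congr 1
    · exact Finset.sum_congr rfl fun _ _ => by ring
    · exact Finset.sum_congr rfl fun _ _ => by ring
  have h2 : ∑ i : Fin k, (y i.succ.succ * (b * e i.succ.succ) +
      b * e i.succ.succ * y i.succ.succ) = 2 * b * S := by
    rw [hS, Finset.mul_sum]
    exact Finset.sum_congr rfl fun _ _ => by ring
  rw [h1] at hre
  rw [h2] at him'
  have hcs : S ^ 2 ≤ SY * SE := Finset.sum_mul_sq_le_sq_mul_sq _ _ _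
  have hSY0 : 0 ≤ SY := Finset.sum_nonneg fun _ _ => sq_nonneg _
  have hSE0 : 0 ≤ SE := Finset.sum_nonneg fun _ _ => sq_nonneg _
  have hb2 : 0 < b ^ 2 := by positivity
  have h3 : y 0 * e 1 + e 0 * y 1 = 2 * S := by
    have : b * (y 0 * e 1 + e 0 * y 1 - 2 * S) = 0 := by linarith
    rcases mul_eq_zero.1 this with h | h
    · exact absurd h him
    · linarith
  have h4 : 0 < y 0 * y 1 - SY := by
    have : y 0 * y 1 - SY = b ^ 2 * (e 0 * e 1 - SE) := by linarith
    rw [this]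
    positivity
  have h5 : SY * SE ≤ SY * (e 0 * e 1) := mul_le_mul_of_nonneg_left (by linarith) hSY0
  have h6 : SY * (e 0 * e 1) < (y 0 * y 1) * (e 0 * e 1) :=
    mul_lt_mul_of_pos_right (by linarith) (by linarith)
  have h7 : (y 0 * e 1 + e 0 * y 1) ^ 2 = 4 * S ^ 2 := by rw [h3]; ring
  nlinarith [sq_nonneg (y 0 * e 1 - e 0 * y 1)]

theorem lorP_line (x e : Fin (k + 2) → ℝ) (t : ℝ) : MvPolynomial.eval (x + t • e) (lorP k) =
    MvPolynomial.eval x (lorP k) + t * (x 0 * e 1 + x 1 * e 0 -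
      2 * ∑ i : Fin k, x i.succ.succ * e i.succ.succ) + t ^ 2 * MvPolynomial.eval e (lorP k) := by
  simp only [eval_lorP, Pi.add_apply, Pi.smul_apply, smul_eq_mul]
  have h : ∑ i : Fin k, (x i.succ.succ + t * e i.succ.succ) ^ 2 =
      ∑ i : Fin k, x i.succ.succ ^ 2 + 2 * t * ∑ i : Fin k, x i.succ.succ * e i.succ.succ +
      t ^ 2 * ∑ i : Fin k, e i.succ.succ ^ 2 := by
    rw [Finset.mul_sum, Finset.mul_sum, ← Finset.sum_add_distrib, ← Finset.sum_add_distrib]
    exact Finset.sum_congr rfl fun _ _ => by ring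
  rw [h]
  ring

theorem mem_lorP {e : Fin (k + 2) → ℝ} (h0 : 0 < e 0) (hE : 0 < MvPolynomial.eval e (lorP k))
    (x : Fin (k + 2) → ℝ) : x ∈ hypCone (lorP k) e ↔
      0 ≤ x 0 ∧ 0 ≤ x 1 ∧ ∑ i : Fin k, x i.succ.succ ^ 2 ≤ x 0 * x 1 := by
  have hh := lorP_hyp hE
  have hE' := hE
  rw [eval_lorP] at hE'
  have hSE0 : 0 ≤ ∑ i : Fin k, e i.succ.succ ^ 2 := Finset.sum_nonneg fun _ _ => sq_nonneg _
  have hSX0 : 0 ≤ ∑ i : Fin k, x i.succ.succ ^ 2 := Finset.sum_nonneg fun _ _ => sq_nonneg _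
  have he1 : 0 < e 1 := by
    by_contra h
    push Not at h
    nlinarith
  constructor
  · intro hx
    rw [mem_K_iff hh] at hx
    have hpos : ∀ t : ℝ, 0 < t → 0 < MvPolynomial.eval (x + t • e) (lorP k) := by
      intro t ht
      have := (open_mono hh (hx t ht) 0 le_rfl).1
      simpa using this
    have hprod : ∀ t : ℝ, 0 < t → 0 < (x 0 + t * e 0) * (x 1 + t * e 1) := by
      intro t ht
      have h1 := hpos t ht
      rw [eval_lorP] at h1
      have h2 : 0 ≤ ∑ i : Fin k, (x + t • e) i.succ.succ ^ 2 :=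
        Finset.sum_nonneg fun _ _ => sq_nonneg _
      have h3 : 0 < (x + t • e) 0 * (x + t • e) 1 := by linarith
      simpa using h3
    refine ⟨?_, ?_, ?_⟩
    · by_contra h
      push Not at h
      have h1 := hprod (-x 0 / e 0) (div_pos (by linarith) h0)
      have h2 : x 0 + -x 0 / e 0 * e 0 = 0 := by field_simp; ring
      rw [h2, zero_mul] at h1
      exact lt_irrefl _ h1
    · by_contra h
      push Not at h
      have h1 := hprod (-x 1 / e 1) (div_pos (by linarith) he1)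
      have h2 : x 1 + -x 1 / e 1 * e 1 = 0 := by field_simp; ring
      rw [h2, mul_zero] at h1
      exact lt_irrefl _ h1
    · have hlim : Filter.Tendsto (fun t : ℝ => MvPolynomial.eval x (lorP k) +
          t * (x 0 * e 1 + x 1 * e 0 - 2 * ∑ i : Fin k, x i.succ.succ * e i.succ.succ) +
          t ^ 2 * MvPolynomial.eval e (lorP k)) (nhdsWithin 0 (Set.Ioi 0))
          (nhds (MvPolynomial.eval x (lorP k))) := by
        have hc : Continuous fun t : ℝ => MvPolynomial.eval x (lorP k) +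
          t * (x 0 * e 1 + x 1 * e 0 - 2 * ∑ i : Fin k, x i.succ.succ * e i.succ.succ) +
          t ^ 2 * MvPolynomial.eval e (lorP k) := by fun_prop
        have := (hc.tendsto 0).mono_left (nhdsWithin_le_nhds (s := Set.Ioi 0))
        simpa using this
      have h1 : 0 ≤ MvPolynomial.eval x (lorP k) := by
        refine ge_of_tendsto hlim ?_
        filter_upwards [self_mem_nhdsWithin] with t ht
        rw [← lorP_line]
        exact (hpos t ht).le
      rw [eval_lorP] at h1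
      linarith
  · rintro ⟨hx0, hx1, hx2⟩
    rw [mem_hypCone_iff lorP_hom]
    intro t ht
    rw [lorP_line]
    have h1 := lor_pair hx0 hx1 hx2 h0.le he1.le
      (E := ∑ i : Fin k, e i.succ.succ ^ 2) (by linarith) hSX0
      (Finset.sum_mul_sq_le_sq_mul_sq _ (fun i : Fin k => x i.succ.succ) fun i => e i.succ.succ)
    have h2 : 0 ≤ MvPolynomial.eval x (lorP k) := by
      rw [eval_lorP]
      linarith
    have h3 : 0 ≤ t * (x 0 * e 1 + x 1 * e 0 - 2 * ∑ i : Fin k, x i.succ.succ * e i.succ.succ) :=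
      mul_nonneg ht.le (by linarith)
    have h4 : 0 < t ^ 2 * MvPolynomial.eval e (lorP k) := by positivity
    linarith

/-- the matrix `[[x₁ 1, x], [xᵀ, x₀]]` -/
def lorM (k : ℕ) : (Fin (k + 2) → ℝ) →ₗ[ℝ] Matrix (Fin k ⊕ Unit) (Fin k ⊕ Unit) ℝ where
  toFun x := fromBlocks (x 1 • 1) (Matrix.of fun a _ => x a.succ.succ)
    (Matrix.of fun _ a => x a.succ.succ) (Matrix.of fun _ _ => x 0)
  map_add' x y := by
    ext a b
    rcases a with a | a <;> rcases b with b | b <;> simp [add_mul]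
  map_smul' c x := by
    ext a b
    rcases a with a | a <;> rcases b with b | b <;> simp [mul_assoc]

theorem GShad.of_lmi {n : ℕ} {ι : Type} [Fintype ι] [DecidableEq ι]
    (M : (Fin n → ℝ) →ₗ[ℝ] Matrix ι ι ℝ) (hM : ∀ x, (M x).IsSymm) :
    GShad {x | (M x).PosSemidef} := by
  refine ⟨ι, Empty, inferInstance, inferInstance, 0, fun i => M (Pi.single i 1),
    fun j => j.elim, Matrix.isSymm_zero, fun i => hM _, fun j => j.elim, ?_⟩
  ext x
  simp only [Set.mem_ofPred_eq, Finset.univ_eq_empty, Finset.sum_empty, add_zero, zero_add]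
  rw [← lin_eq_sum' M x]
  simp

theorem lorM_psd (x : Fin (k + 2) → ℝ) : ((lorM k x).PosSemidef ∧ 0 ≤ x 1) ↔
    0 ≤ x 0 ∧ 0 ≤ x 1 ∧ ∑ i : Fin k, x i.succ.succ ^ 2 ≤ x 0 * x 1 := by
  have hZ : (x 1 • (1 : Matrix (Fin k) (Fin k) ℝ)).IsSymm := by
    rw [Matrix.IsSymm, Matrix.transpose_smul, Matrix.transpose_one]
  have hval : ∀ v : Fin k → ℝ, v ⬝ᵥ ((x 1 • (1 : Matrix (Fin k) (Fin k) ℝ)) *ᵥ v) =
      x 1 * ∑ i, v i ^ 2 := by
    intro v
    rw [Matrix.smul_mulVec, Matrix.one_mulVec, dotProduct_smul, smul_eq_mul, dotProduct]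
    simp only [sq]
  have hiff : (lorM k x).PosSemidef ↔ ∀ (v : Fin k → ℝ) (s : ℝ),
      0 ≤ x 1 * ∑ i, v i ^ 2 + 2 * s * (∑ i : Fin k, x i.succ.succ * v i) + x 0 * s ^ 2 := by
    have := blk_psd_iff hZ (fun a : Fin k => x a.succ.succ) (x 0)
    simp only [hval] at this
    exact this
  set W : ℝ := ∑ i : Fin k, x i.succ.succ ^ 2 with hW
  have hW0 : 0 ≤ W := Finset.sum_nonneg fun _ _ => sq_nonneg _
  rw [hiff]
  constructor
  · rintro ⟨h, h1⟩
    have hx0 : 0 ≤ x 0 := by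
      have := h 0 1
      simpa using this
    have hc : ∀ c s : ℝ, 0 ≤ x 1 * (c ^ 2 * W) + 2 * s * (c * W) + x 0 * s ^ 2 := by
      intro c s
      have h2 := h (fun i => c * x i.succ.succ) s
      have h3 : ∑ i : Fin k, (c * x i.succ.succ) ^ 2 = c ^ 2 * W := by
        rw [hW, Finset.mul_sum]
        exact Finset.sum_congr rfl fun _ _ => by ring
      have h4 : ∑ i : Fin k, x i.succ.succ * (c * x i.succ.succ) = c * W := by
        rw [hW, Finset.mul_sum]
        exact Finset.sum_congr rfl fun _ _ => by ring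
      rwa [h3, h4] at h2
    refine ⟨hx0, h1, ?_⟩
    by_contra hlt
    push Not at hlt
    have hWpos : 0 < W := lt_of_le_of_lt (mul_nonneg hx0 h1) hlt
    rcases hx0.eq_or_lt with h5 | h5
    · have h6 := hc 1 (-(x 1 + 1))
      rw [← h5] at h6
      nlinarith
    · have h6 := hc (x 0) (-W)
      have h7 : x 1 * (x 0 ^ 2 * W) + 2 * -W * (x 0 * W) + x 0 * (-W) ^ 2 =
          x 0 * W * (x 0 * x 1 - W) := by ring
      rw [h7] at h6
      have h8 : 0 < x 0 * W := mul_pos h5 hWpos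
      nlinarith
  · rintro ⟨hx0, hx1, hx2⟩
    refine ⟨fun v s => ?_, hx1⟩
    have h2 : 0 ≤ ∑ i, v i ^ 2 := Finset.sum_nonneg fun _ _ => sq_nonneg _
    have hcs : (∑ i : Fin k, x i.succ.succ * v i) ^ 2 ≤ W * ∑ i, v i ^ 2 :=
      Finset.sum_mul_sq_le_sq_mul_sq _ _ _
    have h3 : (2 * (s * ∑ i : Fin k, x i.succ.succ * v i)) ^ 2 ≤
        (x 1 * ∑ i, v i ^ 2 + x 0 * s ^ 2) ^ 2 := by
      have h4 : (s * ∑ i : Fin k, x i.succ.succ * v i) ^ 2 ≤
          (x 0 * x 1) * (s ^ 2 * ∑ i, v i ^ 2) := by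
        rw [mul_pow]
        calc s ^ 2 * (∑ i : Fin k, x i.succ.succ * v i) ^ 2 ≤ s ^ 2 * (W * ∑ i, v i ^ 2) :=
              mul_le_mul_of_nonneg_left hcs (sq_nonneg s)
          _ = W * (s ^ 2 * ∑ i, v i ^ 2) := by ring
          _ ≤ _ := mul_le_mul_of_nonneg_right hx2 (by positivity)
      nlinarith [sq_nonneg (x 1 * ∑ i, v i ^ 2 - x 0 * s ^ 2)]
    have h5 := (abs_le_of_sq_le_sq' h3 (by positivity)).1
    linarith

theorem gshad_nonneg {n : ℕ} (l : (Fin n → ℝ) →ₗ[ℝ] ℝ) : GShad {x | 0 ≤ l x} := by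
  let M : (Fin n → ℝ) →ₗ[ℝ] Matrix Unit Unit ℝ :=
    { toFun := fun x => Matrix.of fun _ _ => l x
      map_add' := fun x y => by ext; simp
      map_smul' := fun c x => by ext; simp }
  have h := GShad.of_lmi M (fun x => by ext; rfl)
  have h2 : {x : Fin n → ℝ | 0 ≤ l x} = {x | (M x).PosSemidef} := by
    ext x
    simp only [Set.mem_ofPred_eq]
    rw [posSemidef_iff_dotProduct_mulVec]
    constructor
    · intro hx
      refine ⟨by ext; simp [M], fun v => ?_⟩
      simp only [M, dotProduct, mulVec, Finset.univ_unique, Finset.sum_singleton, star_trivial,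
        LinearMap.coe_mk, AddHom.coe_mk, Matrix.of_apply]
      nlinarith [mul_nonneg hx (mul_self_nonneg (v default))]
    · rintro ⟨-, hx⟩
      have := hx 1
      simpa [M, dotProduct, mulVec] using this
  rw [h2]
  exact h

theorem lorP_gshad {e : Fin (k + 2) → ℝ} (h0 : 0 < e 0)
    (hE : 0 < MvPolynomial.eval e (lorP k)) : GShad (hypCone (lorP k) e) := by
  have h1 := GShad.inter (GShad.of_lmi (lorM k) ?_)
    (gshad_nonneg (LinearMap.proj (R := ℝ) (φ := fun _ : Fin (k + 2) => ℝ) 1))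
  · convert h1 using 1
    ext x
    rw [mem_lorP h0 hE, ← lorM_psd]
    rfl
  · intro x
    ext a b
    rcases a with a | a <;> rcases b with b | b <;> simp [lorM, Matrix.one_apply, eq_comm]

end Lorentz

section Rep

variable {n : ℕ} {p : MvPolynomial (Fin n) ℝ} {e : Fin n → ℝ}

/-- multiplying by a linear form which is nonnegative on the cone keeps the cone -/
theorem hypCone_linPoly_mul (l : (Fin n → ℝ) →ₗ[ℝ] ℝ) (hl : 0 < l e)
    (hK : ∀ x ∈ hypCone p e, 0 ≤ l x) : hypCone (linPoly l * p) e = hypCone p e := by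
  have key : ∀ (x : Fin n → ℝ) (t : ℝ), MvPolynomial.eval (t • e - x) (linPoly l * p) =
      (t * l e - l x) * MvPolynomial.eval (t • e - x) p := by
    intro x t
    rw [map_mul, eval_linPoly, map_sub, map_smul, smul_eq_mul]
  ext x
  constructor
  · intro hx t ht
    refine hx t ?_
    rw [key, ht, mul_zero]
  · intro hx t ht
    rw [key] at ht
    rcases mul_eq_zero.1 ht with h | h
    · have h1 := hK x hx
      by_contra hneg
      push Not at hneg
      nlinarith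
    · exact hx t h

theorem lorentz_rep (hp : IsHyperbolic p e) (l : (Fin n → ℝ) →ₗ[ℝ] ℝ)
    (Q R : (Fin n → ℝ) →ₗ[ℝ] (Fin n → ℝ) →ₗ[ℝ] ℝ) (k : ℕ)
    (G : Fin k → (Fin n → ℝ) →ₗ[ℝ] (Fin n → ℝ) →ₗ[ℝ] ℝ) (hl : 0 < l e)
    (hK : ∀ x ∈ hypCone p e, 0 ≤ l x) (hQe : 0 < Q e e)
    (hker : ∀ x, l x = 0 → Q x x ≤ 0 ∧ R x x ≤ 0)
    (h : ∀ x, l x * MvPolynomial.eval x p = Q x x * R x x - ∑ i, (G i x x) ^ 2) :
    GShad (hypCone p e) := by
  set co : Fin (k + 2) → ((Fin n → ℝ) →ₗ[ℝ] (Fin n → ℝ) →ₗ[ℝ] ℝ) :=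
    Fin.cons Q (Fin.cons R G) with hco
  have hco0 : co 0 = Q := by simp [hco]
  have hco1 : co 1 = R := by
    have : (1 : Fin (k + 2)) = Fin.succ 0 := by simp
    rw [this, hco, Fin.cons_succ, Fin.cons_zero]
  have hco2 : ∀ i : Fin k, co i.succ.succ = G i := by
    intro i
    rw [hco, Fin.cons_succ, Fin.cons_succ]
  let F : (Fin n → ℝ) →ₗ[ℝ] (Fin n → ℝ) →ₗ[ℝ] (Fin (k + 2) → ℝ) :=
    LinearMap.mk₂ ℝ (fun x y j => co j x y) (fun x x' y => by funext j; simp)
      (fun c x y => by funext j; simp) (fun x y y' => by funext j; simp)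
      (fun c x y => by funext j; simp)
  have hF : ∀ x y j, F x y j = co j x y := fun _ _ _ => rfl
  have hFev : ∀ x, MvPolynomial.eval (F x x) (lorP k) = l x * MvPolynomial.eval x p := by
    intro x
    rw [eval_lorP, h, hF, hF, hco0, hco1]
    refine congrArg₂ _ rfl (Finset.sum_congr rfl fun i _ => ?_)
    rw [hF, hco2]
  set r : (Fin n → ℝ) →ₗ[ℝ] ℝ := (l e)⁻¹ • l with hr
  have hre : r e = 1 := by
    rw [hr, LinearMap.smul_apply, smul_eq_mul, inv_mul_cancel₀ hl.ne']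
  set T : (Fin n → ℝ) →ₗ[ℝ] (Fin n → ℝ) := LinearMap.id - r.smulRight e with hT
  have hTx : ∀ x, T x = x - r x • e := fun x => by
    rw [hT]
    rfl
  have hTe : T e = 0 := by rw [hTx, hre, one_smul, sub_self]
  have hlT : ∀ x, l (T x) = 0 := by
    intro x
    rw [hTx, map_sub, map_smul, hr, LinearMap.smul_apply, smul_eq_mul, smul_eq_mul]
    field_simp
    simp
  set B : (Fin n → ℝ) →ₗ[ℝ] (Fin n → ℝ) →ₗ[ℝ] (Fin (k + 2) → ℝ) := -(F.comp T).compl₂ T with hB
  have hBx : ∀ x y, B x y = -F (T x) (T y) := fun x y => by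
    rw [hB]
    rfl
  set Y : (Fin n → ℝ) →ₗ[ℝ] (Fin (k + 2) → ℝ) :=
    (F.flip e).comp T + (F e).comp T + r.smulRight (F e e) with hY
  have hYx : ∀ x, Y x = F (T x) e + F e (T x) + r x • F e e := fun x => by
    rw [hY]
    rfl
  have hYe : Y e = F e e := by
    rw [hYx, hTe, hre]
    simp
  have hrep : ∀ x, r x • Y x - B x x = F x x := by
    intro x
    have h1 : F x x = F (T x + r x • e) (T x + r x • e) := by
      rw [hTx, sub_add_cancel]
    rw [h1, hYx, hBx]
    simp only [map_add, map_smul, LinearMap.add_apply, LinearMap.smul_apply]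
    module
  have hE : 0 < MvPolynomial.eval (F e e) (lorP k) := by
    rw [hFev]
    exact mul_pos hl hp.2.1
  have h0 : 0 < F e e 0 := by
    rw [hF, hco0]
    exact hQe
  rw [← hypCone_linPoly_mul l hl hK]
  refine quad_gshad (q := lorP k) (e := F e e) (r := r) (Y := Y) (B := B) (lorP_hyp hE)
    (lorP_gshad h0 hE) ?_ ?_ hre hYe ?_
  · intro x
    rw [mem_lorP h0 hE, hBx]
    have h1 := hker (T x) (hlT x)
    have h2 := hFev (T x)
    rw [hlT, zero_mul, eval_lorP] at h2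
    simp only [Pi.neg_apply, neg_sq]
    refine ⟨?_, ?_, ?_⟩
    · rw [hF, hco0]
      linarith [h1.1]
    · rw [hF, hco1]
      linarith [h1.2]
    · rw [neg_mul_neg]
      linarith
  · intro x
    rw [hrep, hFev, map_mul, eval_linPoly]
  · intro x
    rw [hBx, hBx, hTe]
    simp

end Rep

end Vale.Agent.P256
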