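import Vale.Agent.P256.C5.S1

/-! A ternary quartic form which is nonnegative on the cone `(α², αβ, β²)` is a sum of two squares
modulo `a c - b²`. -/

namespace Vale.Agent.P256

open Polynomial

theorem poly8_zero {c0 c1 c2 c3 c4 c5 c6 c7 c8 : ℝ}
    (h : ∀ t : ℝ, c0 + c1 * t + c2 * t ^ 2 + c3 * t ^ 3 + c4 * t ^ 4 + c5 * t ^ 5 + c6 * t ^ 6 + c7 * t ^ 7 + c8 * t ^ 8 = 0) :
    c0 = 0 ∧ c1 = 0 ∧ c2 = 0 ∧ c3 = 0 ∧ c4 = 0 ∧ c5 = 0 ∧ c6 = 0 ∧ c7 = 0 ∧ c8 = 0 := by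
  have h0 := h (0)
  have h1 := h (1)
  have h2 := h (-1)
  have h3 := h (2)
  have h4 := h (-2)
  have h5 := h (3)
  have h6 := h (-3)
  have h7 := h (4)
  have h8 := h (-4)
  norm_num at h0 h1 h2 h3 h4 h5 h6 h7 h8
  subst h0
  have e2 : c2 + c4 + c6 + c8 = 0 := by linarith
  have e4 : c2 * 4 + c4 * 16 + c6 * 64 + c8 * 256 = 0 := by linarith
  have e6 : c2 * 9 + c4 * 81 + c6 * 729 + c8 * 6561 = 0 := by linarith
  have e8 : c2 * 16 + c4 * 256 + c6 * 4096 + c8 * 65536 = 0 := by linarith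
  have o1 : c1 + c3 + c5 + c7 = 0 := by linarith
  have o2 : c1 * 2 + c3 * 8 + c5 * 32 + c7 * 128 = 0 := by linarith
  have o3 : c1 * 3 + c3 * 27 + c5 * 243 + c7 * 2187 = 0 := by linarith
  have o4 : c1 * 4 + c3 * 64 + c5 * 1024 + c7 * 16384 = 0 := by linarith
  refine ⟨rfl, ?_, ?_, ?_, ?_, ?_, ?_, ?_, ?_⟩ <;> linarith

/-- the quadratic form in three variables with the coefficients `f` -/
def q3 (f : Fin 6 → ℝ) (a b c : ℝ) : ℝ :=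
  f 0 * a ^ 2 + f 1 * (a * b) + f 2 * (a * c) + f 3 * b ^ 2 + f 4 * (b * c) + f 5 * c ^ 2

theorem conic_sos (d400 d310 d301 d220 d211 d202 d130 d121 d112 d103 d040 d031 d022 d013 d004 : ℝ)
    (h : ∀ s t : ℝ, 0 ≤ d400 * (s ^ 2) ^ 4 + d310 * ((s ^ 2) ^ 3 * (s * t)) + d301 * ((s ^ 2) ^ 3 * (t ^ 2)) +
      d220 * ((s ^ 2) ^ 2 * (s * t) ^ 2) + d211 * ((s ^ 2) ^ 2 * (s * t) * (t ^ 2)) +
      d202 * ((s ^ 2) ^ 2 * (t ^ 2) ^ 2) + d130 * ((s ^ 2) * (s * t) ^ 3) +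
      d121 * ((s ^ 2) * (s * t) ^ 2 * (t ^ 2)) + d112 * ((s ^ 2) * (s * t) * (t ^ 2) ^ 2) +
      d103 * ((s ^ 2) * (t ^ 2) ^ 3) + d040 * (s * t) ^ 4 + d031 * ((s * t) ^ 3 * (t ^ 2)) +
      d022 * ((s * t) ^ 2 * (t ^ 2) ^ 2) + d013 * ((s * t) * (t ^ 2) ^ 3) + d004 * (t ^ 2) ^ 4) :
    ∃ f g k : Fin 6 → ℝ, ∀ a b c : ℝ, d400 * a ^ 4 + d310 * (a ^ 3 * b) + d301 * (a ^ 3 * c) + d220 * (a ^ 2 * b ^ 2) +
      d211 * (a ^ 2 * b * c) + d202 * (a ^ 2 * c ^ 2) + d130 * (a * b ^ 3) +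
      d121 * (a * b ^ 2 * c) + d112 * (a * b * c ^ 2) + d103 * (a * c ^ 3) + d040 * b ^ 4 +
      d031 * (b ^ 3 * c) + d022 * (b ^ 2 * c ^ 2) + d013 * (b * c ^ 3) + d004 * c ^ 4 =
      q3 f a b c ^ 2 + q3 g a b c ^ 2 + (a * c - b ^ 2) * q3 k a b c := by
  set p : ℝ[X] := C d400 * X ^ 8 + C d310 * X ^ 7 + C (d301 + d220) * X ^ 6 +
    C (d211 + d130) * X ^ 5 + C (d202 + d121 + d040) * X ^ 4 + C (d112 + d031) * X ^ 3 +
    C (d103 + d022) * X ^ 2 + C d013 * X + C d004 with hp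
  have hdeg : p.natDegree ≤ 8 := by
    rw [hp]
    compute_degree
  have hev : ∀ x, p.eval x = d400 * x ^ 8 + d310 * x ^ 7 + (d301 + d220) * x ^ 6 +
      (d211 + d130) * x ^ 5 + (d202 + d121 + d040) * x ^ 4 + (d112 + d031) * x ^ 3 +
      (d103 + d022) * x ^ 2 + d013 * x + d004 := by
    intro x
    rw [hp]
    simp
  have hpos : ∀ x, 0 ≤ p.eval x := by
    intro x
    rw [hev]
    have := h x 1
    linarith
  obtain ⟨f, g, hfg, hf, hg⟩ := nonneg_two_sq p hpos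
  have hfe : ∀ x, f.eval x = f.coeff 0 + f.coeff 1 * x + f.coeff 2 * x ^ 2 + f.coeff 3 * x ^ 3 +
      f.coeff 4 * x ^ 4 := by
    intro x
    rw [eval_eq_sum_range' (n := 5) (by omega)]
    simp [Finset.sum_range_succ]
  have hge : ∀ x, g.eval x = g.coeff 0 + g.coeff 1 * x + g.coeff 2 * x ^ 2 + g.coeff 3 * x ^ 3 +
      g.coeff 4 * x ^ 4 := by
    intro x
    rw [eval_eq_sum_range' (n := 5) (by omega)]
    simp [Finset.sum_range_succ]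
  generalize f.coeff 0 = f0 at hfe
  generalize f.coeff 1 = f1 at hfe
  generalize f.coeff 2 = f2 at hfe
  generalize f.coeff 3 = f3 at hfe
  generalize f.coeff 4 = f4 at hfe
  generalize g.coeff 0 = g0 at hge
  generalize g.coeff 1 = g1 at hge
  generalize g.coeff 2 = g2 at hge
  generalize g.coeff 3 = g3 at hge
  generalize g.coeff 4 = g4 at hge
  have hall : ∀ x : ℝ, (d004 - (f0 * f0) - (g0 * g0)) +
      (d013 - (f0 * f1 + f1 * f0) - (g0 * g1 + g1 * g0)) * x +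
      ((d103 + d022) - (f0 * f2 + f1 * f1 + f2 * f0) - (g0 * g2 + g1 * g1 + g2 * g0)) * x ^ 2 +
      ((d112 + d031) - (f0 * f3 + f1 * f2 + f2 * f1 + f3 * f0) - (g0 * g3 + g1 * g2 + g2 * g1 + g3 * g0)) * x ^ 3 +
      ((d202 + d121 + d040) - (f0 * f4 + f1 * f3 + f2 * f2 + f3 * f1 + f4 * f0) - (g0 * g4 + g1 * g3 + g2 * g2 + g3 * g1 + g4 * g0)) * x ^ 4 +
      ((d211 + d130) - (f1 * f4 + f2 * f3 + f3 * f2 + f4 * f1) - (g1 * g4 + g2 * g3 + g3 * g2 + g4 * g1)) * x ^ 5 +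
      ((d301 + d220) - (f2 * f4 + f3 * f3 + f4 * f2) - (g2 * g4 + g3 * g3 + g4 * g2)) * x ^ 6 +
      (d310 - (f3 * f4 + f4 * f3) - (g3 * g4 + g4 * g3)) * x ^ 7 +
      (d400 - (f4 * f4) - (g4 * g4)) * x ^ 8 = 0 := by
    intro x
    have h1 := hev x
    rw [hfg, eval_add, eval_pow, eval_pow, hfe, hge] at h1
    linear_combination -h1
  obtain ⟨e0, e1, e2, e3, e4, e5, e6, e7, e8⟩ := poly8_zero hall
  refine ⟨![f4, f3, 0, f2, f1, f0], ![g4, g3, 0, g2, g1, g0],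
    ![d301, d211 - 2 * (f4 * f1) - 2 * (g4 * g1), d202 - 2 * (f4 * f0) - 2 * (g4 * g0),
      f2 ^ 2 + g2 ^ 2 - d040, d112 - 2 * (f3 * f0) - 2 * (g3 * g0), d103], fun a b c => ?_⟩
  simp only [q3, Matrix.cons_val]
  linear_combination e8 * a ^ 4 + e7 * a ^ 3 * b + e6 * a ^ 2 * b ^ 2 + e5 * a * b ^ 3 +
    e4 * a * b ^ 2 * c + e3 * b ^ 3 * c + e2 * b ^ 2 * c ^ 2 + e1 * b * c ^ 3 + e0 * c ^ 4

/-- the form used for cubics -/
theorem conic_sos_cubic (l1 l2 l3 p300 p210 p201 p120 p111 p102 p030 p021 p012 p003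
    m200 m110 m101 m020 m011 m002 : ℝ)
    (h : ∀ s t : ℝ, 0 ≤ -4 * (l1 * (s ^ 2) + l2 * (s * t) + l3 * (t ^ 2)) *
      (p300 * (s ^ 2) ^ 3 + p210 * ((s ^ 2) ^ 2 * (s * t)) + p201 * ((s ^ 2) ^ 2 * (t ^ 2)) +
        p120 * ((s ^ 2) * (s * t) ^ 2) + p111 * ((s ^ 2) * (s * t) * (t ^ 2)) +
        p102 * ((s ^ 2) * (t ^ 2) ^ 2) + p030 * (s * t) ^ 3 + p021 * ((s * t) ^ 2 * (t ^ 2)) +
        p012 * ((s * t) * (t ^ 2) ^ 2) + p003 * (t ^ 2) ^ 3) -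
      (m200 * (s ^ 2) ^ 2 + m110 * ((s ^ 2) * (s * t)) + m101 * ((s ^ 2) * (t ^ 2)) +
        m020 * (s * t) ^ 2 + m011 * ((s * t) * (t ^ 2)) + m002 * (t ^ 2) ^ 2) ^ 2) :
    ∃ f g k : Fin 6 → ℝ, ∀ a b c : ℝ, -4 * (l1 * a + l2 * b + l3 * c) *
      (p300 * a ^ 3 + p210 * (a ^ 2 * b) + p201 * (a ^ 2 * c) + p120 * (a * b ^ 2) +
        p111 * (a * b * c) + p102 * (a * c ^ 2) + p030 * b ^ 3 + p021 * (b ^ 2 * c) +
        p012 * (b * c ^ 2) + p003 * c ^ 3) -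
      (m200 * a ^ 2 + m110 * (a * b) + m101 * (a * c) + m020 * b ^ 2 + m011 * (b * c) +
        m002 * c ^ 2) ^ 2 =
      q3 f a b c ^ 2 + q3 g a b c ^ 2 + (a * c - b ^ 2) * q3 k a b c := by
  obtain ⟨f, g, k, hk⟩ := conic_sos
    (-4 * (l1 * p300) - (m200 * m200))
    (-4 * (l1 * p210 + l2 * p300) - (m200 * m110 + m110 * m200))
    (-4 * (l1 * p201 + l3 * p300) - (m200 * m101 + m101 * m200))
    (-4 * (l1 * p120 + l2 * p210) - (m200 * m020 + m110 * m110 + m020 * m200))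
    (-4 * (l1 * p111 + l2 * p201 + l3 * p210) - (m200 * m011 + m110 * m101 + m101 * m110 + m011 * m200))
    (-4 * (l1 * p102 + l3 * p201) - (m200 * m002 + m101 * m101 + m002 * m200))
    (-4 * (l1 * p030 + l2 * p120) - (m110 * m020 + m020 * m110))
    (-4 * (l1 * p021 + l2 * p111 + l3 * p120) - (m110 * m011 + m101 * m020 + m020 * m101 + m011 * m110))
    (-4 * (l1 * p012 + l2 * p102 + l3 * p111) - (m110 * m002 + m101 * m011 + m011 * m101 + m002 * m110))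
    (-4 * (l1 * p003 + l3 * p102) - (m101 * m002 + m002 * m101))
    (-4 * (l2 * p030) - (m020 * m020))
    (-4 * (l2 * p021 + l3 * p030) - (m020 * m011 + m011 * m020))
    (-4 * (l2 * p012 + l3 * p021) - (m020 * m002 + m011 * m011 + m002 * m020))
    (-4 * (l2 * p003 + l3 * p012) - (m011 * m002 + m002 * m011))
    (-4 * (l3 * p003) - (m002 * m002))
    (fun s t => by have := h s t; linarith)
  refine ⟨f, g, k, fun a b c => ?_⟩
  rw [← hk a b c]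
  ring

end Vale.Agent.P256
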