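import Vale.Agent.P256.C5.CasesAB
import Vale.Agent.P256.C5.S2
import Vale.Agent.P256.C5.L

/-! Tangent form of rank three. -/

namespace Vale.Agent.P256

open Polynomial Filter Topology

variable {n : ℕ} {p : MvPolynomial (Fin n) ℝ} {e z : Fin n → ℝ}

/-- the bilinear form attached to a quadratic form in three linear forms -/
noncomputable def bil3 (f : Fin 6 → ℝ) (a b c : (Fin n → ℝ) →ₗ[ℝ] ℝ) :
    (Fin n → ℝ) →ₗ[ℝ] (Fin n → ℝ) →ₗ[ℝ] ℝ :=
  f 0 • a.smulRight a + f 1 • a.smulRight b + f 2 • a.smulRight c + f 3 • b.smulRight b +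
    f 4 • b.smulRight c + f 5 • c.smulRight c

theorem bil3_self (f : Fin 6 → ℝ) (a b c : (Fin n → ℝ) →ₗ[ℝ] ℝ) (x : Fin n → ℝ) :
    bil3 f a b c x x = q3 f (a x) (b x) (c x) := by
  simp only [bil3, q3, LinearMap.add_apply, LinearMap.smul_apply, LinearMap.smulRight_apply,
    smul_eq_mul]
  ring

/-- the elementary facts about a linear form which is nonnegative on the conic -/
theorem conic_lin {l1 l2 l3 : ℝ} (h : ∀ s t : ℝ, 0 ≤ l1 * s ^ 2 + l2 * (s * t) + l3 * t ^ 2) :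
    0 ≤ l1 ∧ 0 ≤ l3 ∧ l2 ^ 2 ≤ 4 * l1 * l3 := by
  have h1 := h 1 0
  have h3 := h 0 1
  have e1 : 0 ≤ l1 := by linarith
  have e3 : 0 ≤ l3 := by linarith
  refine ⟨e1, e3, ?_⟩
  rcases e1.eq_or_lt with h0 | h0
  · -- `l1 = 0`
    have h2 : l2 = 0 := by
      by_contra hne
      have h4 := h (-(l3 + 1) / l2) 1
      have h5 : l2 * (-(l3 + 1) / l2 * 1) = -(l3 + 1) := by field_simp
      rw [← h0, h5] at h4
      linarith
    rw [h2, ← h0]
    norm_num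
  · have h4 := h (-l2) (2 * l1)
    have h5 : l1 * (-l2) ^ 2 + l2 * (-l2 * (2 * l1)) + l3 * (2 * l1) ^ 2 =
        l1 * (4 * l1 * l3 - l2 ^ 2) := by ring
    rw [h5] at h4
    have := nonneg_of_mul_nonneg_right h4 h0
    linarith

theorem conic_lin_nonneg {l1 l2 l3 A B C : ℝ} (h1 : 0 ≤ l1) (h3 : 0 ≤ l3)
    (h2 : l2 ^ 2 ≤ 4 * l1 * l3) (hA : 0 ≤ A) (hC : 0 ≤ C) (hB : B ^ 2 ≤ A * C) :
    0 ≤ l1 * A + l2 * B + l3 * C := by
  by_contra hlt
  push Not at hlt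
  have hS : 0 ≤ l1 * A + l3 * C := by positivity
  have e1 : (l1 * A + l3 * C) ^ 2 < (l2 * B) ^ 2 := by nlinarith
  have e2 : (l2 * B) ^ 2 ≤ 4 * l1 * l3 * (A * C) := by
    have e3 : (l2 * B) ^ 2 = l2 ^ 2 * B ^ 2 := by ring
    rw [e3]
    exact mul_le_mul h2 hB (sq_nonneg _) (by positivity)
  nlinarith [sq_nonneg (l1 * A - l3 * C)]

theorem conic_lin_neg {l1 l2 l3 A B C : ℝ} (h1 : 0 ≤ l1) (h3 : 0 ≤ l3)
    (h2 : l2 ^ 2 ≤ 4 * l1 * l3) (hpos : 0 < l1 + l3) (h0 : l1 * A + l2 * B + l3 * C = 0) :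
    A * C - B ^ 2 ≤ 0 := by
  by_contra hlt
  push Not at hlt
  have key : ∀ X Y : ℝ, 0 ≤ l1 * X ^ 2 + l2 * (X * Y) + l3 * Y ^ 2 := by
    intro X Y
    have := conic_lin_nonneg (l1 := l1) (l2 := l2) (l3 := l3) (A := X ^ 2) (B := X * Y)
      (C := Y ^ 2) h1 h3 h2 (sq_nonneg _) (sq_nonneg _) (by nlinarith)
    exact this
  have e1 : l3 * (A * C - B ^ 2) ≤ 0 := by
    have := key A B
    have e : A * (l1 * A + l2 * B + l3 * C) = 0 := by rw [h0, mul_zero]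
    nlinarith
  have e2 : l1 * (A * C - B ^ 2) ≤ 0 := by
    have := key B C
    have e : C * (l1 * A + l2 * B + l3 * C) = 0 := by rw [h0, mul_zero]
    nlinarith
  nlinarith

theorem q3_nonneg {l1 l2 l3 : ℝ} {k : Fin 6 → ℝ} (h1 : 0 ≤ l1) (h3 : 0 ≤ l3)
    (h2 : l2 ^ 2 ≤ 4 * l1 * l3) (hpos : 0 < l1 + l3)
    (hk : ∀ A B C : ℝ, l1 * A + l2 * B + l3 * C = 0 → (A * C - B ^ 2) * q3 k A B C ≤ 0)
    {A B C : ℝ} (h0 : l1 * A + l2 * B + l3 * C = 0) : 0 ≤ q3 k A B C := by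
  -- a direction
  obtain ⟨A', B', C', hd0, hdn, hdm⟩ : ∃ A' B' C' : ℝ, l1 * A' + l2 * B' + l3 * C' = 0 ∧
      A' * C' - B' ^ 2 < 0 ∧ A * C' + A' * C - 2 * B * B' ≤ 0 := by
    have h4 : ∃ A' B' C' : ℝ, l1 * A' + l2 * B' + l3 * C' = 0 ∧ A' * C' - B' ^ 2 < 0 := by
      by_cases h5 : 0 < l1 * l3
      · exact ⟨l3, 0, -l1, by ring, by nlinarith⟩
      · have h6 : l1 * l3 = 0 := le_antisymm (not_lt.1 h5) (mul_nonneg h1 h3)
        have h7 : l2 = 0 := by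
          have : l2 ^ 2 ≤ 0 := by nlinarith
          exact pow_eq_zero_iff (two_ne_zero) |>.1 (le_antisymm this (sq_nonneg _))
        exact ⟨0, 1, 0, by rw [h7]; ring, by norm_num⟩
    obtain ⟨A', B', C', e1, e2⟩ := h4
    rcases le_total (A * C' + A' * C - 2 * B * B') 0 with h5 | h5
    · exact ⟨A', B', C', e1, e2, h5⟩
    · exact ⟨-A', -B', -C', by linarith, by nlinarith, by linarith⟩
  have hc : Continuous (fun t : ℝ => q3 k (A + t * A') (B + t * B') (C + t * C')) := by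
    unfold q3
    fun_prop
  have h4 := (hc.tendsto 0).mono_left (nhdsWithin_le_nhds (s := Set.Ioi 0))
  simp only [zero_mul, add_zero] at h4
  refine ge_of_tendsto h4 ?_
  filter_upwards [self_mem_nhdsWithin] with t ht
  have ht' : (0 : ℝ) < t := ht
  have h5 := hk (A + t * A') (B + t * B') (C + t * C') (by linear_combination h0 + t * hd0)
  have h6 := conic_lin_neg h1 h3 h2 hpos h0
  have h7 : (A + t * A') * (C + t * C') - (B + t * B') ^ 2 < 0 := by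
    have e : (A + t * A') * (C + t * C') - (B + t * B') ^ 2 =
      (A * C - B ^ 2) + t * (A * C' + A' * C - 2 * B * B') + t ^ 2 * (A' * C' - B' ^ 2) := by
      ring
    rw [e]
    have e1 : t * (A * C' + A' * C - 2 * B * B') ≤ 0 := mul_nonpos_of_nonneg_of_nonpos ht'.le hdm
    have e2 : t ^ 2 * (A' * C' - B' ^ 2) < 0 := mul_neg_of_pos_of_neg (by positivity) hdn
    linarith
  by_contra hlt
  push Not at hlt
  have := mul_pos_of_neg_of_neg h7 hlt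
  linarith

/-- the algebraic data in the case of rank three -/
theorem DPt.conic_data (h : DPt p e z) {v : Fin n → ℝ} (hv : ∀ y, triL p z v y = 0)
    {a b c s τ : (Fin n → ℝ) →ₗ[ℝ] ℝ} {Ea Eb Ec : Fin n → ℝ}
    (haa : a Ea = 1) (hab : a Eb = 0) (hac : a Ec = 0)
    (hba : b Ea = 0) (hbb : b Eb = 1) (hbc : b Ec = 0)
    (hca : c Ea = 0) (hcb : c Eb = 0) (hcc : c Ec = 1)
    (hq : ∀ x y, 3 * triL p z x y = (a x * c y + a y * c x) / 2 - b x * b y)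
    (hx : ∀ x, x = s x • z + τ x • v + a x • Ea + b x • Eb + c x • Ec) :
    ∃ l1 l2 l3 p300 p210 p201 p120 p111 p102 p030 p021 p012 p003 m200 m110 m101 m020 m011 m002 : ℝ,
      (∀ x, -(3 * triL p v v x) = l1 * a x + l2 * b x + l3 * c x) ∧ (∀ x, 3 * triL p v x x
      = (m200 * (a x) ^ 2 + m110 * ((a x) * (b x)) + m101 * ((a x) * (c x)) + m020 * (b x)
      ^ 2 + m011 * ((b x) * (c x)) + m002 * (c x) ^ 2) - 2 * τ x * (l1 * a x + l2 * b x +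
      l3 * c x)) ∧
      ∀ A B C σ S : ℝ, MvPolynomial.eval (A • Ea + B • Eb + C • Ec + σ • v + S • z) p = S
      * (A * C - B ^ 2) + (p300 * A ^ 3 + p210 * (A ^ 2 * B) + p201 * (A ^ 2 * C) + p120 *
      (A * B ^ 2) + p111 * (A * B * C) + p102 * (A * C ^ 2) + p030 * B ^ 3 + p021 * (B ^ 2
      * C) + p012 * (B * C ^ 2) + p003 * C ^ 3) + σ * (m200 * A ^ 2 + m110 * (A * B) +
      m101 * (A * C) + m020 * B ^ 2 + m011 * (B * C) + m002 * C ^ 2) - σ ^ 2 * (l1 * A +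
      l2 * B + l3 * C) := by
  have hd := h.hom
  -- kernel
  have hz0 : a z = 0 ∧ b z = 0 ∧ c z = 0 := by
    have h1 := hq z Ea
    have h2 := hq z Eb
    have h3 := hq z Ec
    rw [h.grad, haa, hba, hca] at h1
    rw [h.grad, hab, hbb, hcb] at h2
    rw [h.grad, hac, hbc, hcc] at h3
    refine ⟨?_, ?_, ?_⟩ <;> linarith
  have hv0 : a v = 0 ∧ b v = 0 ∧ c v = 0 := by
    have h1 := hq v Ea
    have h2 := hq v Eb
    have h3 := hq v Ec
    rw [hv, haa, hba, hca] at h1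
    rw [hv, hab, hbb, hcb] at h2
    rw [hv, hac, hbc, hcc] at h3
    refine ⟨?_, ?_, ?_⟩ <;> linarith
  obtain ⟨haz, hbz, hcz⟩ := hz0
  obtain ⟨hav, hbv, hcv⟩ := hv0
  have hpv : triL p v v v = 0 := by
    rw [← tri_diag hd]
    exact h.zero_of_ker hv
  -- the linear form
  set l1 := -(3 * triL p v v Ea) with hl1
  set l2 := -(3 * triL p v v Eb) with hl2
  set l3 := -(3 * triL p v v Ec) with hl3
  have hvz0 : triL p v v z = 0 := by
    rw [triL_swap23, triL_swap12]; exact hv v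
  have hℓ : ∀ x, -(3 * triL p v v x) = l1 * a x + l2 * b x + l3 * c x := by
    intro x
    conv_lhs => rw [hx x]
    simp only [map_add, map_smul, smul_eq_mul, hvz0, hpv]
    rw [hl1, hl2, hl3]
    ring
  -- the quadratic form
  have hM : ∀ x, 3 * triL p v x x =
      (3 * triL p v Ea Ea * (a x) ^ 2 + 6 * triL p v Ea Eb * (a x * b x) +
        6 * triL p v Ea Ec * (a x * c x) + 3 * triL p v Eb Eb * (b x) ^ 2 +
        6 * triL p v Eb Ec * (b x * c x) + 3 * triL p v Ec Ec * (c x) ^ 2) -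
      2 * τ x * (l1 * a x + l2 * b x + l3 * c x) := by
    intro x
    have hvz1 : ∀ y, triL p v z y = 0 := fun y => by rw [triL_swap12]; exact hv y
    conv_lhs => rw [hx x]
    simp only [map_add, map_smul, smul_eq_mul, LinearMap.add_apply, LinearMap.smul_apply, hvz1,
      hpv, triL_swap23 p v Ea z, triL_swap23 p v Eb z, triL_swap23 p v Ec z,
      triL_swap23 p v v z]
    rw [triL_swap23 p v Ea v, triL_swap23 p v Eb v, triL_swap23 p v Ec v,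
      triL_swap23 p v Eb Ea, triL_swap23 p v Ec Ea, triL_swap23 p v Ec Eb, hl1, hl2, hl3]
    ring
  -- the cubic
  have hPc : ∀ A B C σ S : ℝ, MvPolynomial.eval (A • Ea + B • Eb + C • Ec + σ • v + S • z) p =
      S * (A * C - B ^ 2) +
      (triL p Ea Ea Ea * A ^ 3 + 3 * triL p Ea Ea Eb * (A ^ 2 * B) +
        3 * triL p Ea Ea Ec * (A ^ 2 * C) + 3 * triL p Ea Eb Eb * (A * B ^ 2) +
        6 * triL p Ea Eb Ec * (A * B * C) + 3 * triL p Ea Ec Ec * (A * C ^ 2) +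
        triL p Eb Eb Eb * B ^ 3 + 3 * triL p Eb Eb Ec * (B ^ 2 * C) +
        3 * triL p Eb Ec Ec * (B * C ^ 2) + triL p Ec Ec Ec * C ^ 3) +
      σ * (3 * triL p v Ea Ea * A ^ 2 + 6 * triL p v Ea Eb * (A * B) +
        6 * triL p v Ea Ec * (A * C) + 3 * triL p v Eb Eb * B ^ 2 +
        6 * triL p v Eb Ec * (B * C) + 3 * triL p v Ec Ec * C ^ 2) -
      σ ^ 2 * (l1 * A + l2 * B + l3 * C) := by
    intro A B C σ S
    set y : Fin n → ℝ := A • Ea + B • Eb + C • Ec with hy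
    have h2 : 3 * triL p z (y + σ • v) (y + σ • v) = A * C - B ^ 2 := by
      rw [hq]
      simp only [hy, map_add, map_smul, smul_eq_mul, haa, hab, hac, hba, hbb, hbc, hca, hcb, hcc,
        hav, hbv, hcv]
      ring
    rw [h.eval_add, h2, eval_add_cubic hd, tri_diag hd y, eval_smul' hd, tri_diag hd v, hpv]
    simp only [hy, map_add, map_smul, smul_eq_mul, LinearMap.add_apply, LinearMap.smul_apply]
    rw [triL_swap23 p Ea Ea v, triL_swap12 p Ea v Ea, triL_swap23 p Ea Eb v,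
      triL_swap12 p Ea v Eb, triL_swap23 p Ea Ec v, triL_swap12 p Ea v Ec,
      triL_swap23 p Eb Ea v, triL_swap12 p Eb v Ea, triL_swap23 p Eb Eb v,
      triL_swap12 p Eb v Eb, triL_swap23 p Eb Ec v, triL_swap12 p Eb v Ec,
      triL_swap23 p Ec Ea v, triL_swap12 p Ec v Ea, triL_swap23 p Ec Eb v,
      triL_swap12 p Ec v Eb, triL_swap23 p Ec Ec v, triL_swap12 p Ec v Ec,
      triL_swap12 p Ea v v, triL_swap23 p v Ea v, triL_swap12 p Eb v v, triL_swap23 p v Eb v,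
      triL_swap12 p Ec v v, triL_swap23 p v Ec v]
    rw [triL_swap23 p v Eb Ea, triL_swap23 p v Ec Ea, triL_swap23 p v Ec Eb]
    rw [triL_swap12 p Eb Ea Ea, triL_swap23 p Ea Eb Ea, triL_swap12 p Ec Ea Ea,
      triL_swap23 p Ea Ec Ea, triL_swap12 p Eb Ea Eb, triL_swap23 p Eb Eb Ea,
      triL_swap12 p Eb Ea Eb, triL_swap12 p Eb Ea Ec, triL_swap23 p Ea Ec Eb,
      triL_swap12 p Ec Ea Eb, triL_swap23 p Ea Ec Eb, triL_swap12 p Ec Eb Ea,
      triL_swap23 p Eb Ec Ea, triL_swap12 p Eb Ea Ec, triL_swap12 p Ec Ea Ec,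
      triL_swap23 p Ec Ec Ea, triL_swap12 p Ec Ea Ec, triL_swap23 p Eb Ec Eb,
      triL_swap12 p Ec Eb Eb, triL_swap23 p Eb Ec Eb, triL_swap12 p Ec Eb Ec,
      triL_swap23 p Ec Ec Eb, triL_swap12 p Ec Eb Ec, hl1, hl2, hl3]
    ring
  exact ⟨l1, l2, l3, _, _, _, _, _, _, _, _, _, _, _, _, _, _, _, _, hℓ, hM, hPc⟩

/-- positivity on the conic -/
theorem DPt.conic_neg (h : DPt p e z) {v : Fin n → ℝ} (hv : ∀ y, triL p z v y = 0)
    {a b c : (Fin n → ℝ) →ₗ[ℝ] ℝ} {Ea Eb Ec : Fin n → ℝ}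
    (haa : a Ea = 1) (hab : a Eb = 0) (hac : a Ec = 0)
    (hba : b Ea = 0) (hbb : b Eb = 1) (hbc : b Ec = 0)
    (hca : c Ea = 0) (hcb : c Eb = 0) (hcc : c Ec = 1)
    (hae : 0 < a e) (hce : c e = a e) (hbe : b e = 0)
    (hq : ∀ x y, 3 * triL p z x y = (a x * c y + a y * c x) / 2 - b x * b y) (α β σ : ℝ) :
    MvPolynomial.eval
      ((α ^ 2) • Ea + (α * β) • Eb + (β ^ 2) • Ec + σ • v + (0 : ℝ) • z) p ≤ 0 := by
  have hd := h.hom
  -- kernel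
  have hz0 : a z = 0 ∧ b z = 0 ∧ c z = 0 := by
    have h1 := hq z Ea
    have h2 := hq z Eb
    have h3 := hq z Ec
    rw [h.grad, haa, hba, hca] at h1
    rw [h.grad, hab, hbb, hcb] at h2
    rw [h.grad, hac, hbc, hcc] at h3
    refine ⟨?_, ?_, ?_⟩ <;> linarith
  have hv0 : a v = 0 ∧ b v = 0 ∧ c v = 0 := by
    have h1 := hq v Ea
    have h2 := hq v Eb
    have h3 := hq v Ec
    rw [hv, haa, hba, hca] at h1
    rw [hv, hab, hbb, hcb] at h2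
    rw [hv, hac, hbc, hcc] at h3
    refine ⟨?_, ?_, ?_⟩ <;> linarith
  obtain ⟨haz, hbz, hcz⟩ := hz0
  obtain ⟨hav, hbv, hcv⟩ := hv0
  refine h.nonpos ?_ ?_
  · rw [mem_hypCone_iff (part_homog p z 2)]
    intro t ht
    rw [part2 hd, hq]
    simp only [map_add, map_smul, smul_eq_mul, haa, hab, hac, hba, hbb, hbc, hca, hcb, hcc,
      hav, hbv, hcv, haz, hbz, hcz, hce, hbe]
    have h1 : 0 < t * a e * (α ^ 2 + β ^ 2) + (t * a e) ^ 2 := by positivity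
    intro h2
    nlinarith
  · have h1 := hq ((α ^ 2) • Ea + (α * β) • Eb + (β ^ 2) • Ec + σ • v + (0 : ℝ) • z)
      ((α ^ 2) • Ea + (α * β) • Eb + (β ^ 2) • Ec + σ • v + (0 : ℝ) • z)
    have h2 : (3 : ℝ) * triL p z ((α ^ 2) • Ea + (α * β) • Eb + (β ^ 2) • Ec + σ • v + (0 : ℝ) • z)
      ((α ^ 2) • Ea + (α * β) • Eb + (β ^ 2) • Ec + σ • v + (0 : ℝ) • z) = 0 := by
      rw [h1]
      simp only [map_add, map_smul, smul_eq_mul, haa, hab, hac, hba, hbb, hbc, hca, hcb, hcc,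
        hav, hbv, hcv, haz, hbz, hcz]
      ring
    linarith

theorem conic_hlin {l1 l2 l3 p300 p210 p201 p120 p111 p102 p030 p021 p012 p003 m200 m110 m101 m020 m011 m002 : ℝ}
    (hquad : ∀ α β σ : ℝ, (p300 * (α ^ 2) ^ 3 + p210 * ((α ^ 2) ^ 2 * (α * β)) + p201 * ((α
    ^ 2) ^ 2 * (β ^ 2)) + p120 * ((α ^ 2) * (α * β) ^ 2) + p111 * ((α ^ 2) * (α * β) * (β ^
    2)) + p102 * ((α ^ 2) * (β ^ 2) ^ 2) + p030 * (α * β) ^ 3 + p021 * ((α * β) ^ 2 * (β ^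
    2)) + p012 * ((α * β) * (β ^ 2) ^ 2) + p003 * (β ^ 2) ^ 3) + σ * (m200 * (α ^ 2) ^ 2 +
    m110 * ((α ^ 2) * (α * β)) + m101 * ((α ^ 2) * (β ^ 2)) + m020 * (α * β) ^ 2 + m011 *
    ((α * β) * (β ^ 2)) + m002 * (β ^ 2) ^ 2) - σ ^ 2 * (l1 * (α ^ 2) + l2 * (α * β) + l3 *
    (β ^ 2)) ≤ 0) :
    ∀ α β : ℝ, 0 ≤ l1 * α ^ 2 + l2 * (α * β) + l3 * β ^ 2 := by
  intro α β
  have h1 := nonpos_of_small (A := -(l1 * α ^ 2 + l2 * (α * β) + l3 * β ^ 2))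
    (B := m200 * (α ^ 2) ^ 2 + m110 * ((α ^ 2) * (α * β)) + m101 * ((α ^ 2) * (β ^ 2)) +
      m020 * (α * β) ^ 2 + m011 * ((α * β) * (β ^ 2)) + m002 * (β ^ 2) ^ 2)
    (C := p300 * (α ^ 2) ^ 3 + p210 * ((α ^ 2) ^ 2 * (α * β)) + p201 * ((α ^ 2) ^ 2 * (β ^ 2)) +
      p120 * ((α ^ 2) * (α * β) ^ 2) + p111 * ((α ^ 2) * (α * β) * (β ^ 2)) +
      p102 * ((α ^ 2) * (β ^ 2) ^ 2) + p030 * (α * β) ^ 3 + p021 * ((α * β) ^ 2 * (β ^ 2)) +
      p012 * ((α * β) * (β ^ 2) ^ 2) + p003 * (β ^ 2) ^ 3) (fun t ht => by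
      have h2 := mul_nonpos_of_nonneg_of_nonpos (sq_nonneg t) (hquad α β (1 / t))
      generalize p300 * (α ^ 2) ^ 3 + p210 * ((α ^ 2) ^ 2 * (α * β)) +
        p201 * ((α ^ 2) ^ 2 * (β ^ 2)) +
        p120 * ((α ^ 2) * (α * β) ^ 2) + p111 * ((α ^ 2) * (α * β) * (β ^ 2)) +
        p102 * ((α ^ 2) * (β ^ 2) ^ 2) + p030 * (α * β) ^ 3 + p021 * ((α * β) ^ 2 * (β ^ 2)) +
        p012 * ((α * β) * (β ^ 2) ^ 2) + p003 * (β ^ 2) ^ 3 = PP at h2 ⊢
      generalize m200 * (α ^ 2) ^ 2 + m110 * ((α ^ 2) * (α * β)) + m101 * ((α ^ 2) * (β ^ 2)) +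
        m020 * (α * β) ^ 2 + m011 * ((α * β) * (β ^ 2)) + m002 * (β ^ 2) ^ 2 = MM at h2 ⊢
      have h3 : t ^ 2 * (PP + 1 / t * MM - (1 / t) ^ 2 * (l1 * α ^ 2 + l2 * (α * β) +
        l3 * β ^ 2)) = -(l1 * α ^ 2 + l2 * (α * β) + l3 * β ^ 2) + MM * t + PP * t ^ 2 := by
        field_simp
        ring
      rw [h3] at h2
      exact h2)
  linarith

theorem conic_hdisc {l1 l2 l3 p300 p210 p201 p120 p111 p102 p030 p021 p012 p003 m200 m110 m101 m020 m011 m002 : ℝ}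
    (hquad : ∀ α β σ : ℝ, (p300 * (α ^ 2) ^ 3 + p210 * ((α ^ 2) ^ 2 * (α * β)) + p201 * ((α
    ^ 2) ^ 2 * (β ^ 2)) + p120 * ((α ^ 2) * (α * β) ^ 2) + p111 * ((α ^ 2) * (α * β) * (β ^
    2)) + p102 * ((α ^ 2) * (β ^ 2) ^ 2) + p030 * (α * β) ^ 3 + p021 * ((α * β) ^ 2 * (β ^
    2)) + p012 * ((α * β) * (β ^ 2) ^ 2) + p003 * (β ^ 2) ^ 3) + σ * (m200 * (α ^ 2) ^ 2 +
    m110 * ((α ^ 2) * (α * β)) + m101 * ((α ^ 2) * (β ^ 2)) + m020 * (α * β) ^ 2 + m011 *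
    ((α * β) * (β ^ 2)) + m002 * (β ^ 2) ^ 2) - σ ^ 2 * (l1 * (α ^ 2) + l2 * (α * β) + l3 *
    (β ^ 2)) ≤ 0) :
    ∀ α β : ℝ, 0 ≤ -4 * (l1 * (α ^ 2) + l2 * (α * β) + l3 * (β ^ 2)) *
      (p300 * (α ^ 2) ^ 3 + p210 * ((α ^ 2) ^ 2 * (α * β)) + p201 * ((α ^ 2) ^ 2 * (β ^ 2)) +
        p120 * ((α ^ 2) * (α * β) ^ 2) + p111 * ((α ^ 2) * (α * β) * (β ^ 2)) +
        p102 * ((α ^ 2) * (β ^ 2) ^ 2) + p030 * (α * β) ^ 3 + p021 * ((α * β) ^ 2 * (β ^ 2)) +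
        p012 * ((α * β) * (β ^ 2) ^ 2) + p003 * (β ^ 2) ^ 3) -
      (m200 * (α ^ 2) ^ 2 + m110 * ((α ^ 2) * (α * β)) + m101 * ((α ^ 2) * (β ^ 2)) +
        m020 * (α * β) ^ 2 + m011 * ((α * β) * (β ^ 2)) + m002 * (β ^ 2) ^ 2) ^ 2 := by
  intro α β
  have h1 := hquad α β
  generalize p300 * (α ^ 2) ^ 3 + p210 * ((α ^ 2) ^ 2 * (α * β)) +
    p201 * ((α ^ 2) ^ 2 * (β ^ 2)) +
    p120 * ((α ^ 2) * (α * β) ^ 2) + p111 * ((α ^ 2) * (α * β) * (β ^ 2)) +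
    p102 * ((α ^ 2) * (β ^ 2) ^ 2) + p030 * (α * β) ^ 3 + p021 * ((α * β) ^ 2 * (β ^ 2)) +
    p012 * ((α * β) * (β ^ 2) ^ 2) + p003 * (β ^ 2) ^ 3 = PP at h1 ⊢
  generalize m200 * (α ^ 2) ^ 2 + m110 * ((α ^ 2) * (α * β)) + m101 * ((α ^ 2) * (β ^ 2)) +
    m020 * (α * β) ^ 2 + m011 * ((α * β) * (β ^ 2)) + m002 * (β ^ 2) ^ 2 = MM at h1 ⊢
  generalize l1 * (α ^ 2) + l2 * (α * β) + l3 * (β ^ 2) = LL at h1 ⊢
  have h2 := discrim_le_zero (a := LL) (b := -MM) (c := -PP) (fun x => by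
    have := h1 x
    nlinarith)
  unfold discrim at h2
  nlinarith

theorem DPt.conic_l0 (h : DPt p e z) (hpt : ∀ x ∈ hypCone p e, -x ∈ hypCone p e → x = 0)
    {v : Fin n → ℝ} (hv : ∀ y, triL p z v y = 0) (hvz : ∀ t : ℝ, v ≠ t • z)
    {a b c τ : (Fin n → ℝ) →ₗ[ℝ] ℝ}
    (hq : ∀ x y, 3 * triL p z x y = (a x * c y + a y * c x) / 2 - b x * b y)
    {l1 l2 l3 p300 p210 p201 p120 p111 p102 p030 p021 p012 p003 m200 m110 m101 m020 m011 m002 : ℝ}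
    (hℓ : ∀ x, -(3 * triL p v v x) = l1 * a x + l2 * b x + l3 * c x)
    (hM : ∀ x, 3 * triL p v x x = (m200 * (a x) ^ 2 + m110 * ((a x) * (b x)) + m101 * ((a x)
    * (c x)) + m020 * (b x) ^ 2 + m011 * ((b x) * (c x)) + m002 * (c x) ^ 2) - 2 * τ x * (l1
    * a x + l2 * b x + l3 * c x))
    (hdisc : ∀ α β : ℝ, 0 ≤ -4 * (l1 * (α ^ 2) + l2 * (α * β) + l3 * (β ^ 2)) *
      (p300 * (α ^ 2) ^ 3 + p210 * ((α ^ 2) ^ 2 * (α * β)) + p201 * ((α ^ 2) ^ 2 * (β ^ 2)) +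
        p120 * ((α ^ 2) * (α * β) ^ 2) + p111 * ((α ^ 2) * (α * β) * (β ^ 2)) +
        p102 * ((α ^ 2) * (β ^ 2) ^ 2) + p030 * (α * β) ^ 3 + p021 * ((α * β) ^ 2 * (β ^ 2)) +
        p012 * ((α * β) * (β ^ 2) ^ 2) + p003 * (β ^ 2) ^ 3) -
      (m200 * (α ^ 2) ^ 2 + m110 * ((α ^ 2) * (α * β)) + m101 * ((α ^ 2) * (β ^ 2)) +
        m020 * (α * β) ^ 2 + m011 * ((α * β) * (β ^ 2)) + m002 * (β ^ 2) ^ 2) ^ 2)
    (e1 : 0 ≤ l1) (e3 : 0 ≤ l3) (e2 : l2 ^ 2 ≤ 4 * l1 * l3) : 0 < l1 + l3 := by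
  have hd := h.hom
  by_contra hlt
  push Not at hlt
  have z1 : l1 = 0 := by linarith
  have z3 : l3 = 0 := by linarith
  have z2 : l2 = 0 := by
    rw [z1, z3, mul_zero] at e2
    exact pow_eq_zero_iff (two_ne_zero) |>.1 (le_antisymm e2 (sq_nonneg _))
  have hM0 : ∀ α β : ℝ, m200 * (α ^ 2) ^ 2 + m110 * ((α ^ 2) * (α * β)) +
      m101 * ((α ^ 2) * (β ^ 2)) + m020 * (α * β) ^ 2 + m011 * ((α * β) * (β ^ 2)) +
      m002 * (β ^ 2) ^ 2 = 0 := by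
    intro α β
    have h1 := hdisc α β
    rw [z1, z2, z3] at h1
    have h2 : (m200 * (α ^ 2) ^ 2 + m110 * ((α ^ 2) * (α * β)) + m101 * ((α ^ 2) * (β ^ 2)) +
      m020 * (α * β) ^ 2 + m011 * ((α * β) * (β ^ 2)) + m002 * (β ^ 2) ^ 2) ^ 2 ≤ 0 := by
      linarith
    exact pow_eq_zero_iff (two_ne_zero) |>.1 (le_antisymm h2 (sq_nonneg _))
  have k1 := hM0 1 0
  have k2 := hM0 0 1
  have k3 := hM0 1 1
  have k4 := hM0 1 (-1)
  have k5 := hM0 1 2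
  norm_num at k1 k2 k3 k4 k5
  have k6 : m110 = 0 := by linarith
  have k7 : m011 = 0 := by linarith
  have k8 : m020 = -m101 := by linarith
  have hM1 : ∀ x, 3 * triL p v x x = m101 * (3 * triL p z x x) := by
    intro x
    rw [hM, hq, z1, z2, z3, k1, k2, k6, k7, k8]
    ring
  set u : Fin n → ℝ := v - m101 • z with hu
  have hku : ∀ y, triL p z u y = 0 := by
    intro y
    rw [hu, map_sub, map_smul, LinearMap.sub_apply, LinearMap.smul_apply, hv, h.grad]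
    simp
  have hinv : ∀ (y : Fin n → ℝ) (t : ℝ), MvPolynomial.eval (y + t • u) p =
      MvPolynomial.eval y p := by
    intro y t
    have h1 : triL p y y u = 0 := by
      have h2 := hM1 y
      rw [hu, map_sub, map_smul, smul_eq_mul, triL_swap23 p y y v, triL_swap12 p y v y,
        triL_swap23 p y y z, triL_swap12 p y z y]
      linarith
    have h3 : triL p y u u = 0 := by
      have h4 := hℓ y
      rw [z1, z2, z3] at h4
      have h5 : triL p y u u = triL p v v y := by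
        rw [triL_swap12, triL_swap23, hu]
        simp only [map_sub, map_smul, LinearMap.sub_apply, LinearMap.smul_apply, smul_eq_mul,
          hv, h.grad, triL_swap12 p v z y]
        ring
      rw [h5]
      linarith
    rw [eval_add_cubic hd, eval_smul' hd, h.zero_of_ker hku]
    simp only [map_smul, LinearMap.smul_apply, smul_eq_mul, h1, h3]
    ring
  have hmem : ∀ t : ℝ, t • u ∈ hypCone p e := by
    intro t
    rw [mem_hypCone_iff hd]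
    intro r hr
    rw [add_comm, hinv, eval_smul' hd]
    exact mul_ne_zero (pow_ne_zero _ hr.ne') h.hyp.2.1.ne'
  have hu0 := hpt u (by simpa using hmem 1) (by simpa using hmem (-1))
  exact hvz m101 (sub_eq_zero.1 hu0)

theorem DPt.conic_lor (h : DPt p e z) {v : Fin n → ℝ}
    {a b c s τ : (Fin n → ℝ) →ₗ[ℝ] ℝ}
    (hae : 0 < a e) (hce : c e = a e) (hbe : b e = 0)
    (hq : ∀ x y, 3 * triL p z x y = (a x * c y + a y * c x) / 2 - b x * b y)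
    {l1 l2 l3 p300 p210 p201 p120 p111 p102 p030 p021 p012 p003 m200 m110 m101 m020 m011 m002 : ℝ}
    (hM : ∀ x, 3 * triL p v x x = (m200 * (a x) ^ 2 + m110 * ((a x) * (b x)) + m101 * ((a x)
    * (c x)) + m020 * (b x) ^ 2 + m011 * ((b x) * (c x)) + m002 * (c x) ^ 2) - 2 * τ x * (l1
    * a x + l2 * b x + l3 * c x))
    (hP : ∀ x, MvPolynomial.eval x p = s x * (a x * c x - (b x) ^ 2) + (p300 * (a x) ^ 3 +
    p210 * ((a x) ^ 2 * (b x)) + p201 * ((a x) ^ 2 * (c x)) + p120 * ((a x) * (b x) ^ 2) +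
    p111 * ((a x) * (b x) * (c x)) + p102 * ((a x) * (c x) ^ 2) + p030 * (b x) ^ 3 + p021 *
    ((b x) ^ 2 * (c x)) + p012 * ((b x) * (c x) ^ 2) + p003 * (c x) ^ 3) + τ x * (m200 * (a
    x) ^ 2 + m110 * ((a x) * (b x)) + m101 * ((a x) * (c x)) + m020 * (b x) ^ 2 + m011 * ((b
    x) * (c x)) + m002 * (c x) ^ 2) - (τ x) ^ 2 * (l1 * a x + l2 * b x + l3 * c x))
    (e1 : 0 ≤ l1) (e3 : 0 ≤ l3) (e2 : l2 ^ 2 ≤ 4 * l1 * l3) (hl0 : 0 < l1 + l3)
    {f g k : Fin 6 → ℝ}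
    (hfgk : ∀ A B C : ℝ, -4 * (l1 * A + l2 * B + l3 * C) * (p300 * A ^ 3 + p210 * (A ^ 2 *
    B) + p201 * (A ^ 2 * C) + p120 * (A * B ^ 2) + p111 * (A * B * C) + p102 * (A * C ^ 2) +
    p030 * B ^ 3 + p021 * (B ^ 2 * C) + p012 * (B * C ^ 2) + p003 * C ^ 3) - (m200 * A ^ 2 +
    m110 * (A * B) + m101 * (A * C) + m020 * B ^ 2 + m011 * (B * C) + m002 * C ^ 2) ^ 2 = q3
    f A B C ^ 2 + q3 g A B C ^ 2 + (A * C - B ^ 2) * q3 k A B C) :
    GShad (hypCone p e) := by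
  have hd := h.hom
  let ℓ : (Fin n → ℝ) →ₗ[ℝ] ℝ := l1 • a + l2 • b + l3 • c
  have hℓx : ∀ x, ℓ x = l1 * a x + l2 * b x + l3 * c x := fun x => rfl
  have hkn : ∀ A B C : ℝ, l1 * A + l2 * B + l3 * C = 0 → (A * C - B ^ 2) * q3 k A B C ≤ 0 := by
    intro A B C h0
    have h1 := hfgk A B C
    rw [h0] at h1
    nlinarith [sq_nonneg (q3 f A B C), sq_nonneg (q3 g A B C), sq_nonneg (m200 * A ^ 2 +
      m110 * (A * B) + m101 * (A * C) + m020 * B ^ 2 + m011 * (B * C) + m002 * C ^ 2)]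
  refine lorentz_rep h.hyp ((4 : ℝ) • ℓ) ((3 : ℝ) • triL p z)
    ((4 : ℝ) • s.smulRight ℓ - bil3 k a b c) 3
    ![(3 : ℝ) • triL p v, bil3 f a b c, bil3 g a b c] ?_ ?_ ?_ ?_ ?_
  · rw [LinearMap.smul_apply, hℓx, hce, hbe, smul_eq_mul]
    have := mul_pos hl0 hae
    linarith
  · intro x hxK
    have hxq := h.sub hxK
    have hmem2 := (mem_hypCone_iff (part_homog p z 2) x).1 hxq
    have hQn : 0 ≤ a x * c x - (b x) ^ 2 := by
      have h1 := K_eval_nonneg h.hypq hxq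
      rw [part2 hd, hq] at h1
      linarith
    have hpos : ∀ t : ℝ, 0 < t → 0 < (a x + t * a e) * (c x + t * a e) := by
      intro t ht
      have h1 := K_eval_nonneg h.hypq (K_add h.hypq hxq (K_smul h.hypq ((e_inOpen h.hypq).mem h.hypq) ht.le))
      have h2 := hmem2 t ht
      rw [part2 hd, hq] at h1 h2
      simp only [map_add, map_smul, smul_eq_mul, hce, hbe] at h1 h2
      have h3 := lt_of_le_of_ne h1 (Ne.symm h2)
      nlinarith [sq_nonneg (b x)]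
    have ha0 : 0 ≤ a x := by
      by_contra hlt
      push Not at hlt
      have h1 := hpos (-(a x) / a e) (div_pos (neg_pos.2 hlt) hae)
      have h2 : a x + -(a x) / a e * a e = 0 := by field_simp; ring
      rw [h2, zero_mul] at h1
      exact lt_irrefl _ h1
    have hc0 : 0 ≤ c x := by
      by_contra hlt
      push Not at hlt
      have h1 := hpos (-(c x) / a e) (div_pos (neg_pos.2 hlt) hae)
      have h2 : c x + -(c x) / a e * a e = 0 := by field_simp; ring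
      rw [h2, mul_zero] at h1
      exact lt_irrefl _ h1
    have := conic_lin_nonneg e1 e3 e2 ha0 hc0 (B := b x) (by linarith)
    rw [LinearMap.smul_apply, hℓx, smul_eq_mul]
    linarith
  · exact h.qe
  · intro x hx0
    rw [LinearMap.smul_apply, smul_eq_mul, hℓx] at hx0
    have hx0' : l1 * a x + l2 * b x + l3 * c x = 0 := by linarith
    constructor
    · show 3 * triL p z x x ≤ 0
      rw [hq]
      have := conic_lin_neg e1 e3 e2 hl0 hx0'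
      linarith
    · have h1 := q3_nonneg e1 e3 e2 hl0 hkn hx0'
      rw [LinearMap.sub_apply, LinearMap.sub_apply, bil3_self, LinearMap.smul_apply,
        LinearMap.smul_apply, LinearMap.smulRight_apply, LinearMap.smul_apply, hℓx, hx0']
      simp only [smul_eq_mul, mul_zero, zero_sub]
      linarith
  · intro x
    rw [Fin.sum_univ_three]
    simp only [Matrix.cons_val]
    rw [bil3_self, bil3_self]
    have h1 : ((3 : ℝ) • triL p v) x x = 3 * triL p v x x := rfl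
    have h2 : ((3 : ℝ) • triL p z) x x = 3 * triL p z x x := rfl
    have h3 : ((4 : ℝ) • s.smulRight ℓ - bil3 k a b c) x x =
        4 * (s x * (l1 * a x + l2 * b x + l3 * c x)) - q3 k (a x) (b x) (c x) := by
      rw [LinearMap.sub_apply, LinearMap.sub_apply, bil3_self]
      rfl
    have h4 : ((4 : ℝ) • ℓ) x = 4 * (l1 * a x + l2 * b x + l3 * c x) := rfl
    have h5 : 3 * triL p z x x = a x * c x - (b x) ^ 2 := by rw [hq]; ring
    rw [h1, h2, h3, h4, h5, hM, hP]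
    have h6 := hfgk (a x) (b x) (c x)
    linear_combination -h6

/-- rank three -/
theorem DPt.caseC (h : DPt p e z) (hpt : ∀ x ∈ hypCone p e, -x ∈ hypCone p e → x = 0)
    {v : Fin n → ℝ} (hv : ∀ y, triL p z v y = 0) (hvz : ∀ t : ℝ, v ≠ t • z)
    {a b c s τ : (Fin n → ℝ) →ₗ[ℝ] ℝ} {Ea Eb Ec : Fin n → ℝ}
    (haa : a Ea = 1) (hab : a Eb = 0) (hac : a Ec = 0)
    (hba : b Ea = 0) (hbb : b Eb = 1) (hbc : b Ec = 0)
    (hca : c Ea = 0) (hcb : c Eb = 0) (hcc : c Ec = 1)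
    (hae : 0 < a e) (hce : c e = a e) (hbe : b e = 0)
    (hq : ∀ x y, 3 * triL p z x y = (a x * c y + a y * c x) / 2 - b x * b y)
    (hx : ∀ x, x = s x • z + τ x • v + a x • Ea + b x • Eb + c x • Ec) :
    GShad (hypCone p e) := by
  obtain ⟨l1, l2, l3, p300, p210, p201, p120, p111, p102, p030, p021, p012, p003, m200, m110,
    m101, m020, m011, m002, hℓ, hM, hPc⟩ :=
    h.conic_data hv haa hab hac hba hbb hbc hca hcb hcc hq hx
  have hP : ∀ x, MvPolynomial.eval x p = s x * (a x * c x - (b x) ^ 2) + (p300 * (a x) ^ 3 + p210 * ((a x) ^ 2 * (b x)) + p201 * ((a x) ^ 2 * (c x)) + p120 * ((a x) * (b x) ^ 2) + p111 * ((a x) * (b x) * (c x)) + p102 * ((a x) * (c x) ^ 2) + p030 * (b x) ^ 3 + p021 * ((b x) ^ 2 * (c x)) + p012 * ((b x) * (c x) ^ 2) + p003 * (c x) ^ 3) + τ x * (m200 * (a x) ^ 2 + m110 * ((a x) * (b x)) + m101 * ((a x) * (c x)) + m020 * (b x) ^ 2 + m011 * ((b x) * (c x))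 + m002 * (c x) ^ 2) - (τ x) ^ 2 * (l1 * a x + l2 * b x + l3 * c x) := by
    intro x
    rw [← hPc]
    congr 2
    conv_lhs => rw [hx x]
    abel
  have hquad : ∀ α β σ : ℝ, (p300 * (α ^ 2) ^ 3 + p210 * ((α ^ 2) ^ 2 * (α * β)) + p201 * ((α ^ 2) ^ 2 * (β ^ 2)) + p120 * ((α ^ 2) * (α * β) ^ 2) + p111 * ((α ^ 2) * (α * β) * (β ^ 2)) + p102 * ((α ^ 2) * (β ^ 2) ^ 2) + p030 * (α * β) ^ 3 + p021 * ((α * β) ^ 2 * (β ^ 2)) + p012 * ((α * β) * (β ^ 2) ^ 2) + p003 * (β ^ 2) ^ 3) + σ * (m200 * (α ^ 2) ^ 2 + m110 * ((α ^ 2) * (α * β)) + m101 * ((α ^ 2) * (β ^ 2)) + m020 * (α * β) ^ 2 + m011 * ((α * β) * (β ^ 2)) + m002 * (β ^ 2) ^ 2) - σ ^ 2 * (l1 * (α ^ 2) + l2 * (α * β) + l3 * (β ^ 2)) ≤ 0 := by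
    intro α β σ
    have h1 := h.conic_neg hv haa hab hac hba hbb hbc hca hcb hcc hae hce hbe hq α β σ
    rw [hPc, zero_mul, zero_add] at h1
    exact h1
  have hdisc := conic_hdisc hquad
  obtain ⟨e1, e3, e2⟩ := conic_lin (conic_hlin hquad)
  have hl0 := h.conic_l0 hpt hv hvz hq hℓ hM hdisc e1 e3 e2
  obtain ⟨f, g, k, hfgk⟩ := conic_sos_cubic l1 l2 l3 p300 p210 p201 p120 p111 p102 p030 p021
    p012 p003 m200 m110 m101 m020 m011 m002 hdisc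
  exact h.conic_lor hae hce hbe hq hM hP e1 e3 e2 hl0 hfgk

end Vale.Agent.P256
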