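import Vale.Agent.P256.C5.Struct

/-! Tangent forms of rank one and two: the decomposition of the cubic. -/

namespace Vale.Agent.P256

open Polynomial Filter Topology

variable {n : ℕ} {p : MvPolynomial (Fin n) ℝ} {e z : Fin n → ℝ}

/-- points in the kernel of the tangent form -/
theorem DPt.zero_of_ker (h : DPt p e z) {u : Fin n → ℝ} (hu : ∀ y, triL p z u y = 0) :
    MvPolynomial.eval u p = 0 := by
  have key : ∀ u : Fin n → ℝ, (∀ y, triL p z u y = 0) → MvPolynomial.eval u p ≤ 0 := by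
    intro u hu
    refine h.nonpos ?_ (hu u)
    rw [mem_hypCone_iff (part_homog p z 2)]
    intro t ht
    rw [part2 h.hom]
    simp only [map_add, map_smul, LinearMap.add_apply, LinearMap.smul_apply, smul_eq_mul, hu,
      triL_swap23 p z e u]
    have h0 := h.qe
    have h1 : 0 < t * t * (3 * triL p z e e) := by positivity
    intro h2
    linarith
  refine le_antisymm (key u hu) ?_
  have h1 := key (-u) fun y => by rw [map_neg, LinearMap.neg_apply, hu, neg_zero]
  have h2 : -u = (-1 : ℝ) • u := by module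
  rw [h2, eval_smul' h.hom] at h1
  linarith

theorem nonpos_of_small {A B C : ℝ} (h : ∀ t : ℝ, 0 < t → A + B * t + C * t ^ 2 ≤ 0) : A ≤ 0 := by
  have hc : Continuous (fun t : ℝ => A + B * t + C * t ^ 2) := by fun_prop
  have h1 := (hc.tendsto 0).mono_left (nhdsWithin_le_nhds (s := Set.Ioi 0))
  simp only [mul_zero, add_zero, ne_eq, OfNat.ofNat_ne_zero, not_false_eq_true, zero_pow] at h1
  exact le_of_tendsto h1 (by filter_upwards [self_mem_nhdsWithin] with t ht using h t ht)

/-- rank one -/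
theorem DPt.dataA (h : DPt p e z) {x0 : (Fin n → ℝ) →ₗ[ℝ] ℝ} {e0 : Fin n → ℝ}
    (h0 : x0 e0 = 1) (hpos : 0 < x0 e) (hq : ∀ x y, 3 * triL p z x y = x0 x * x0 y) :
    ∃ (L : (Fin n → ℝ) →ₗ[ℝ] ℝ) (Q2 : (Fin n → ℝ) →ₗ[ℝ] (Fin n → ℝ) →ₗ[ℝ] ℝ),
      (∀ x y, Q2 x y = Q2 y x) ∧ (∀ x, 0 ≤ Q2 x x) ∧
      ∀ x, MvPolynomial.eval x p = x0 x * x0 x * L x - x0 x * Q2 x x := by
  let U : (Fin n → ℝ) →ₗ[ℝ] (Fin n → ℝ) := LinearMap.id - x0.smulRight e0
  have hU : ∀ x, U x = x - x0 x • e0 := fun x => rfl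
  have hx0U : ∀ x, x0 (U x) = 0 := fun x => by
    rw [hU, map_sub, map_smul, h0, smul_eq_mul, mul_one, sub_self]
  have hker : ∀ x y, triL p z (U x) y = 0 := fun x y => by
    have := hq (U x) y
    rw [hx0U, zero_mul] at this
    linarith
  have hpU : ∀ x, MvPolynomial.eval (U x) p = 0 := fun x => h.zero_of_ker (hker x)
  refine ⟨(3 : ℝ) • (triL p e0 e0 ∘ₗ U) + (triL p e0 e0 e0) • x0,
    -((3 : ℝ) • (triL p e0).compl₁₂ U U), fun x y => ?_, fun x => ?_, fun x => ?_⟩
  · simp only [LinearMap.neg_apply, LinearMap.smul_apply, LinearMap.compl₁₂_apply]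
    rw [triL_swap23]
  · simp only [LinearMap.neg_apply, LinearMap.smul_apply, LinearMap.compl₁₂_apply, smul_eq_mul]
    by_contra hlt
    push Not at hlt
    set u := U x with hu
    have hκ : 0 < 3 * triL p e0 u u := by linarith
    have hx0u : x0 u = 0 := hx0U x
    refine h.no_slide (w := u) (h := e0) (fun ε hε t ht => ?_) fun k => ?_
    · rw [part2 h.hom, hq]
      simp only [map_add, map_smul, smul_eq_mul, hx0u, h0]
      have : 0 < 0 + ε * 1 + t * x0 e := by
        have := mul_nonneg ht hpos.le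
        linarith
      positivity
    · have e1 : ∀ ε : ℝ, MvPolynomial.eval (u + ε • e0) (part p z 2) = ε ^ 2 := by
        intro ε
        rw [part2 h.hom, hq]
        simp only [map_add, map_smul, smul_eq_mul, hx0u, h0]
        ring
      have e2 : ∀ ε : ℝ, MvPolynomial.eval (u + ε • e0) p =
          ε * (3 * triL p e0 u u + ε * (3 * triL p e0 e0 u) + ε ^ 2 * triL p e0 e0 e0) := by
        intro ε
        rw [eval_add_cubic h.hom, hpU x, tri_diag h.hom (ε • e0)]
        simp only [map_smul, LinearMap.smul_apply, smul_eq_mul]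
        rw [triL_swap23 p u u e0, triL_swap12 p u e0 u, triL_swap12 p u e0 e0,
          triL_swap23 p e0 u e0]
        ring
      have hc : Continuous (fun ε : ℝ => 3 * triL p e0 u u + ε * (3 * triL p e0 e0 u) +
          ε ^ 2 * triL p e0 e0 e0 - k * ε) := by fun_prop
      have h1 := (hc.tendsto 0).mono_left (nhdsWithin_le_nhds (s := Set.Ioi 0))
      simp only [zero_mul, add_zero, ne_eq, OfNat.ofNat_ne_zero, not_false_eq_true, zero_pow,
        mul_zero, sub_zero] at h1
      filter_upwards [h1.eventually_const_lt hκ, self_mem_nhdsWithin] with ε hε hε0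
      have hε0' : (0 : ℝ) < ε := hε0
      rw [e1, e2]
      have := mul_pos hε0' hε
      nlinarith
  · have hx : x = x0 x • e0 + U x := by rw [hU]; abel
    conv_lhs => rw [hx]
    rw [eval_add_cubic h.hom, hpU x, tri_diag h.hom (x0 x • e0)]
    simp only [map_smul, LinearMap.smul_apply, smul_eq_mul, LinearMap.neg_apply,
      LinearMap.add_apply, LinearMap.compl₁₂_apply, LinearMap.comp_apply]
    ring

/-- positivity of the quadratic forms in the case of rank two -/
theorem DPt.form_nonneg (h : DPt p e z) {E u : Fin n → ℝ} (a : ℝ)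
    (hu : ∀ y, triL p z u y = 0)
    (hE : ∀ w, (∀ y, triL p z w y = 0) → ∀ t : ℝ, 0 < t → MvPolynomial.eval (w + t • E) p ≤ 0) :
    3 * triL p E u u + 3 * a * triL p E E u + a ^ 2 * triL p E E E ≤ 0 := by
  have key : ∀ w, (∀ y, triL p z w y = 0) → ∀ t : ℝ, 0 < t →
      3 * triL p E w w + 3 * t * triL p E E w + t ^ 2 * triL p E E E ≤ 0 := by
    intro w hw t ht
    have h1 := hE w hw t ht
    rw [eval_add_cubic h.hom, h.zero_of_ker hw, tri_diag h.hom (t • E)] at h1
    simp only [map_smul, LinearMap.smul_apply, smul_eq_mul] at h1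
    rw [triL_swap23 p w w E, triL_swap12 p w E w, triL_swap12 p w E E,
      triL_swap23 p E w E] at h1
    have h2 : 0 + 3 * (t * triL p E w w) + 3 * (t * (t * triL p E E w)) +
        t * (t * (t * triL p E E E)) =
        t * (3 * triL p E w w + 3 * t * triL p E E w + t ^ 2 * triL p E E E) := by ring
    rw [h2] at h1
    exact nonpos_of_mul_nonpos_right h1 ht
  rcases lt_trichotomy a 0 with ha | ha | ha
  · have h1 := key (-u) (fun y => by rw [map_neg, LinearMap.neg_apply, hu, neg_zero]) (-a)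
      (neg_pos.2 ha)
    simp only [map_neg, LinearMap.neg_apply] at h1
    linarith
  · rw [ha]
    have h1 := nonpos_of_small (A := 3 * triL p E u u) (B := 3 * triL p E E u)
      (C := triL p E E E) (fun t ht => by
        have := key u hu t ht
        linarith)
    linarith
  · exact key u hu a ha

/-- rank two -/
theorem DPt.dataB (h : DPt p e z) {a c : (Fin n → ℝ) →ₗ[ℝ] ℝ} {Ea Ec : Fin n → ℝ}
    (haa : a Ea = 1) (hac : a Ec = 0) (hca : c Ea = 0) (hcc : c Ec = 1)
    (hae : 0 < a e) (hce : 0 < c e)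
    (hq : ∀ x y, 3 * triL p z x y = (a x * c y + a y * c x) / 2) :
    ∃ (L : (Fin n → ℝ) →ₗ[ℝ] ℝ) (Q1 Q2 : (Fin n → ℝ) →ₗ[ℝ] (Fin n → ℝ) →ₗ[ℝ] ℝ),
      (∀ x y, Q1 x y = Q1 y x) ∧ (∀ x, 0 ≤ Q1 x x) ∧
      (∀ x y, Q2 x y = Q2 y x) ∧ (∀ x, 0 ≤ Q2 x x) ∧
      ∀ x, MvPolynomial.eval x p = a x * c x * L x - a x * Q1 x x - c x * Q2 x x := by
  let U : (Fin n → ℝ) →ₗ[ℝ] (Fin n → ℝ) := LinearMap.id - a.smulRight Ea - c.smulRight Ec
  have hU : ∀ x, U x = x - a x • Ea - c x • Ec := fun x => rfl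
  have haU : ∀ x, a (U x) = 0 := fun x => by
    simp only [hU, map_sub, map_smul, haa, hac, smul_eq_mul]; ring
  have hcU : ∀ x, c (U x) = 0 := fun x => by
    simp only [hU, map_sub, map_smul, hca, hcc, smul_eq_mul]; ring
  have hker : ∀ x y, triL p z (U x) y = 0 := fun x y => by
    have := hq (U x) y
    rw [haU, hcU] at this
    linarith
  have hpU : ∀ x, MvPolynomial.eval (U x) p = 0 := fun x => h.zero_of_ker (hker x)
  have hkerac : ∀ w, (∀ y, triL p z w y = 0) → a w = 0 ∧ c w = 0 := by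
    intro w hw
    have h1 := hq w Ea
    have h2 := hq w Ec
    rw [hw, haa, hca] at h1
    rw [hw, hac, hcc] at h2
    constructor <;> linarith
  -- positivity on the two boundary half-planes
  have hneg : ∀ (E : Fin n → ℝ), (a E * c E = 0) → 0 ≤ a E → 0 ≤ c E →
      ∀ w, (∀ y, triL p z w y = 0) → ∀ t : ℝ, 0 < t → MvPolynomial.eval (w + t • E) p ≤ 0 := by
    intro E hE hEa hEc w hw t ht
    obtain ⟨hwa, hwc⟩ := hkerac w hw
    refine h.nonpos ?_ ?_
    · rw [mem_hypCone_iff (part_homog p z 2)]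
      intro s hs
      rw [part2 h.hom, hq]
      simp only [map_add, map_smul, smul_eq_mul, hwa, hwc]
      have h1 : 0 < 0 + t * a E + s * a e := by
        have := mul_nonneg ht.le hEa
        have := mul_pos hs hae
        linarith
      have h2 : 0 < 0 + t * c E + s * c e := by
        have := mul_nonneg ht.le hEc
        have := mul_pos hs hce
        linarith
      have h3 := mul_pos h1 h2
      intro h4
      linarith
    · have h1 := hq (w + t • E) (w + t • E)
      simp only [map_add, map_smul, smul_eq_mul, hwa, hwc, LinearMap.add_apply,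
        LinearMap.smul_apply] at h1 ⊢
      have h2 : (0 + t * a E) * (0 + t * c E) = 0 := by
        have : (0 + t * a E) * (0 + t * c E) = t ^ 2 * (a E * c E) := by ring
        rw [this, hE, mul_zero]
      linarith
  have hEa := hneg Ea (by rw [hca, mul_zero]) (by rw [haa]; norm_num) hca.ge
  have hEc := hneg Ec (by rw [hac, zero_mul]) hac.ge (by rw [hcc]; norm_num)
  have symm_form : ∀ (E : Fin n → ℝ) (f : (Fin n → ℝ) →ₗ[ℝ] ℝ),
      ∃ Q1 : (Fin n → ℝ) →ₗ[ℝ] (Fin n → ℝ) →ₗ[ℝ] ℝ, (∀ x y, Q1 x y = Q1 y x) ∧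
        ∀ x, Q1 x x = -(3 * triL p E (U x) (U x) + 3 * f x * triL p E E (U x) +
          (f x) ^ 2 * triL p E E E) := by
    intro E f
    refine ⟨-((3 : ℝ) • (triL p E).compl₁₂ U U + (3 / 2 : ℝ) • (f.smulRight (triL p E E ∘ₗ U)) +
      (3 / 2 : ℝ) • ((triL p E E ∘ₗ U).smulRight f) + (triL p E E E) • (f.smulRight f)),
      fun x y => ?_, fun x => ?_⟩
    · simp only [LinearMap.neg_apply, LinearMap.smul_apply, LinearMap.compl₁₂_apply,
        LinearMap.add_apply, LinearMap.smulRight_apply, LinearMap.comp_apply, smul_eq_mul]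
      rw [triL_swap23 p E (U x) (U y)]
      ring
    · simp only [LinearMap.neg_apply, LinearMap.smul_apply, LinearMap.compl₁₂_apply,
        LinearMap.add_apply, LinearMap.smulRight_apply, LinearMap.comp_apply, smul_eq_mul]
      ring
  obtain ⟨Q1, hQ1s, hQ1⟩ := symm_form Ea a
  obtain ⟨Q2, hQ2s, hQ2⟩ := symm_form Ec c
  refine ⟨(6 : ℝ) • (triL p Ea Ec ∘ₗ U) + (3 * triL p Ea Ea Ec) • a + (3 * triL p Ea Ec Ec) • c,
    Q1, Q2, hQ1s, fun x => ?_, hQ2s, fun x => ?_, fun x => ?_⟩
  · rw [hQ1]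
    have := h.form_nonneg (a x) (hker x) hEa
    linarith
  · rw [hQ2]
    have := h.form_nonneg (c x) (hker x) hEc
    linarith
  · have hx : x = (a x • Ea + c x • Ec) + U x := by rw [hU]; abel
    conv_lhs => rw [hx]
    rw [eval_add_cubic h.hom, hpU x, tri_diag h.hom (a x • Ea + c x • Ec), hQ1, hQ2]
    simp only [map_add, map_smul, LinearMap.smul_apply, smul_eq_mul,
      LinearMap.add_apply, LinearMap.comp_apply]
    rw [triL_swap23 p Ea Ec Ea, triL_swap12 p Ec Ea Ea, triL_swap23 p Ea Ec Ea,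
      triL_swap12 p Ec Ea Ec, triL_swap12 p Ec Ea (U x), triL_swap23 p Ec Ec Ea,
      triL_swap12 p Ec Ea Ec]
    ring

end Vale.Agent.P256
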