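import Vale.Agent.P256.Bdl.B1

/-!
# Removing one lineality direction of a hyperbolic polynomial
-/

namespace Vale.Agent.P256

open MvPolynomial

theorem lr_aeval_aeval {σ τ A : Type*} [CommRing A] [Algebra ℝ A] (g : σ → MvPolynomial τ ℝ)
    (w : τ → A) (p : MvPolynomial σ ℝ) :
    aeval w (aeval g p) = aeval (fun i => aeval w (g i)) p := by
  induction p using MvPolynomial.induction_on with
  | C a => simp
  | add p q hp hq => simp only [map_add, hp, hq]
  | mul_X p i hp => simp only [map_mul, hp, aeval_X]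

theorem lr_eval_aeval {σ τ : Type*} (g : σ → MvPolynomial τ ℝ) (y : τ → ℝ) (p : MvPolynomial σ ℝ) :
    eval y (aeval g p) = eval (fun i => eval y (g i)) p := by
  induction p using MvPolynomial.induction_on with
  | C a => simp
  | add p q hp hq => simp only [map_add, hp, hq]
  | mul_X p i hp => simp only [map_mul, hp, aeval_X, eval_X]

/-- Invariance along real multiples of `v` gives invariance along complex multiples. -/
theorem inv_complex {N : ℕ} {p : MvPolynomial (Fin N) ℝ} {v : Fin N → ℝ}
    (hinv : ∀ (x : Fin N → ℝ) (t : ℝ), eval (x + t • v) p = eval x p) (w : Fin N → ℂ) (c : ℂ) :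
    aeval (fun i => w i + c * (v i : ℂ)) p = aeval w p := by
  have h1 : (aeval (fun i => X (some i) + X none * C (v i)) p : MvPolynomial (Option (Fin N)) ℝ)
      = aeval (fun i => X (some i)) p := by
    apply MvPolynomial.funext
    intro y
    rw [lr_eval_aeval, lr_eval_aeval]
    have h2 := hinv (fun i => y (some i)) (y none)
    simp only [map_add, map_mul, eval_X, eval_C]
    exact h2
  have h3 := congrArg (aeval (fun o : Option (Fin N) => o.elim c w)) h1
  rw [lr_aeval_aeval, lr_aeval_aeval] at h3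
  simpa using h3

/-- A hyperbolic polynomial which is invariant in one direction is a hyperbolic polynomial in one
variable less, composed with a linear map. -/
theorem lineality_reduction {n d : ℕ} {p : MvPolynomial (Fin (n + 1)) ℝ} {e v : Fin (n + 1) → ℝ}
    (hp : IsHyperbolic p e) (hd : p.IsHomogeneous d) (hv : v ≠ 0)
    (hinv : ∀ (x : Fin (n + 1) → ℝ) (t : ℝ), eval (x + t • v) p = eval x p) :
    ∃ (A : (Fin (n + 1) → ℝ) →ₗ[ℝ] (Fin n → ℝ)) (q : MvPolynomial (Fin n) ℝ),
      q.IsHomogeneous d ∧ IsHyperbolic q (A e) ∧ ∀ x, eval x p = eval (A x) q := by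
  obtain ⟨i0, hi0⟩ : ∃ i, v i ≠ 0 := by
    by_contra hcon
    push Not at hcon
    exact hv (funext hcon)
  let A : (Fin (n + 1) → ℝ) →ₗ[ℝ] (Fin n → ℝ) :=
    { toFun := fun x j => x (i0.succAbove j) - (x i0 / v i0) * v (i0.succAbove j)
      map_add' := fun x y => by
        funext j
        simp only [Pi.add_apply]
        ring
      map_smul' := fun c x => by
        funext j
        simp only [Pi.smul_apply, smul_eq_mul, RingHom.id_apply]
        ring }
  have hA : ∀ x j, A x j = x (i0.succAbove j) - (x i0 / v i0) * v (i0.succAbove j) :=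
    fun x j => rfl
  obtain ⟨g, hg0, hgs⟩ : ∃ g : Fin (n + 1) → MvPolynomial (Fin n) ℝ,
      g i0 = 0 ∧ ∀ j, g (i0.succAbove j) = X j :=
    ⟨Fin.insertNth (α := fun _ => MvPolynomial (Fin n) ℝ) i0 0 (fun j => X j),
      Fin.insertNth_apply_same _ _ _, fun j => Fin.insertNth_apply_succAbove _ _ _ j⟩
  let q : MvPolynomial (Fin n) ℝ := aeval g p
  have hq : q.IsHomogeneous d := by
    have := hd.aeval g (n := 1) (fun i => by
      rcases Fin.eq_self_or_eq_succAbove i0 i with h | ⟨j, h⟩
      · rw [h, hg0]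
        exact isHomogeneous_zero _ _ _
      · rw [h, hgs]
        exact isHomogeneous_X _ _)
    rwa [one_mul] at this
  have hAq : ∀ x, eval x p = eval (A x) q := by
    intro x
    rw [show eval (A x) q = eval (fun i => eval (A x) (g i)) p from lr_eval_aeval g (A x) p,
      ← hinv x (-(x i0 / v i0))]
    congr 1
    congr 1
    funext i
    rcases Fin.eq_self_or_eq_succAbove i0 i with h | ⟨j, h⟩
    · rw [h, hg0, map_zero, Pi.add_apply, Pi.smul_apply, smul_eq_mul]
      field_simp
      ring
    · rw [h, hgs, eval_X, hA, Pi.add_apply, Pi.smul_apply, smul_eq_mul]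
      ring
  refine ⟨A, q, hq, ⟨⟨d, hq⟩, ?_, ?_⟩, hAq⟩
  · rw [← hAq]
    exact hp.2.1
  · intro y t ht
    have h1 : aeval (fun i => t * ((A e i : ℝ) : ℂ) - (y i : ℂ)) q =
        aeval (fun i => aeval (fun i => t * ((A e i : ℝ) : ℂ) - (y i : ℂ)) (g i)) p :=
      lr_aeval_aeval g _ p
    rw [h1] at ht
    obtain ⟨x, hx0, hxs⟩ : ∃ x : Fin (n + 1) → ℝ,
        x i0 = 0 ∧ ∀ j, x (i0.succAbove j) = y j :=
      ⟨Fin.insertNth (α := fun _ => ℝ) i0 0 y,
        Fin.insertNth_apply_same _ _ _, fun j => Fin.insertNth_apply_succAbove _ _ _ j⟩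
    refine hp.2.2 x t ?_
    rw [← ht, ← inv_complex hinv (fun i => t * (e i : ℂ) - (x i : ℂ)) (-(t * (e i0 / v i0 : ℝ)))]
    congr 1
    congr 1
    funext i
    rcases Fin.eq_self_or_eq_succAbove i0 i with h | ⟨j, h⟩
    · rw [h, hg0, map_zero, hx0]
      have : (v i0 : ℂ) ≠ 0 := by exact_mod_cast hi0
      push_cast
      field_simp
      ring
    · rw [h, hgs, aeval_X, hA, hxs]
      push_cast
      ring

end Vale.Agent.P256
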