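import Vale.Agent.P256.C5.ClassDefs
import Vale.Agent.P256.C5.LinRed
import Vale.Agent.P256.H875.Polar
import Vale.Agent.P256.H721.Inst

/-! All members of the class `Constr` are hyperbolic and have shadow cones. -/

namespace Vale.Agent.P256

open MvPolynomial

variable {n k : ℕ} {p : MvPolynomial (Fin n) ℝ} {e : Fin n → ℝ}

/-! ### Composition with linear maps -/

/-- the linear forms of a linear map -/
noncomputable def linX (A : (Fin n → ℝ) →ₗ[ℝ] (Fin k → ℝ)) (j : Fin k) :
    MvPolynomial (Fin n) ℝ := ∑ i, C (A (Pi.single i 1) j) * X i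

theorem sum_lin (A : (Fin n → ℝ) →ₗ[ℝ] (Fin k → ℝ)) (x : Fin n → ℝ) (j : Fin k) :
    ∑ i, A (Pi.single i 1) j * x i = A x j := by
  conv_rhs => rw [pi_eq_sum_univ' x]
  rw [map_sum, Finset.sum_apply]
  refine Finset.sum_congr rfl fun i _ => ?_
  rw [map_smul, Pi.smul_apply, smul_eq_mul, mul_comm]

theorem eval_linX (A : (Fin n → ℝ) →ₗ[ℝ] (Fin k → ℝ)) (x : Fin n → ℝ) (j : Fin k) :
    eval x (linX A j) = A x j := by
  rw [← sum_lin, linX, map_sum]
  refine Finset.sum_congr rfl fun i _ => ?_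
  rw [map_mul, eval_C, eval_X]

theorem homog_linX (A : (Fin n → ℝ) →ₗ[ℝ] (Fin k → ℝ)) (j : Fin k) :
    (linX A j).IsHomogeneous 1 :=
  IsHomogeneous.sum _ _ _ fun i _ => by
    have := (isHomogeneous_C (Fin n) (A (Pi.single i 1) j)).mul (isHomogeneous_X ℝ i)
    rwa [zero_add] at this

/-- `q ∘ A` as a polynomial -/
noncomputable def precomp (A : (Fin n → ℝ) →ₗ[ℝ] (Fin k → ℝ)) (q : MvPolynomial (Fin k) ℝ) :
    MvPolynomial (Fin n) ℝ := aeval (linX A) q

theorem eval_precomp (A : (Fin n → ℝ) →ₗ[ℝ] (Fin k → ℝ)) (q : MvPolynomial (Fin k) ℝ)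
    (x : Fin n → ℝ) : eval x (precomp A q) = eval (A x) q := by
  rw [precomp, lr_eval_aeval]
  simp only [eval_linX]

theorem hyp_pre {q : MvPolynomial (Fin k) ℝ} (A : (Fin n → ℝ) →ₗ[ℝ] (Fin k → ℝ))
    (h : ∀ x, eval x p = eval (A x) q) (hq : IsHyperbolic q (A e)) : IsHyperbolic p e := by
  have hpq : p = precomp A q := by
    apply MvPolynomial.funext
    intro x
    rw [h, eval_precomp]
  obtain ⟨d, hd⟩ := hq.1
  refine ⟨⟨d, ?_⟩, by rw [h]; exact hq.2.1, fun x t ht => hq.2.2 (A x) t ?_⟩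
  · rw [hpq]
    have := hd.aeval (linX A) (n := 1) (homog_linX A)
    rwa [one_mul] at this
  · rw [hpq, precomp, lr_aeval_aeval] at ht
    rw [← ht]
    congr 1
    congr 1
    funext j
    rw [linX, map_sum, ← sum_lin, ← sum_lin]
    push_cast
    rw [Finset.mul_sum, ← Finset.sum_sub_distrib]
    refine Finset.sum_congr rfl fun i _ => ?_
    rw [map_mul, aeval_C, aeval_X]
    simp only [Complex.coe_algebraMap]
    ring

/-! ### Products -/

theorem hyp_mul {q : MvPolynomial (Fin n) ℝ} (hp : IsHyperbolic p e) (hq : IsHyperbolic q e) :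
    IsHyperbolic (p * q) e := by
  obtain ⟨⟨d, hd⟩, h2, h3⟩ := hp
  obtain ⟨⟨d', hd'⟩, h2', h3'⟩ := hq
  refine ⟨⟨d + d', hd.mul hd'⟩, ?_, fun x t ht => ?_⟩
  · rw [map_mul]
    exact mul_pos h2 h2'
  · rw [map_mul] at ht
    rcases mul_eq_zero.1 ht with h | h
    · exact h3 x t h
    · exact h3' x t h

theorem hypCone_mul (p q : MvPolynomial (Fin n) ℝ) (e : Fin n → ℝ) :
    hypCone (p * q) e = hypCone p e ∩ hypCone q e := by
  ext x
  constructor
  · intro hx
    constructor
    · intro t ht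
      exact hx t (by rw [map_mul, ht, zero_mul])
    · intro t ht
      exact hx t (by rw [map_mul, ht, mul_zero])
  · rintro ⟨h1, h2⟩ t ht
    rw [map_mul] at ht
    rcases mul_eq_zero.1 ht with h | h
    · exact h1 t h
    · exact h2 t h

/-! ### Definite determinants -/

theorem det_hyp_shad {m : ℕ} (M : (Fin n → ℝ) →ₗ[ℝ] Matrix (Fin m) (Fin m) ℝ)
    (hs : ∀ x, (M x).IsSymm) (he : (M e).PosDef) (h : ∀ x, eval x p = (M x).det) :
    IsHyperbolic p e ∧ GShad (hypCone p e) := by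
  obtain ⟨B, hBu, hB⟩ : ∃ B : Matrix (Fin m) (Fin m) ℝ, IsUnit B.det ∧ M e = B.transpose * B := by
    open scoped MatrixOrder Matrix.Norms.L2Operator in
    obtain ⟨B, hB⟩ := CStarAlgebra.nonneg_iff_eq_star_mul_self.mp he.posSemidef.nonneg
    have hB' : M e = B.transpose * B := by
      rw [hB, Matrix.star_eq_conjTranspose, Matrix.conjTranspose_eq_transpose_of_trivial]
    refine ⟨B, ?_, hB'⟩
    have h1 := he.det_pos
    rw [hB', Matrix.det_mul, Matrix.det_transpose] at h1
    rw [isUnit_iff_ne_zero]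
    rintro h0
    rw [h0] at h1
    simp at h1
  have hBB : B * B⁻¹ = 1 := Matrix.mul_nonsing_inv B hBu
  have hBB' : B⁻¹ * B = 1 := Matrix.nonsing_inv_mul B hBu
  have hBT : (B⁻¹).transpose * B.transpose = 1 := by
    rw [← Matrix.transpose_mul, hBB, Matrix.transpose_one]
  have hBT' : B.transpose * (B⁻¹).transpose = 1 := by
    rw [← Matrix.transpose_mul, hBB', Matrix.transpose_one]
  let A : (Fin n → ℝ) →ₗ[ℝ] (Fin (m * m) → ℝ) :=
    { toFun := fun x => vecE ((B⁻¹).transpose * M x * B⁻¹)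
      map_add' := fun x y => by rw [map_add, Matrix.mul_add, Matrix.add_mul, map_add]
      map_smul' := fun c x => by
        rw [map_smul, Matrix.mul_smul, Matrix.smul_mul, map_smul, RingHom.id_apply] }
  have hA : ∀ x, A x = vecE ((B⁻¹).transpose * M x * B⁻¹) := fun x => rfl
  have hsym : ∀ x, ((B⁻¹).transpose * M x * B⁻¹).IsSymm := by
    intro x
    rw [Matrix.IsSymm, Matrix.transpose_mul, Matrix.transpose_mul, Matrix.transpose_transpose,
      (hs x).eq, Matrix.mul_assoc]
  have hAe : A e = vecE (1 : Matrix (Fin m) (Fin m) ℝ) := by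
    rw [hA, hB]
    congr 1
    rw [← Matrix.mul_assoc, hBT, Matrix.one_mul, hBB]
  have hdet : ∀ x, eval x p = B.det ^ 2 * eval (A x) (detP m) := by
    intro x
    rw [h, eval_detP, hA, symM_vecE (hsym x), Matrix.det_mul, Matrix.det_mul,
      Matrix.det_transpose]
    have h1 : B.det * (B⁻¹).det = 1 := by rw [← Matrix.det_mul, hBB, Matrix.det_one]
    linear_combination (-(1 + B.det * (B⁻¹).det) * (M x).det) * h1
  have hc : 0 < B.det ^ 2 := by
    have := hBu.ne_zero
    positivity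
  have hq : IsHyperbolic (C (B.det ^ 2) * detP m) (A e) := by
    rw [hAe]
    obtain ⟨⟨d, hd⟩, h2, h3⟩ := detP_hyp (m := m)
    refine ⟨⟨d, ?_⟩, ?_, fun x t ht => h3 x t ?_⟩
    · have := (isHomogeneous_C (Fin (m * m)) (B.det ^ 2)).mul hd
      rwa [zero_add] at this
    · rw [map_mul, eval_C]
      exact mul_pos hc h2
    · rw [map_mul, aeval_C] at ht
      refine (mul_eq_zero.1 ht).resolve_left ?_
      simp only [Complex.coe_algebraMap, Complex.ofReal_eq_zero]
      exact hc.ne'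
  have hcone : hypCone (C (B.det ^ 2) * detP m) (A e) =
      hypCone (detP m) (vecE (1 : Matrix (Fin m) (Fin m) ℝ)) := by
    rw [hAe]
    ext x
    simp only [hypCone, Set.mem_ofPred_eq, map_mul, eval_C, mul_eq_zero, hc.ne', false_or]
  have hp : ∀ x, eval x p = eval (A x) (C (B.det ^ 2) * detP m) := by
    intro x
    rw [hdet, map_mul, eval_C]
  refine ⟨hyp_pre A hp hq, ?_⟩
  rw [hypCone_pre A hp, hcone]
  exact detP_shad.preimage A

/-- **Main theorem on the class**, given the theorem on cubics. -/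
theorem Constr.main
    (cub : ∀ n ≤ 5, ∀ (p : MvPolynomial (Fin n) ℝ) (e : Fin n → ℝ), IsHyperbolic p e →
      p.IsHomogeneous 3 → GShad (hypCone p e))
    {n : ℕ} {p : MvPolynomial (Fin n) ℝ} {e : Fin n → ℝ} (h : Constr p e) :
    IsHyperbolic p e ∧ GShad (hypCone p e) := by
  induction h with
  | nice h => exact ⟨h.1, h.shad⟩
  | cubic hn hp hd => exact ⟨hp, cub _ hn _ _ hp hd⟩
  | det M hs he h => exact det_hyp_shad M hs he h
  | deriv as hq has hne =>
    have h1 := polar_main (A := LinearMap.id) hq.hyp (fun x => rfl) hq as has hne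
    exact ⟨h1.1, GShad.of_shadow h1.2⟩
  | comp A h _ ih =>
    refine ⟨hyp_pre A h ih.1, ?_⟩
    rw [hypCone_pre A h]
    exact ih.2.preimage A
  | mul _ _ ih1 ih2 =>
    refine ⟨hyp_mul ih1.1 ih2.1, ?_⟩
    rw [hypCone_mul]
    exact ih1.2.inter ih2.2
  | cone hp hK _ ih =>
    refine ⟨hp, ?_⟩
    rw [hK]
    exact ih.2
  | dir hf _ ih =>
    have h1 := (interior_iff ih.1).1 hf
    refine ⟨garding1 ih.1 h1, ?_⟩
    rw [K_eq ih.1 h1]
    exact ih.2
  | ext ρ A B hρ hB hBK h _ ih =>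
    exact ⟨quad_hyp ih.1 hBK h hρ rfl hB, quad_gshad ih.1 ih.2 hBK h hρ rfl hB⟩

/-! ### Intersections of preimages of nice cones -/

theorem hyp_one (e : Fin n → ℝ) : IsHyperbolic (1 : MvPolynomial (Fin n) ℝ) e :=
  ⟨⟨0, isHomogeneous_one _ _⟩, by rw [map_one]; exact one_pos, fun x t ht => by
    rw [map_one] at ht
    exact absurd ht one_ne_zero⟩

theorem hypCone_one (e : Fin n → ℝ) : hypCone (1 : MvPolynomial (Fin n) ℝ) e = Set.univ := by
  ext x
  simp only [hypCone, Set.mem_ofPred_eq, map_one, one_ne_zero, false_imp_iff, implies_true,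
    Set.mem_univ]

theorem Constr.one (e : Fin n → ℝ) : Constr (1 : MvPolynomial (Fin n) ℝ) e := by
  refine Constr.comp (k := 0) (q := 1) 0 (fun x => by rw [map_one, map_one]) (Constr.nice ?_)
  exact ⟨hyp_one _, Or.inl (by norm_num)⟩

theorem InterNice.constr {S : Set (Fin n → ℝ)} (h : InterNice e S) :
    ∃ q, Constr q e ∧ hypCone q e = S := by
  induction h with
  | univ => exact ⟨1, Constr.one e, hypCone_one e⟩
  | inter A q hq _ ih =>
    obtain ⟨r, hr, hS⟩ := ih
    refine ⟨r * precomp A q, hr.mul (Constr.comp A (eval_precomp A q) (Constr.nice hq)), ?_⟩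
    rw [hypCone_mul, hS, hypCone_pre A (eval_precomp A q)]

theorem Constr.of_interNice (hp : IsHyperbolic p e) (h : InterNice e (hypCone p e)) :
    Constr p e := by
  obtain ⟨q, hq, hK⟩ := h.constr
  exact hq.cone hp hK.symm

end Vale.Agent.P256
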