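import Vale.Agent.P256.C5.ClassDefs2
import Vale.Agent.P256.C5.Class
import Vale.Agent.P256.C5.L

/-! All members of the class `Built` are hyperbolic and have shadow cones. -/

namespace Vale.Agent.P256

open MvPolynomial

/-- **Main theorem on the class**, given the theorem on tame cubics. -/
theorem Built.main
    (cub : ∀ (n : ℕ) (p : MvPolynomial (Fin n) ℝ) (e : Fin n → ℝ), TameCubic p e →
      GShad (hypCone p e))
    {n : ℕ} {p : MvPolynomial (Fin n) ℝ} {e : Fin n → ℝ} (h : Built p e) :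
    IsHyperbolic p e ∧ GShad (hypCone p e) := by
  induction h with
  | nice h => exact ⟨h.1, h.shad⟩
  | cubic h => exact ⟨h.1, cub _ _ _ h⟩
  | det M hs he h => exact det_hyp_shad M hs he h
  | deriv as hq has hne =>
    have h1 := polar_main (A := LinearMap.id) hq.hyp (fun x => rfl) hq as has hne
    exact ⟨h1.1, GShad.of_shadow h1.2⟩
  | comp A h _ ih =>
    refine ⟨hyp_pre A h ih.1, ?_⟩
    rw [hypCone_pre A h]
    exact ih.2.preimage A
  | mul _ _ ih1 ih2 =>
    refine ⟨hyp_mul ih1.1 ih2.1, ?_⟩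
    rw [hypCone_mul]
    exact ih1.2.inter ih2.2
  | cone hp hK _ ih =>
    refine ⟨hp, ?_⟩
    rw [hK]
    exact ih.2
  | dir hf _ ih =>
    have h1 := (interior_iff ih.1).1 hf
    refine ⟨garding1 ih.1 h1, ?_⟩
    rw [K_eq ih.1 h1]
    exact ih.2
  | ext ρ A B hρ hB hBK h _ ih =>
    exact ⟨quad_hyp ih.1 hBK h hρ rfl hB, quad_gshad ih.1 ih.2 hBK h hρ rfl hB⟩
  | lorentz l Q R G hp hl hK hQ hker h => exact ⟨hp, lorentz_rep hp l Q R _ G hl hK hQ hker h⟩

theorem Constr.built {n : ℕ} {p : MvPolynomial (Fin n) ℝ} {e : Fin n → ℝ} (h : Constr p e) :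
    Built p e := by
  induction h with
  | nice h => exact .nice h
  | cubic hn hp hd => exact .cubic ⟨hp, hd, Or.inl hn⟩
  | det M hs he h => exact .det M hs he h
  | deriv as hq has hne => exact .deriv as hq has hne
  | comp A h _ ih => exact .comp A h ih
  | mul _ _ ih1 ih2 => exact .mul ih1 ih2
  | cone hp hK _ ih => exact .cone hp hK ih
  | dir hf _ ih => exact .dir hf ih
  | ext ρ A B hρ hB hBK h _ ih => exact .ext ρ A B hρ hB hBK h ih

end Vale.Agent.P256
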