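import Vale.Agent.P256.H875.Defs

/-! The class of hyperbolic polynomials of the final statement. -/

namespace Vale.Agent.P256

open MvPolynomial

/-- `Constr p e`: the hyperbolic polynomial `p`, with direction `e`, is obtained in finitely many
steps from nice cones, cubics in at most five variables, definite determinants and derivatives
of polynomials with ordinary boundary, by composition with linear maps, products, changes of the
polynomial which do not change the cone, changes of the direction in the interior of the cone,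
and quadratic extensions. -/
inductive Constr : ∀ {n : ℕ}, MvPolynomial (Fin n) ℝ → (Fin n → ℝ) → Prop
  | nice {n : ℕ} {p : MvPolynomial (Fin n) ℝ} {e : Fin n → ℝ} : NiceCone p e → Constr p e
  | cubic {n : ℕ} {p : MvPolynomial (Fin n) ℝ} {e : Fin n → ℝ} :
      n ≤ 5 → IsHyperbolic p e → p.IsHomogeneous 3 → Constr p e
  | det {n m : ℕ} {p : MvPolynomial (Fin n) ℝ} {e : Fin n → ℝ}
      (M : (Fin n → ℝ) →ₗ[ℝ] Matrix (Fin m) (Fin m) ℝ) :
      (∀ x, (M x).IsSymm) → (M e).PosDef → (∀ x, eval x p = (M x).det) → Constr p e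
  | deriv {n : ℕ} {p : MvPolynomial (Fin n) ℝ} {e : Fin n → ℝ} (as : List (Fin n → ℝ)) :
      OrdinaryCone p e → (∀ a ∈ as, a ∈ interior (hypCone p e)) → as.foldr polarDeriv p ≠ 0 →
      Constr (as.foldr polarDeriv p) e
  | comp {n k : ℕ} {p : MvPolynomial (Fin n) ℝ} {q : MvPolynomial (Fin k) ℝ} {e : Fin n → ℝ}
      (A : (Fin n → ℝ) →ₗ[ℝ] (Fin k → ℝ)) :
      (∀ x, eval x p = eval (A x) q) → Constr q (A e) → Constr p e
  | mul {n : ℕ} {p q : MvPolynomial (Fin n) ℝ} {e : Fin n → ℝ} :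
      Constr p e → Constr q e → Constr (p * q) e
  | cone {n : ℕ} {p q : MvPolynomial (Fin n) ℝ} {e : Fin n → ℝ} :
      IsHyperbolic p e → hypCone p e = hypCone q e → Constr q e → Constr p e
  | dir {n : ℕ} {p : MvPolynomial (Fin n) ℝ} {e f : Fin n → ℝ} :
      f ∈ interior (hypCone p e) → Constr p e → Constr p f
  | ext {n k : ℕ} {p : MvPolynomial (Fin n) ℝ} {q : MvPolynomial (Fin k) ℝ} {e : Fin n → ℝ}
      (ρ : (Fin n → ℝ) →ₗ[ℝ] ℝ) (A : (Fin n → ℝ) →ₗ[ℝ] (Fin k → ℝ))
      (B : (Fin n → ℝ) →ₗ[ℝ] (Fin n → ℝ) →ₗ[ℝ] (Fin k → ℝ)) :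
      ρ e = 1 → (∀ x, B e x + B x e = 0) → (∀ x, B x x ∈ hypCone q (A e)) →
      (∀ x, eval x p = eval (ρ x • A x - B x x) q) → Constr q (A e) → Constr p e

end Vale.Agent.P256
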