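import Vale.Agent.P256.H875.Defs

/-! The classes of hyperbolic polynomials of the statement on cubics. -/

namespace Vale.Agent.P256

open MvPolynomial

variable {n : ℕ}

/-- The Hessian matrix of `p` at `z`. -/
noncomputable def hessMat (p : MvPolynomial (Fin n) ℝ) (z : Fin n → ℝ) :
    Matrix (Fin n) (Fin n) ℝ := Matrix.of fun i j => eval z (pderiv i (pderiv j p))

/-- `z` is a singular point of `p` on the boundary of the cone: `z` is in the cone, `-z` is not,
and the gradient of `p` vanishes at `z`. -/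
def IsDouble (p : MvPolynomial (Fin n) ℝ) (e z : Fin n → ℝ) : Prop :=
  z ∈ hypCone p e ∧ -z ∉ hypCone p e ∧ ∀ i, eval z (pderiv i p) = 0

/-- `p` is a hyperbolic cubic, and it has at most five variables, or at some singular point of the
cone its Hessian has rank at most three, or at all singular points `z` of the cone the kernel of
the Hessian is spanned by `z` and by the lineality space of the cone. -/
def TameCubic (p : MvPolynomial (Fin n) ℝ) (e : Fin n → ℝ) : Prop :=
  IsHyperbolic p e ∧ p.IsHomogeneous 3 ∧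
    (n ≤ 5 ∨ (∃ z, IsDouble p e z ∧ (hessMat p z).rank ≤ 3) ∨
      ∀ z, IsDouble p e z → ∀ v : Fin n → ℝ, (hessMat p z).mulVec v = 0 →
        ∃ c : ℝ, v - c • z ∈ hypCone p e ∧ c • z - v ∈ hypCone p e)

/-- `Built p e`: the hyperbolic polynomial `p`, with direction `e`, is obtained in finitely many
steps from nice cones, tame cubics, definite determinants and derivatives of polynomials with
ordinary boundary, by composition with linear maps, products, changes of the polynomial which do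
not change the cone, changes of the direction in the interior of the cone, quadratic extensions,
and identities `l p = Q R - ∑ G_i²` with a linear form `l` and quadratic forms `Q`, `R`, `G_i`. -/
inductive Built : ∀ {n : ℕ}, MvPolynomial (Fin n) ℝ → (Fin n → ℝ) → Prop
  | nice {n : ℕ} {p : MvPolynomial (Fin n) ℝ} {e : Fin n → ℝ} : NiceCone p e → Built p e
  | cubic {n : ℕ} {p : MvPolynomial (Fin n) ℝ} {e : Fin n → ℝ} : TameCubic p e → Built p e
  | det {n m : ℕ} {p : MvPolynomial (Fin n) ℝ} {e : Fin n → ℝ}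
      (M : (Fin n → ℝ) →ₗ[ℝ] Matrix (Fin m) (Fin m) ℝ) :
      (∀ x, (M x).IsSymm) → (M e).PosDef → (∀ x, eval x p = (M x).det) → Built p e
  | deriv {n : ℕ} {p : MvPolynomial (Fin n) ℝ} {e : Fin n → ℝ} (as : List (Fin n → ℝ)) :
      OrdinaryCone p e → (∀ a ∈ as, a ∈ interior (hypCone p e)) → as.foldr polarDeriv p ≠ 0 →
      Built (as.foldr polarDeriv p) e
  | comp {n k : ℕ} {p : MvPolynomial (Fin n) ℝ} {q : MvPolynomial (Fin k) ℝ} {e : Fin n → ℝ}
      (A : (Fin n → ℝ) →ₗ[ℝ] (Fin k → ℝ)) :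
      (∀ x, eval x p = eval (A x) q) → Built q (A e) → Built p e
  | mul {n : ℕ} {p q : MvPolynomial (Fin n) ℝ} {e : Fin n → ℝ} :
      Built p e → Built q e → Built (p * q) e
  | cone {n : ℕ} {p q : MvPolynomial (Fin n) ℝ} {e : Fin n → ℝ} :
      IsHyperbolic p e → hypCone p e = hypCone q e → Built q e → Built p e
  | dir {n : ℕ} {p : MvPolynomial (Fin n) ℝ} {e f : Fin n → ℝ} :
      f ∈ interior (hypCone p e) → Built p e → Built p f
  | ext {n k : ℕ} {p : MvPolynomial (Fin n) ℝ} {q : MvPolynomial (Fin k) ℝ} {e : Fin n → ℝ}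
      (ρ : (Fin n → ℝ) →ₗ[ℝ] ℝ) (A : (Fin n → ℝ) →ₗ[ℝ] (Fin k → ℝ))
      (B : (Fin n → ℝ) →ₗ[ℝ] (Fin n → ℝ) →ₗ[ℝ] (Fin k → ℝ)) :
      ρ e = 1 → (∀ x, B e x + B x e = 0) → (∀ x, B x x ∈ hypCone q (A e)) →
      (∀ x, eval x p = eval (ρ x • A x - B x x) q) → Built q (A e) → Built p e
  | lorentz {n k : ℕ} {p : MvPolynomial (Fin n) ℝ} {e : Fin n → ℝ} (l : (Fin n → ℝ) →ₗ[ℝ] ℝ)
      (Q R : (Fin n → ℝ) →ₗ[ℝ] (Fin n → ℝ) →ₗ[ℝ] ℝ)
      (G : Fin k → (Fin n → ℝ) →ₗ[ℝ] (Fin n → ℝ) →ₗ[ℝ] ℝ) :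
      IsHyperbolic p e → 0 < l e → (∀ x ∈ hypCone p e, 0 ≤ l x) → 0 < Q e e →
      (∀ x, l x = 0 → Q x x ≤ 0 ∧ R x x ≤ 0) →
      (∀ x, l x * eval x p = Q x x * R x x - ∑ i, (G i x x) ^ 2) → Built p e

end Vale.Agent.P256
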