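import Vale.Agent.P256.C5.LinRed

/-!
# Induction over the lineality space
-/

namespace Vale.Agent.P256

open MvPolynomial

variable {n : ℕ} {p : MvPolynomial (Fin n) ℝ} {e : Fin n → ℝ}

/-- A hyperbolic polynomial is constant along the lineality space of its cone. -/
theorem eval_add_of_lin (hp : IsHyperbolic p e) {v : Fin n → ℝ} (hv : v ∈ hypCone p e)
    (hv' : -v ∈ hypCone p e) (x : Fin n → ℝ) (t : ℝ) : eval (x + t • v) p = eval x p := by
  have key : ∀ w : Fin n → ℝ, w ∈ hypCone p e → -w ∈ hypCone p e →
      eval (x + w) p = eval x p := by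
    intro w hw hw'
    have hK : ∀ y ∈ hypCone p e, eval (y + w) p = eval y p := by
      intro y hy
      apply le_antisymm
      · have := K_mono hp (K_add hp hy hw) hw'
        rwa [add_neg_cancel_right] at this
      · exact K_mono hp hy hw
    obtain ⟨R, hR, h⟩ := exists_C_add hp x
    have hpoly : line p (x + w) e = line p x e := by
      apply Polynomial.eq_of_infinite_eval_eq
      apply Set.Infinite.mono (s := Set.Ici R) _ (Set.Ici_infinite R)
      intro s hs
      rw [Set.mem_ofPred_eq, eval_line, eval_line, show x + w + s • e = x + s • e + w by abel]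
      exact hK _ ((h s hs).1.mem hp)
    have h0 := congrArg (Polynomial.eval 0) hpoly
    rwa [eval_line, eval_line, zero_smul, add_zero, add_zero] at h0
  rcases le_total 0 t with h | h
  · exact key _ (K_smul hp hv h) (by rw [← smul_neg]; exact K_smul hp hv' h)
  · have h1 : t • v = (-t) • (-v) := by simp
    have h2 : -(t • v) = (-t) • v := by simp
    refine key _ ?_ ?_
    · rw [h1]
      exact K_smul hp hv' (neg_nonneg.2 h)
    · rw [h2]
      exact K_smul hp hv (neg_nonneg.2 h)

theorem hypCone_comp {m : ℕ} (A : (Fin n → ℝ) →ₗ[ℝ] (Fin m → ℝ)) {q : MvPolynomial (Fin m) ℝ}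
    (h : ∀ x, eval x p = eval (A x) q) : hypCone p e = A ⁻¹' hypCone q (A e) := by
  ext x
  simp only [hypCone, Set.mem_preimage, Set.mem_ofPred_eq, h, map_sub, map_smul]

/-- It is enough to treat pointed cones. -/
theorem pointed_induction {N d : ℕ}
    (H : ∀ n ≤ N, ∀ (p : MvPolynomial (Fin n) ℝ) (e : Fin n → ℝ), IsHyperbolic p e →
      p.IsHomogeneous d → (∀ x ∈ hypCone p e, -x ∈ hypCone p e → x = 0) →
      GShad (hypCone p e)) :
    ∀ n ≤ N, ∀ (p : MvPolynomial (Fin n) ℝ) (e : Fin n → ℝ), IsHyperbolic p e →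
      p.IsHomogeneous d → GShad (hypCone p e) := by
  intro n
  induction n with
  | zero =>
    intro hn p e hp hd
    exact H 0 hn p e hp hd fun x _ _ => Subsingleton.elim _ _
  | succ n ih =>
    intro hn p e hp hd
    by_cases hpt : ∀ x ∈ hypCone p e, -x ∈ hypCone p e → x = 0
    · exact H _ hn p e hp hd hpt
    · push Not at hpt
      obtain ⟨v, hv, hv', hv0⟩ := hpt
      obtain ⟨A, q, hq, hqh, hA⟩ := lineality_reduction hp hd hv0 (eval_add_of_lin hp hv hv')
      rw [hypCone_comp A hA]
      exact (ih (by omega) q (A e) hqh hq).preimage A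

end Vale.Agent.P256
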