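import Vale.Agent.P256.C5.S1

/-! A symmetric matrix of real polynomials which is positive semidefinite at every real point is a
sum of squares (matrix Fejér-Riesz theorem on the line), with degree bounds. -/

namespace Vale.Agent.P256.MFR

open Polynomial Matrix

variable {ι : Type} [Fintype ι] [DecidableEq ι]

/-- symmetric, and positive semidefinite at every real point -/
def Psd (N : Matrix ι ι ℝ[X]) : Prop :=
  N.IsSymm ∧ ∀ (x : ℝ) (w : ι → ℝ), 0 ≤ w ⬝ᵥ (N.map (eval x) *ᵥ w)

/-- a sum of squares with degree bounds -/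
def HasSos (δ : ι → ℕ) (N : Matrix ι ι ℝ[X]) : Prop :=
  ∃ (κ : Type) (_ : Fintype κ) (V : Matrix κ ι ℝ[X]),
    (∀ k i, (V k i).natDegree ≤ δ i) ∧ N = Vᵀ * V

theorem HasSos.add {δ : ι → ℕ} {N N' : Matrix ι ι ℝ[X]} (h : HasSos δ N) (h' : HasSos δ N') :
    HasSos δ (N + N') := by
  obtain ⟨κ, _, V, hV, rfl⟩ := h
  obtain ⟨κ', _, V', hV', rfl⟩ := h'
  refine ⟨κ ⊕ κ', inferInstance, Matrix.of fun k i => Sum.elim (fun k => V k i) (fun k => V' k i) k,
    ?_, ?_⟩
  · rintro (k | k) i
    · exact hV k i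
    · exact hV' k i
  · ext i j : 1
    simp [Matrix.mul_apply, Fintype.sum_sum_type]

theorem HasSos.conj {δ : ι → ℕ} {N T U : Matrix ι ι ℝ[X]} (hTU : T * U = 1)
    (hU : ∀ i j, U i j = 0 ∨ δ i + (U i j).natDegree ≤ δ j) (h : HasSos δ (Tᵀ * N * T)) :
    HasSos δ N := by
  obtain ⟨κ, _, V, hV, hN⟩ := h
  refine ⟨κ, inferInstance, V * U, ?_, ?_⟩
  · intro k j
    rw [Matrix.mul_apply]
    refine natDegree_sum_le_of_forall_le _ _ fun i _ => ?_
    rcases hU i j with h | h
    · rw [h, mul_zero, natDegree_zero]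
      exact Nat.zero_le _
    · have h1 := natDegree_mul_le (p := V k i) (q := U i j)
      have h2 := hV k i
      omega
  · have h1 : N = (T * U)ᵀ * N * (T * U) := by
      rw [hTU, Matrix.transpose_one, Matrix.one_mul, Matrix.mul_one]
    rw [h1, Matrix.transpose_mul, Matrix.transpose_mul]
    have h2 : Uᵀ * Tᵀ * N * (T * U) = Uᵀ * (Tᵀ * N * T) * U := by
      simp only [Matrix.mul_assoc]
    rw [h2, hN]
    simp only [Matrix.mul_assoc]

/-- homogenisation at `(a, b)` -/
noncomputable def hom (D : ℕ) (p : ℝ[X]) (a b : ℝ) : ℝ :=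
  ∑ k ∈ Finset.range (D + 1), p.coeff k * a ^ k * b ^ (D - k)

theorem hom_eval {D : ℕ} {p : ℝ[X]} (hp : p.natDegree ≤ D) (a : ℝ) {b : ℝ} (hb : b ≠ 0) :
    hom D p a b = b ^ D * p.eval (a / b) := by
  rw [eval_eq_sum_range' (n := D + 1) (by omega), Finset.mul_sum, hom]
  refine Finset.sum_congr rfl fun k hk => ?_
  have hk' : k ≤ D := by
    have := Finset.mem_range.1 hk
    omega
  have h1 : b ^ D = b ^ (D - k) * b ^ k := by
    rw [← pow_add]
    congr 1
    omega
  rw [h1, div_pow]
  field_simp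

theorem hom_zero (D : ℕ) (p : ℝ[X]) (a : ℝ) : hom D p a 0 = p.coeff D * a ^ D := by
  rw [hom, Finset.sum_range_succ, Nat.sub_self, pow_zero, mul_one]
  have : ∑ k ∈ Finset.range D, p.coeff k * a ^ k * (0 : ℝ) ^ (D - k) = 0 := by
    refine Finset.sum_eq_zero fun k hk => ?_
    have := Finset.mem_range.1 hk
    rw [zero_pow (by omega), mul_zero]
  rw [this, zero_add]

theorem continuous_hom (D : ℕ) (p : ℝ[X]) : Continuous fun z : ℝ × ℝ => hom D p z.1 z.2 := by
  unfold hom
  fun_prop

/-- the homogenised quadratic form -/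
noncomputable def G (δ : ι → ℕ) (N : Matrix ι ι ℝ[X]) (a b : ℝ) (w : ι → ℝ) : ℝ :=
  ∑ i, ∑ j, w i * w j * hom (δ i + δ j) (N i j) a b

theorem dot_eq (A : Matrix ι ι ℝ) (w : ι → ℝ) :
    w ⬝ᵥ (A *ᵥ w) = ∑ i, ∑ j, w i * w j * A i j := by
  simp only [dotProduct, mulVec, Finset.mul_sum]
  refine Finset.sum_congr rfl fun i _ => Finset.sum_congr rfl fun j _ => by ring

theorem G_eval {δ : ι → ℕ} {N : Matrix ι ι ℝ[X]} (hN : ∀ i j, (N i j).natDegree ≤ δ i + δ j)
    (a : ℝ) {b : ℝ} (hb : b ≠ 0) (w : ι → ℝ) :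
    G δ N a b w = (fun i => b ^ δ i * w i) ⬝ᵥ (N.map (eval (a / b)) *ᵥ fun i => b ^ δ i * w i) := by
  rw [dot_eq, G]
  refine Finset.sum_congr rfl fun i _ => Finset.sum_congr rfl fun j _ => ?_
  rw [hom_eval (hN i j) a hb, Matrix.map_apply, pow_add]
  ring

theorem continuous_G (δ : ι → ℕ) (N : Matrix ι ι ℝ[X]) :
    Continuous fun z : (ℝ × ℝ) × (ι → ℝ) => G δ N z.1.1 z.1.2 z.2 := by
  unfold G
  refine continuous_finsetSum _ fun i _ => continuous_finsetSum _ fun j _ => ?_
  have h := (continuous_hom (δ i + δ j) (N i j)).comp (continuous_fst (X := ℝ × ℝ) (Y := ι → ℝ))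
  exact (((continuous_apply i).comp continuous_snd).mul
    ((continuous_apply j).comp continuous_snd)).mul h

theorem G_nonneg {δ : ι → ℕ} {N : Matrix ι ι ℝ[X]} (hN : ∀ i j, (N i j).natDegree ≤ δ i + δ j)
    (hP : Psd N) (a b : ℝ) (w : ι → ℝ) : 0 ≤ G δ N a b w := by
  by_cases hb : b = 0
  · subst hb
    have hc : Continuous fun b : ℝ => G δ N a b w :=
      (continuous_G δ N).comp (by fun_prop : Continuous fun b : ℝ => ((a, b), w))
    have hlim : Filter.Tendsto (fun b => G δ N a b w) (nhdsWithin 0 (Set.Ioi 0))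
        (nhds (G δ N a 0 w)) := (hc.tendsto 0).mono_left nhdsWithin_le_nhds
    refine ge_of_tendsto hlim ?_
    filter_upwards [self_mem_nhdsWithin] with t ht
    rw [G_eval hN a (ne_of_gt ht)]
    exact hP.2 _ _
  · rw [G_eval hN a hb]
    exact hP.2 _ _

theorem G_smul (δ : ι → ℕ) (N : Matrix ι ι ℝ[X]) (a b s : ℝ) (w : ι → ℝ) :
    G δ N a b (s • w) = s ^ 2 * G δ N a b w := by
  simp only [G, Finset.mul_sum, Pi.smul_apply, smul_eq_mul]
  refine Finset.sum_congr rfl fun i _ => Finset.sum_congr rfl fun j _ => by ring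

/-- the diagonal comparison matrix -/
noncomputable def S (J : Finset ι) (δ : ι → ℕ) : Matrix ι ι ℝ[X] :=
  Matrix.diagonal fun i => if i ∈ J then (1 + X ^ 2) ^ δ i else 0

theorem HasSos.S (J : Finset ι) (δ : ι → ℕ) {ε : ℝ} (hε : 0 ≤ ε) :
    HasSos δ ((C ε : ℝ[X]) • S J δ) := by
  have h : ∀ i, ∃ f g : ℝ[X], (1 + X ^ 2) ^ δ i = f ^ 2 + g ^ 2 ∧ f.natDegree ≤ δ i ∧
      g.natDegree ≤ δ i := by
    intro i
    obtain ⟨f, g, hfg, hf, hg⟩ := nonneg_two_sq ((1 + X ^ 2 : ℝ[X]) ^ δ i) (fun x => by
      simp only [eval_pow, eval_add, eval_one, eval_X]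
      positivity)
    have hd : ((1 + X ^ 2 : ℝ[X]) ^ δ i).natDegree ≤ 2 * δ i := by
      have h1 : (1 + X ^ 2 : ℝ[X]).natDegree ≤ 2 := by compute_degree
      have h2 := natDegree_pow_le_of_le (δ i) h1
      omega
    exact ⟨f, g, hfg, by omega, by omega⟩
  choose f g hfg hf hg using h
  have hs : C ε = (C (Real.sqrt ε) : ℝ[X]) * C (Real.sqrt ε) := by
    rw [← C_mul, Real.mul_self_sqrt hε]
  refine ⟨ι ⊕ ι, inferInstance, Matrix.of fun k i => Sum.elim
    (fun k => if k = i ∧ i ∈ J then C (Real.sqrt ε) * f i else 0)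
    (fun k => if k = i ∧ i ∈ J then C (Real.sqrt ε) * g i else 0) k, ?_, ?_⟩
  · rintro (k | k) i <;> simp only [Matrix.of_apply, Sum.elim_inl, Sum.elim_inr]
    · split_ifs
      · exact (natDegree_C_mul_le _ _).trans (hf i)
      · simp
    · split_ifs
      · exact (natDegree_C_mul_le _ _).trans (hg i)
      · simp
  · ext i j : 1
    rw [Matrix.mul_apply, Fintype.sum_sum_type, Matrix.smul_apply, MFR.S, Matrix.diagonal_apply]
    simp only [Matrix.transpose_apply, Matrix.of_apply, Sum.elim_inl, Sum.elim_inr, smul_eq_mul]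
    by_cases hij : i = j
    · subst hij
      rw [if_pos rfl, Finset.sum_eq_single i, Finset.sum_eq_single i]
      · by_cases hi : i ∈ J
        · simp only [hi, and_self, if_true, hfg, hs]
          ring
        · simp [hi]
      · intro k _ hk
        simp [hk]
      · simp
      · intro k _ hk
        simp [hk]
      · simp
    · rw [if_neg hij, mul_zero, Finset.sum_eq_zero, Finset.sum_eq_zero, add_zero]
      · intro k _
        by_cases h1 : k = i
        · subst h1
          simp [hij]
        · simp [h1]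
      · intro k _
        by_cases h1 : k = i
        · subst h1
          simp [hij]
        · simp [h1]

theorem psd_ker {A : Matrix ι ι ℝ} (hs : A.IsSymm) (hp : ∀ w : ι → ℝ, 0 ≤ w ⬝ᵥ (A *ᵥ w))
    {w : ι → ℝ} (h0 : w ⬝ᵥ (A *ᵥ w) = 0) : A *ᵥ w = 0 := by
  have hA : A.PosSemidef := by
    rw [posSemidef_iff_dotProduct_mulVec]
    refine ⟨?_, fun v => ?_⟩
    · rw [Matrix.IsHermitian, Matrix.conjTranspose_eq_transpose_of_trivial]
      exact hs
    · rw [star_trivial]
      exact hp v
  have := (hA.dotProduct_mulVec_zero_iff w).1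
  rw [star_trivial] at this
  exact this h0

theorem hom_symm {δ : ι → ℕ} {N : Matrix ι ι ℝ[X]} (hs : N.IsSymm) (a b : ℝ) (i j : ι) :
    hom (δ i + δ j) (N i j) a b = hom (δ j + δ i) (N j i) a b := by
  rw [hs.apply i j, add_comm]

/-- the point where the form is as small as possible compared with the standard one -/
theorem exists_min_sing {J : Finset ι} (hJ : J.Nonempty) {δ : ι → ℕ} {N : Matrix ι ι ℝ[X]}
    (hN : ∀ i j, (N i j).natDegree ≤ δ i + δ j) (hP : Psd N) (hz : ∀ i ∉ J, ∀ j, N i j = 0) :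
    ∃ (ε a b : ℝ) (w : ι → ℝ), 0 ≤ ε ∧ a ^ 2 + b ^ 2 = 1 ∧ w ≠ 0 ∧ (∀ i ∉ J, w i = 0) ∧
      (∀ a' b' w', a' ^ 2 + b' ^ 2 = 1 → ε * ∑ i ∈ J, w' i ^ 2 ≤ G δ N a' b' w') ∧
      ∀ i ∈ J, ∑ j, hom (δ i + δ j) (N i j) a b * w j = ε * w i := by
  set K : Set ((ℝ × ℝ) × (ι → ℝ)) := {z | z.1.1 ^ 2 + z.1.2 ^ 2 = 1 ∧ (∀ i ∉ J, z.2 i = 0) ∧
    ∑ i, z.2 i ^ 2 = 1} with hK
  have hKc : IsCompact K := by
    refine Metric.isCompact_of_isClosed_isBounded ?_ ?_
    · have c1 : IsClosed {z : (ℝ × ℝ) × (ι → ℝ) | z.1.1 ^ 2 + z.1.2 ^ 2 = 1} :=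
        isClosed_eq (by fun_prop) continuous_const
      have c2 : IsClosed {z : (ℝ × ℝ) × (ι → ℝ) | ∀ i ∉ J, z.2 i = 0} := by
        have : {z : (ℝ × ℝ) × (ι → ℝ) | ∀ i ∉ J, z.2 i = 0} =
            ⋂ i, ⋂ (_ : i ∉ J), {z | z.2 i = 0} := by
          ext z
          simp
        rw [this]
        exact isClosed_iInter fun i => isClosed_iInter fun _ =>
          isClosed_eq ((continuous_apply i).comp continuous_snd) continuous_const
      have c3 : IsClosed {z : (ℝ × ℝ) × (ι → ℝ) | ∑ i, z.2 i ^ 2 = 1} :=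
        isClosed_eq (continuous_finsetSum _ fun i _ =>
          ((continuous_apply i).comp continuous_snd).pow 2) continuous_const
      exact c1.inter (c2.inter c3)
    · rw [isBounded_iff_forall_norm_le]
      refine ⟨1, fun z hz => ?_⟩
      obtain ⟨h1, -, h3⟩ := hz
      rw [Prod.norm_def, Prod.norm_def]
      refine max_le (max_le ?_ ?_) ?_
      · rw [Real.norm_eq_abs, ← sq_le_one_iff_abs_le_one]
        nlinarith [sq_nonneg z.1.2]
      · rw [Real.norm_eq_abs, ← sq_le_one_iff_abs_le_one]
        nlinarith [sq_nonneg z.1.1]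
      · rw [pi_norm_le_iff_of_nonneg zero_le_one]
        intro i
        rw [Real.norm_eq_abs, ← sq_le_one_iff_abs_le_one, ← h3]
        exact Finset.single_le_sum (f := fun i => z.2 i ^ 2) (fun _ _ => sq_nonneg _)
          (Finset.mem_univ i)
  have hKn : K.Nonempty := by
    obtain ⟨i, hi⟩ := hJ
    refine ⟨((0, 1), Pi.single i 1), by simp, ?_, ?_⟩
    · intro l hl
      have : l ≠ i := fun h => hl (h ▸ hi)
      simp [this]
    · rw [Finset.sum_eq_single i] <;> simp +contextual
  obtain ⟨⟨⟨a, b⟩, w⟩, hzK, hmin⟩ := hKc.exists_isMinOn hKn (continuous_G δ N).continuousOn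
  obtain ⟨hab, hwJ, hw1⟩ := hzK
  simp only at hab hwJ hw1
  set ε := G δ N a b w with hε
  have hw0 : w ≠ 0 := by
    rintro rfl
    simp at hw1
  -- the form only sees the coordinates in `J`
  have hGJ : ∀ a' b' (w' : ι → ℝ), G δ N a' b' w' = G δ N a' b' (fun i => if i ∈ J then w' i else 0) := by
    intro a' b' w'
    unfold G
    refine Finset.sum_congr rfl fun i _ => Finset.sum_congr rfl fun j _ => ?_
    by_cases hi : i ∈ J
    · by_cases hj : j ∈ J
      · simp [hi, hj]
      · have : N i j = 0 := by rw [hP.1.apply j i, hz j hj]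
        simp [this, hom]
    · simp [hz i hi j, hom]
  have hmin' : ∀ a' b' w', a' ^ 2 + b' ^ 2 = 1 → ε * ∑ i ∈ J, w' i ^ 2 ≤ G δ N a' b' w' := by
    intro a' b' w' hab'
    set u : ι → ℝ := fun i => if i ∈ J then w' i else 0 with hu
    rw [hGJ a' b' w', ← hu]
    have hs : ∑ i ∈ J, w' i ^ 2 = ∑ i, u i ^ 2 := by
      rw [← Finset.sum_filter_add_sum_filter_not Finset.univ (· ∈ J)]
      have h1 : ∑ i ∈ Finset.univ.filter (fun i => i ∉ J), u i ^ 2 = 0 :=
        Finset.sum_eq_zero fun i hi => by
          have := (Finset.mem_filter.1 hi).2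
          simp [hu, this]
      rw [h1, add_zero, Finset.filter_mem_eq_inter, Finset.univ_inter]
      exact Finset.sum_congr rfl fun i hi => by simp [hu, hi]
    rw [hs]
    have hs0 : 0 ≤ ∑ i, u i ^ 2 := Finset.sum_nonneg fun _ _ => sq_nonneg _
    rcases hs0.eq_or_lt with h0 | h0
    · rw [← h0, mul_zero]
      exact G_nonneg hN hP _ _ _
    · set r := Real.sqrt (∑ i, u i ^ 2) with hr
      have hr0 : 0 < r := Real.sqrt_pos.2 h0
      have hr2 : r ^ 2 = ∑ i, u i ^ 2 := Real.sq_sqrt hs0
      have hmem : (((a', b'), r⁻¹ • u) : (ℝ × ℝ) × (ι → ℝ)) ∈ K := by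
        refine ⟨hab', ?_, ?_⟩
        · intro i hi
          simp [hu, hi]
        · simp only [Pi.smul_apply, smul_eq_mul, mul_pow]
          rw [← Finset.mul_sum, ← hr2, ← mul_pow, inv_mul_cancel₀ hr0.ne', one_pow]
      have h1 : ε ≤ G δ N a' b' (r⁻¹ • u) := hmin hmem
      have h2 : u = r • (r⁻¹ • u) := by
        rw [smul_smul, mul_inv_cancel₀ hr0.ne', one_smul]
      have h3 : G δ N a' b' u = r ^ 2 * G δ N a' b' (r⁻¹ • u) := by
        conv_lhs => rw [h2]
        rw [G_smul]
      rw [h3, ← hr2, mul_comm]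
      exact mul_le_mul_of_nonneg_left h1 (sq_nonneg r)
  refine ⟨ε, a, b, w, G_nonneg hN hP _ _ _, hab, hw0, hwJ, hmin', ?_⟩
  -- the kernel
  set A : Matrix ι ι ℝ := Matrix.of fun i j => hom (δ i + δ j) (N i j) a b -
    (if i = j ∧ i ∈ J then ε else 0) with hA
  have hAw : ∀ w' : ι → ℝ, w' ⬝ᵥ (A *ᵥ w') = G δ N a b w' - ε * ∑ i ∈ J, w' i ^ 2 := by
    intro w'
    rw [dot_eq, G, Finset.mul_sum, ← Finset.sum_filter_add_sum_filter_not Finset.univ (· ∈ J)]
    rw [← Finset.sum_filter_add_sum_filter_not (s := Finset.univ) (p := (· ∈ J))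
      (f := fun i => ∑ j, w' i * w' j * hom (δ i + δ j) (N i j) a b)]
    rw [Finset.filter_mem_eq_inter, Finset.univ_inter]
    have h1 : ∀ i, ∑ j, w' i * w' j * A i j = ∑ j, w' i * w' j * hom (δ i + δ j) (N i j) a b -
        (if i ∈ J then ε * w' i ^ 2 else 0) := by
      intro i
      simp only [hA, Matrix.of_apply, mul_sub, Finset.sum_sub_distrib]
      congr 1
      rw [Finset.sum_eq_single i]
      · by_cases hi : i ∈ J <;> simp [hi]
        ring
      · intro j _ hj
        simp [Ne.symm hj]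
      · simp
    simp only [h1, Finset.sum_sub_distrib]
    have h2 : ∑ i ∈ J, (if i ∈ J then ε * w' i ^ 2 else 0) = ∑ i ∈ J, ε * w' i ^ 2 :=
      Finset.sum_congr rfl fun i hi => by simp [hi]
    have h3 : ∑ i ∈ Finset.univ.filter (fun i => i ∉ J), (if i ∈ J then ε * w' i ^ 2 else 0) = 0 :=
      Finset.sum_eq_zero fun i hi => by simp [(Finset.mem_filter.1 hi).2]
    rw [h2, h3]
    ring
  have hker : A *ᵥ w = 0 := by
    refine psd_ker ?_ ?_ ?_
    · ext i j
      simp only [hA, Matrix.transpose_apply, Matrix.of_apply]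
      rw [hom_symm hP.1]
      congr 1
      by_cases h : i = j
      · subst h; rfl
      · simp [h, Ne.symm h]
    · intro w'
      rw [hAw]
      linarith [hmin' a b w' hab]
    · rw [hAw]
      have : ∑ i ∈ J, w i ^ 2 = 1 := by
        rw [← hw1]
        refine Finset.sum_subset (Finset.subset_univ _) fun i _ hi => ?_
        rw [hwJ i hi, zero_pow two_ne_zero]
      rw [this, ← hε]
      ring
  intro i hi
  have h1 := congrFun hker i
  simp only [mulVec, dotProduct, hA, Matrix.of_apply, sub_mul, Finset.sum_sub_distrib,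
    Pi.zero_apply] at h1
  have h2 : ∑ j, (if i = j ∧ i ∈ J then ε else 0) * w j = ε * w i := by
    rw [Finset.sum_eq_single i]
    · simp [hi]
    · intro j _ hj
      simp [Ne.symm hj]
    · simp
  rw [h2] at h1
  linarith

theorem psd_sub {J : Finset ι} {δ : ι → ℕ} {N : Matrix ι ι ℝ[X]}
    (hN : ∀ i j, (N i j).natDegree ≤ δ i + δ j) (hP : Psd N) {ε : ℝ}
    (hmin : ∀ a' b' w', a' ^ 2 + b' ^ 2 = 1 → ε * ∑ i ∈ J, w' i ^ 2 ≤ G δ N a' b' w') :
    Psd (N - (C ε : ℝ[X]) • S J δ) := by
  refine ⟨?_, fun x w => ?_⟩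
  · rw [Matrix.IsSymm, Matrix.transpose_sub, hP.1.eq, Matrix.transpose_smul, S,
      Matrix.diagonal_transpose]
  · have h1x : 0 < 1 + x ^ 2 := by positivity
    set r := Real.sqrt (1 + x ^ 2) with hr
    have hr0 : 0 < r := Real.sqrt_pos.2 h1x
    have hr2 : r ^ 2 = 1 + x ^ 2 := Real.sq_sqrt h1x.le
    have h1 := hmin (x / r) (1 / r) (fun i => r ^ δ i * w i) (by
      field_simp
      linarith)
    rw [G_eval hN _ (by positivity)] at h1
    have h2 : x / r / (1 / r) = x := by field_simp
    have h3 : (fun i => (1 / r) ^ δ i * (r ^ δ i * w i)) = w := by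
      funext i
      rw [← mul_assoc, ← mul_pow, one_div, inv_mul_cancel₀ hr0.ne', one_pow, one_mul]
    rw [h2, h3] at h1
    have h4 : w ⬝ᵥ ((N - (C ε : ℝ[X]) • S J δ).map (eval x) *ᵥ w) =
        w ⬝ᵥ (N.map (eval x) *ᵥ w) - ε * ∑ i ∈ J, (r ^ δ i * w i) ^ 2 := by
      rw [dot_eq, dot_eq, Finset.mul_sum]
      have h5 : ∀ i, ∑ j, w i * w j * (N - (C ε : ℝ[X]) • S J δ).map (eval x) i j =
          ∑ j, w i * w j * N.map (eval x) i j -
            (if i ∈ J then ε * (r ^ δ i * w i) ^ 2 else 0) := by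
        intro i
        simp only [Matrix.map_apply, Matrix.sub_apply, Matrix.smul_apply, S,
          Matrix.diagonal_apply, eval_sub, smul_eq_mul, eval_mul, eval_C, mul_sub,
          Finset.sum_sub_distrib]
        congr 1
        rw [Finset.sum_eq_single i]
        · by_cases hi : i ∈ J
          · simp only [hi, if_true, eval_pow, eval_add, eval_one, eval_X]
            rw [← hr2]
            ring
          · simp [hi]
        · intro j _ hj
          simp [Ne.symm hj]
        · simp
      simp only [h5, Finset.sum_sub_distrib]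
      congr 1
      rw [Finset.sum_ite_mem, Finset.univ_inter]
    rw [h4]
    linarith

theorem zero_diag {M : Matrix ι ι ℝ[X]} (hM : Psd M) {i : ι} (h0 : M i i = 0) (j : ι) :
    M i j = 0 := by
  apply Polynomial.funext
  intro x
  have h1 := psd_ker (A := M.map (eval x)) (by
    rw [Matrix.IsSymm, ← Matrix.transpose_map, hM.1.eq]) (hM.2 x) (w := Pi.single i 1) (by
      rw [dot_eq, Finset.sum_eq_single i, Finset.sum_eq_single i]
      · simp [h0]
      · intro l _ hl
        simp [hl]
      · simp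
      · intro l _ hl
        simp [hl]
      · simp)
  have h2 := congrFun h1 j
  rw [mulVec, dotProduct, Finset.sum_eq_single i] at h2
  · simp only [Matrix.map_apply, Pi.single_eq_same, mul_one, Pi.zero_apply] at h2
    rw [← hM.1.apply i j, eval_zero]
    exact h2
  · intro l _ hl
    simp [hl]
  · simp

/-- the measure of the induction -/
def meas (J : Finset ι) (δ : ι → ℕ) : ℕ := J.card + ∑ i ∈ J, δ i

/-- the induction hypothesis -/
def IH (ι : Type) [Fintype ι] [DecidableEq ι] (μ : ℕ) : Prop :=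
  ∀ (J : Finset ι) (δ : ι → ℕ) (N : Matrix ι ι ℝ[X]), meas J δ < μ → (∀ i ∉ J, ∀ j, N i j = 0) →
    (∀ i j, (N i j).natDegree ≤ δ i + δ j) → Psd N → HasSos δ N

theorem case_zero {μ : ℕ} (ih : IH ι μ) {J : Finset ι} {δ : ι → ℕ} {M : Matrix ι ι ℝ[X]}
    (hμ : meas J δ ≤ μ) (hz : ∀ i ∉ J, ∀ j, M i j = 0)
    (hd : ∀ i j, (M i j).natDegree ≤ δ i + δ j) (hM : Psd M) {i₀ : ι} (hi₀ : i₀ ∈ J)
    (h0 : M i₀ i₀ = 0) : HasSos δ M := by
  refine ih (J.erase i₀) δ M ?_ ?_ hd hM
  · have h1 := Finset.card_erase_lt_of_mem hi₀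
    have h2 : ∑ i ∈ J.erase i₀, δ i ≤ ∑ i ∈ J, δ i :=
      Finset.sum_le_sum_of_subset (Finset.erase_subset _ _)
    unfold meas at hμ ⊢
    omega
  · intro i hi j
    by_cases h : i = i₀
    · subst h
      exact zero_diag hM h0 j
    · exact hz i (fun hiJ => hi (Finset.mem_erase.2 ⟨h, hiJ⟩)) j

theorem meas_update {J : Finset ι} {δ : ι → ℕ} {i₀ : ι} (hi₀ : i₀ ∈ J) (h1 : 1 ≤ δ i₀) :
    meas J (Function.update δ i₀ (δ i₀ - 1)) < meas J δ := by
  unfold meas
  rw [← Finset.add_sum_erase J _ hi₀, ← Finset.add_sum_erase J δ hi₀]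
  have : ∑ x ∈ J.erase i₀, Function.update δ i₀ (δ i₀ - 1) x = ∑ x ∈ J.erase i₀, δ x :=
    Finset.sum_congr rfl fun x hx => by
      rw [Function.update_of_ne (Finset.ne_of_mem_erase hx)]
  rw [this, Function.update_self]
  omega

/-- reduction at infinity -/
theorem case_inf {μ : ℕ} (ih : IH ι μ) {J : Finset ι} {δ : ι → ℕ} {M : Matrix ι ι ℝ[X]}
    (hμ : meas J δ ≤ μ) (hz : ∀ i ∉ J, ∀ j, M i j = 0)
    (hd : ∀ i j, (M i j).natDegree ≤ δ i + δ j) (hM : Psd M) {i₀ : ι} (hi₀ : i₀ ∈ J)
    (h0 : ∀ j, (M i₀ j).coeff (δ i₀ + δ j) = 0) : HasSos δ M := by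
  by_cases h1 : δ i₀ = 0
  · refine case_zero ih hμ hz hd hM hi₀ ?_
    have h2 := hd i₀ i₀
    have h3 := h0 i₀
    rw [h1, add_zero] at h2 h3
    rw [eq_C_of_natDegree_le_zero h2, h3, C_0]
  · have hle : ∀ i, Function.update δ i₀ (δ i₀ - 1) i ≤ δ i := by
      intro i
      by_cases h : i = i₀
      · subst h
        rw [Function.update_self]
        omega
      · rw [Function.update_of_ne h]
    have hlt : ∀ j, (M i₀ j).natDegree ≤ δ i₀ + δ j - 1 := by
      intro j
      by_cases hM0 : M i₀ j = 0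
      · rw [hM0, natDegree_zero]
        exact Nat.zero_le _
      · have h2 := hd i₀ j
        have h3 : (M i₀ j).natDegree ≠ δ i₀ + δ j := by
          intro h
          have h4 := h0 j
          rw [← h, coeff_natDegree, leadingCoeff_eq_zero] at h4
          exact hM0 h4
        omega
    have heven : (M i₀ i₀).natDegree ≤ 2 * δ i₀ - 2 := by
      obtain ⟨f, g, hfg, hf, hg⟩ := nonneg_two_sq (M i₀ i₀) (fun x => by
        have h2 := hM.2 x (Pi.single i₀ 1)
        rw [dot_eq, Finset.sum_eq_single i₀, Finset.sum_eq_single i₀] at h2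
        · simpa using h2
        · intro l _ hl
          simp [hl]
        · simp
        · intro l _ hl
          simp [hl]
        · simp)
      have h2 := hlt i₀
      have h3 : f.natDegree ≤ δ i₀ - 1 := by omega
      have h4 : g.natDegree ≤ δ i₀ - 1 := by omega
      have h5 : (f ^ 2 + g ^ 2).natDegree ≤ 2 * (δ i₀ - 1) := by
        refine natDegree_add_le_of_degree_le ?_ ?_
        · exact natDegree_pow_le_of_le 2 h3
        · exact natDegree_pow_le_of_le 2 h4
      rw [← hfg] at h5
      omega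
    obtain ⟨κ, hκ, V, hV, hMV⟩ := ih J (Function.update δ i₀ (δ i₀ - 1)) M
      ((meas_update hi₀ (by omega)).trans_le hμ) hz (fun i j => by
        by_cases hi : i = i₀
        · subst hi
          by_cases hj : j = i
          · subst hj
            rw [Function.update_self]
            omega
          · rw [Function.update_self, Function.update_of_ne hj]
            have := hlt j
            omega
        · by_cases hj : j = i₀
          · subst hj
            rw [Function.update_self, Function.update_of_ne hi, hM.1.apply j i]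
            have := hlt i
            omega
          · rw [Function.update_of_ne hi, Function.update_of_ne hj]
            exact hd i j) hM
    exact ⟨κ, hκ, V, fun k i => (hV k i).trans (hle i), hMV⟩

/-- reduction at a real point -/
theorem case_fin {μ : ℕ} (ih : IH ι μ) {J : Finset ι} {δ : ι → ℕ} {M : Matrix ι ι ℝ[X]}
    (hμ : meas J δ ≤ μ) (hz : ∀ i ∉ J, ∀ j, M i j = 0)
    (hd : ∀ i j, (M i j).natDegree ≤ δ i + δ j) (hM : Psd M) {i₀ : ι} (hi₀ : i₀ ∈ J)
    {x₀ : ℝ} (h0 : ∀ j, (M i₀ j).eval x₀ = 0) : HasSos δ M := by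
  by_cases h1 : δ i₀ = 0
  · refine case_zero ih hμ hz hd hM hi₀ ?_
    have h2 := hd i₀ i₀
    rw [h1, add_zero] at h2
    have h3 := h0 i₀
    rw [eq_C_of_natDegree_le_zero h2, eval_C] at h3
    rw [eq_C_of_natDegree_le_zero h2, h3, C_0]
  · set l : ℝ[X] := X - C x₀ with hl
    have hmon : l.Monic := monic_X_sub_C x₀
    have hdiv : ∀ j, l * (M i₀ j /ₘ l) = M i₀ j := fun j =>
      mul_divByMonic_eq_iff_isRoot.2 (h0 j)
    -- the double root
    have hnn : ∀ x, 0 ≤ (M i₀ i₀).eval x := by
      intro x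
      have h2 := hM.2 x (Pi.single i₀ 1)
      rw [dot_eq, Finset.sum_eq_single i₀, Finset.sum_eq_single i₀] at h2
      · simpa using h2
      · intro l _ hl
        simp [hl]
      · simp
      · intro l _ hl
        simp [hl]
      · simp
    have hroot2 : (M i₀ i₀ /ₘ l).eval x₀ = 0 := by
      set q := M i₀ i₀ /ₘ l with hq
      have hval : ∀ x, (M i₀ i₀).eval x = (x - x₀) * q.eval x := by
        intro x
        have h9 := congrArg (eval x) (hdiv i₀)
        rw [← hq, eval_mul] at h9
        rw [← h9]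
        congr 1
        simp [hl]
      have h1 : 0 ≤ q.eval x₀ := by
        have hlim : Filter.Tendsto (fun t => q.eval t) (nhdsWithin x₀ (Set.Ioi x₀))
            (nhds (q.eval x₀)) := (q.continuous.tendsto x₀).mono_left nhdsWithin_le_nhds
        refine ge_of_tendsto hlim ?_
        filter_upwards [self_mem_nhdsWithin] with t ht
        have h2 := hnn t
        rw [hval] at h2
        exact nonneg_of_mul_nonneg_right h2 (sub_pos.2 ht)
      have h3 : q.eval x₀ ≤ 0 := by
        have hlim : Filter.Tendsto (fun t => q.eval t) (nhdsWithin x₀ (Set.Iio x₀))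
            (nhds (q.eval x₀)) := (q.continuous.tendsto x₀).mono_left nhdsWithin_le_nhds
        refine le_of_tendsto hlim ?_
        filter_upwards [self_mem_nhdsWithin] with t ht
        have h2 := hnn t
        rw [hval] at h2
        have h4 : t - x₀ < 0 := sub_neg.2 ht
        by_contra h5
        push Not at h5
        have := mul_neg_of_neg_of_pos h4 h5
        linarith
      linarith
    have hdiv2 : l * ((M i₀ i₀ /ₘ l) /ₘ l) = M i₀ i₀ /ₘ l :=
      mul_divByMonic_eq_iff_isRoot.2 hroot2
    -- the reduced matrix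
    set M' : Matrix ι ι ℝ[X] := Matrix.of fun i j =>
      if i = i₀ then (if j = i₀ then (M i₀ i₀ /ₘ l) /ₘ l else M i₀ j /ₘ l)
      else (if j = i₀ then M i₀ i /ₘ l else M i j) with hM'
    set D : Matrix ι ι ℝ[X] := Matrix.diagonal fun i => if i = i₀ then l else 1 with hD
    have hMD : M = Dᵀ * M' * D := by
      ext i j : 1
      rw [hD, Matrix.diagonal_transpose, Matrix.mul_diagonal, Matrix.diagonal_mul, hM',
        Matrix.of_apply]
      by_cases hi : i = i₀
      · by_cases hj : j = i₀
        · subst hi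
          subst hj
          simp only [if_true]
          rw [hdiv2, mul_comm, hdiv]
        · subst hi
          simp only [if_true, if_neg hj, mul_one]
          rw [hdiv]
      · by_cases hj : j = i₀
        · subst hj
          simp only [if_true, if_neg hi, one_mul]
          rw [mul_comm, hdiv, hM.1.apply]
        · simp only [if_neg hi, if_neg hj, one_mul, mul_one]
    have hpoly : ∀ (x : ℝ) (w : ι → ℝ), w ⬝ᵥ (M.map (eval x) *ᵥ w) =
        (fun i => (if i = i₀ then x - x₀ else 1) * w i) ⬝ᵥ (M'.map (eval x) *ᵥ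
          fun i => (if i = i₀ then x - x₀ else 1) * w i) := by
      intro x w
      rw [dot_eq, dot_eq]
      refine Finset.sum_congr rfl fun i _ => Finset.sum_congr rfl fun j _ => ?_
      have h2 : M.map (eval x) i j = (if i = i₀ then x - x₀ else 1) * M'.map (eval x) i j *
          (if j = i₀ then x - x₀ else 1) := by
        rw [Matrix.map_apply, Matrix.map_apply]
        conv_lhs => rw [hMD, hD, Matrix.diagonal_transpose, Matrix.mul_diagonal,
          Matrix.diagonal_mul]
        rw [eval_mul, eval_mul]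
        congr 1
        · congr 1
          split_ifs <;> simp [hl]
        · split_ifs <;> simp [hl]
      rw [h2]
      ring
    have hPM' : Psd M' := by
      refine ⟨?_, ?_⟩
      · ext i j : 1
        rw [Matrix.transpose_apply, hM', Matrix.of_apply, Matrix.of_apply]
        by_cases hi : i = i₀ <;> by_cases hj : j = i₀ <;> simp [hi, hj, hM.1.apply i j]
      · intro x w
        set P : ℝ[X] := ∑ i, ∑ j, C (w i * w j) * M' i j with hP
        have hPe : ∀ y, P.eval y = w ⬝ᵥ (M'.map (eval y) *ᵥ w) := by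
          intro y
          rw [hP, dot_eq]
          simp only [eval_finsetSum, eval_mul, eval_C, Matrix.map_apply]
        rw [← hPe]
        refine nonneg_of_eventually_ne (a := x₀) (fun y hy => ?_) x
        have h2 := hM.2 y (fun i => (if i = i₀ then (y - x₀)⁻¹ else 1) * w i)
        rw [hpoly] at h2
        have h3 : (fun i => (if i = i₀ then y - x₀ else 1) *
            ((if i = i₀ then (y - x₀)⁻¹ else 1) * w i)) = w := by
          funext i
          by_cases hi : i = i₀
          · simp only [hi, if_true]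
            rw [← mul_assoc, mul_inv_cancel₀ (sub_ne_zero.2 hy), one_mul]
          · simp [hi]
        rw [h3] at h2
        rw [hPe]
        exact h2
    have hdl : ∀ p : ℝ[X], (p /ₘ l).natDegree = p.natDegree - 1 := by
      intro p
      rw [natDegree_divByMonic p hmon, hl, natDegree_X_sub_C]
    obtain ⟨κ, hκ, V, hV, hMV⟩ := ih J (Function.update δ i₀ (δ i₀ - 1)) M'
      ((meas_update hi₀ (by omega)).trans_le hμ) (fun i hi j => by
        have hne : i ≠ i₀ := fun h => hi (h ▸ hi₀)
        rw [hM', Matrix.of_apply, if_neg hne]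
        split_ifs with hj
        · rw [hM.1.apply i i₀, hz i hi, zero_divByMonic]
        · exact hz i hi j) (fun i j => by
        rw [hM', Matrix.of_apply]
        by_cases hi : i = i₀
        · subst hi
          by_cases hj : j = i
          · subst hj
            rw [if_pos rfl, if_pos rfl, Function.update_self, hdl, hdl]
            have := hd j j
            omega
          · rw [if_pos rfl, if_neg hj, Function.update_self, Function.update_of_ne hj, hdl]
            have := hd i j
            omega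
        · by_cases hj : j = i₀
          · subst hj
            rw [if_neg hi, if_pos rfl, Function.update_self, Function.update_of_ne hi, hdl]
            have := hd j i
            omega
          · rw [if_neg hi, if_neg hj, Function.update_of_ne hi, Function.update_of_ne hj]
            exact hd i j) hPM'
    refine ⟨κ, hκ, V * D, fun k i => ?_, ?_⟩
    · rw [hD, Matrix.mul_diagonal]
      have h2 := hV k i
      by_cases hi : i = i₀
      · subst hi
        rw [Function.update_self] at h2
        rw [if_pos rfl]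
        have h3 := natDegree_mul_le (p := V k i) (q := l)
        have h4 : l.natDegree = 1 := natDegree_X_sub_C x₀
        rw [h4] at h3
        omega
      · rw [Function.update_of_ne hi] at h2
        rw [if_neg hi, mul_one]
        exact h2
    · rw [Matrix.transpose_mul, hMD, hMV]
      simp only [Matrix.mul_assoc]

/-- the column transformation -/
noncomputable def colT (i₀ : ι) (u : ι → ℝ[X]) : Matrix ι ι ℝ[X] :=
  Matrix.of fun i j => if j = i₀ then u i else if i = j then 1 else 0

noncomputable def colU (i₀ : ι) (u : ι → ℝ[X]) (c : ℝ) : Matrix ι ι ℝ[X] :=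
  Matrix.of fun i j => if j = i₀ then (if i = i₀ then C c⁻¹ else -(C c⁻¹ * u i))
    else if i = j then 1 else 0

theorem colT_mul_colU {i₀ : ι} {u : ι → ℝ[X]} {c : ℝ} (hc : c ≠ 0) (hu : u i₀ = C c) :
    colT i₀ u * colU i₀ u c = 1 := by
  ext i j : 1
  rw [Matrix.mul_apply, Matrix.one_apply, ← Finset.add_sum_erase _ _ (Finset.mem_univ i₀)]
  simp only [colT, colU, Matrix.of_apply, if_true]
  have hcc : (C c : ℝ[X]) * C c⁻¹ = 1 := by
    rw [← C_mul, mul_inv_cancel₀ hc, C_1]
  by_cases hj : j = i₀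
  · subst hj
    simp only [if_true]
    have h1 : ∑ x ∈ Finset.univ.erase j, (if x = j then u i else if i = x then 1 else 0) *
        (if x = j then C c⁻¹ else -(C c⁻¹ * u x)) = if i = j then 0 else -(C c⁻¹ * u i) := by
      by_cases hi : i = j
      · rw [if_pos hi]
        refine Finset.sum_eq_zero fun x hx => ?_
        have hx' := Finset.ne_of_mem_erase hx
        rw [if_neg hx', hi, if_neg (Ne.symm hx'), zero_mul]
      · rw [if_neg hi, Finset.sum_eq_single i]
        · simp [hi]
        · intro x hx hxi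
          have hx' := Finset.ne_of_mem_erase hx
          rw [if_neg hx', if_neg (Ne.symm hxi), zero_mul]
        · intro h
          exact absurd (Finset.mem_erase.2 ⟨hi, Finset.mem_univ i⟩) h
    rw [h1]
    by_cases hi : i = j
    · subst hi
      simp [hu, hcc]
    · simp only [if_neg hi]
      ring
  · simp only [if_neg hj, if_neg (Ne.symm hj), mul_zero, zero_add]
    rw [Finset.sum_eq_single j]
    · simp [hj]
    · intro x hx hxj
      rw [if_neg hxj, mul_zero]
    · intro h
      exact absurd (Finset.mem_erase.2 ⟨hj, Finset.mem_univ j⟩) h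

theorem colT_degree {δ : ι → ℕ} {N : Matrix ι ι ℝ[X]}
    (hN : ∀ i j, (N i j).natDegree ≤ δ i + δ j) {i₀ : ι} {u : ι → ℝ[X]}
    (hu : ∀ i, u i = 0 ∨ δ i + (u i).natDegree ≤ δ i₀) (i j : ι) :
    (((colT i₀ u)ᵀ * N * colT i₀ u) i j).natDegree ≤ δ i + δ j := by
  have hT : ∀ i j, colT i₀ u i j = 0 ∨ δ i + (colT i₀ u i j).natDegree ≤ δ j := by
    intro i j
    rw [colT, Matrix.of_apply]
    by_cases hj : j = i₀
    · subst hj
      rw [if_pos rfl]
      exact hu i
    · rw [if_neg hj]
      by_cases hij : i = j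
      · subst hij
        simp
      · simp [hij]
  have h1 : ∀ i j, (((colT i₀ u)ᵀ * N) i j).natDegree ≤ δ i + δ j := by
    intro i j
    rw [Matrix.mul_apply]
    refine natDegree_sum_le_of_forall_le _ _ fun l _ => ?_
    rw [Matrix.transpose_apply]
    rcases hT l i with h | h
    · rw [h, zero_mul, natDegree_zero]
      exact Nat.zero_le _
    · have h2 := natDegree_mul_le (p := colT i₀ u l i) (q := N l j)
      have h3 := hN l j
      omega
  rw [Matrix.mul_apply]
  refine natDegree_sum_le_of_forall_le _ _ fun l _ => ?_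
  rcases hT l j with h | h
  · rw [h, mul_zero, natDegree_zero]
    exact Nat.zero_le _
  · have h2 := natDegree_mul_le (p := ((colT i₀ u)ᵀ * N) i l) (q := colT i₀ u l j)
    have h3 := h1 i l
    omega

theorem colU_degree {δ : ι → ℕ} {i₀ : ι} {u : ι → ℝ[X]} (c : ℝ)
    (hu : ∀ i, u i = 0 ∨ δ i + (u i).natDegree ≤ δ i₀) (i j : ι) :
    colU i₀ u c i j = 0 ∨ δ i + (colU i₀ u c i j).natDegree ≤ δ j := by
  rw [colU, Matrix.of_apply]
  by_cases hj : j = i₀
  · subst hj
    rw [if_pos rfl]
    by_cases hi : i = j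
    · subst hi
      rw [if_pos rfl, natDegree_C]
      right
      omega
    · rw [if_neg hi]
      rcases hu i with h | h
      · left
        rw [h, mul_zero, neg_zero]
      · right
        rw [natDegree_neg]
        have := natDegree_C_mul_le c⁻¹ (u i)
        omega
  · rw [if_neg hj]
    by_cases hij : i = j
    · subst hij
      simp
    · simp [hij]

theorem colT_psd {N : Matrix ι ι ℝ[X]} (hN : Psd N) (T : Matrix ι ι ℝ[X]) : Psd (Tᵀ * N * T) := by
  refine ⟨?_, fun x w => ?_⟩
  · rw [Matrix.IsSymm, Matrix.transpose_mul, Matrix.transpose_mul, Matrix.transpose_transpose,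
      hN.1.eq, Matrix.mul_assoc]
  · have h1 : (Tᵀ * N * T).map (eval x) = (T.map (eval x))ᵀ * N.map (eval x) * T.map (eval x) := by
      have h2 : ∀ A B : Matrix ι ι ℝ[X], (A * B).map (eval x) = A.map (eval x) * B.map (eval x) :=
        fun A B => Matrix.map_mul (f := evalRingHom x)
      rw [h2, h2, Matrix.transpose_map]
    rw [h1, Matrix.mul_assoc, ← Matrix.mulVec_mulVec, Matrix.dotProduct_mulVec,
      Matrix.vecMul_transpose, ← Matrix.mulVec_mulVec]
    exact hN.2 x _

theorem colT_zero {J : Finset ι} {N : Matrix ι ι ℝ[X]} (hz : ∀ i ∉ J, ∀ j, N i j = 0) {i₀ : ι}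
    (hi₀ : i₀ ∈ J) (u : ι → ℝ[X]) : ∀ i ∉ J, ∀ j, ((colT i₀ u)ᵀ * N * colT i₀ u) i j = 0 := by
  intro i hi j
  have hne : i ≠ i₀ := fun h => hi (h ▸ hi₀)
  rw [Matrix.mul_assoc, Matrix.mul_apply, Finset.sum_eq_single i]
  · have : (N * colT i₀ u) i j = 0 := by
      rw [Matrix.mul_apply]
      exact Finset.sum_eq_zero fun l _ => by rw [hz i hi, zero_mul]
    rw [this, mul_zero]
  · intro l _ hl
    rw [Matrix.transpose_apply, colT, Matrix.of_apply, if_neg hne, if_neg hl, zero_mul]
  · simp

theorem colT_row {N : Matrix ι ι ℝ[X]} {i₀ : ι} (u : ι → ℝ[X]) (j : ι) :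
    ((colT i₀ u)ᵀ * N * colT i₀ u) i₀ j =
      ∑ l, (∑ i, u i * N i l) * colT i₀ u l j := by
  rw [Matrix.mul_apply]
  refine Finset.sum_congr rfl fun l _ => ?_
  congr 1
  rw [Matrix.mul_apply]
  refine Finset.sum_congr rfl fun i _ => ?_
  rw [Matrix.transpose_apply, colT, Matrix.of_apply, if_pos rfl]

theorem S_apply (J : Finset ι) (δ : ι → ℕ) (i j : ι) :
    S J δ i j = if i = j then (if i ∈ J then (1 + X ^ 2) ^ δ i else 0) else 0 := by
  rw [S, Matrix.diagonal_apply]

theorem S_degree (J : Finset ι) (δ : ι → ℕ) (i j : ι) : (S J δ i j).natDegree ≤ δ i + δ j := by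
  rw [S_apply]
  split_ifs with h1 h2
  · subst h1
    have h3 : (1 + X ^ 2 : ℝ[X]).natDegree ≤ 2 := by compute_degree
    have h4 := natDegree_pow_le_of_le (δ i) h3
    omega
  · simp
  · simp

theorem main_step {μ : ℕ} (ih : IH ι μ) {J : Finset ι} {δ : ι → ℕ} {N : Matrix ι ι ℝ[X]}
    (hμ : meas J δ ≤ μ) (hz : ∀ i ∉ J, ∀ j, N i j = 0)
    (hd : ∀ i j, (N i j).natDegree ≤ δ i + δ j) (hP : Psd N) : HasSos δ N := by
  rcases J.eq_empty_or_nonempty with hJ | hJ
  · refine ⟨Empty, inferInstance, 0, fun k => k.elim, ?_⟩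
    ext i j : 1
    rw [hz i (by simp [hJ])]
    simp
  obtain ⟨ε, a, b, w, hε, hab, hw0, hwJ, hmin, hker⟩ := exists_min_sing hJ hd hP hz
  set N' := N - (C ε : ℝ[X]) • S J δ with hN'
  have hNN : N = N' + (C ε : ℝ[X]) • S J δ := by rw [hN', sub_add_cancel]
  rw [hNN]
  refine HasSos.add ?_ (HasSos.S J δ hε)
  have hP' : Psd N' := psd_sub hd hP hmin
  have hN'a : ∀ i j, N' i j = N i j - C ε * S J δ i j := fun i j => by
    rw [hN', Matrix.sub_apply, Matrix.smul_apply, smul_eq_mul]
  have hz' : ∀ i ∉ J, ∀ j, N' i j = 0 := by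
    intro i hi j
    rw [hN'a, hz i hi, S_apply]
    simp [hi]
  have hd' : ∀ i j, (N' i j).natDegree ≤ δ i + δ j := by
    intro i j
    rw [hN'a]
    exact (natDegree_sub_le_of_le (hd i j)
      ((natDegree_C_mul_le _ _).trans (S_degree J δ i j))).trans (max_self _).le
  -- the index
  obtain ⟨i₀, hi₀, hmax⟩ : ∃ i₀, w i₀ ≠ 0 ∧ ∀ i, w i ≠ 0 → δ i ≤ δ i₀ := by
    have hne : (Finset.univ.filter fun i => w i ≠ 0).Nonempty := by
      by_contra h
      rw [Finset.not_nonempty_iff_eq_empty] at h
      apply hw0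
      funext i
      by_contra hi
      have : i ∈ Finset.univ.filter fun i => w i ≠ 0 := by simpa using hi
      rw [h] at this
      simp at this
    obtain ⟨i₀, h1, h2⟩ := Finset.exists_max_image _ δ hne
    exact ⟨i₀, (Finset.mem_filter.1 h1).2, fun i hi => h2 i (by simpa using hi)⟩
  have hi₀J : i₀ ∈ J := by
    by_contra h
    exact hi₀ (hwJ i₀ h)
  by_cases hb : b = 0
  · -- at infinity
    subst hb
    have ha2 : a ^ 2 = 1 := by simpa using hab
    have ha0 : a ≠ 0 := by
      rintro rfl
      norm_num at ha2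
    have haa : ∀ n : ℕ, a ^ n * a ^ n = 1 := by
      intro n
      rw [← mul_pow, ← sq, ha2, one_pow]
    set u : ι → ℝ[X] := fun i => C (a ^ δ i * w i) * X ^ (δ i₀ - δ i) with hu
    have hu0 : u i₀ = C (a ^ δ i₀ * w i₀) := by
      rw [hu]
      simp
    have hud : ∀ i, u i = 0 ∨ δ i + (u i).natDegree ≤ δ i₀ := by
      intro i
      by_cases hwi : w i = 0
      · left
        rw [hu]
        simp [hwi]
      · right
        have h1 := hmax i hwi
        have h2 : (u i).natDegree ≤ δ i₀ - δ i := natDegree_C_mul_X_pow_le _ _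
        omega
    have hc : a ^ δ i₀ * w i₀ ≠ 0 := mul_ne_zero (pow_ne_zero _ ha0) hi₀
    refine HasSos.conj (colT_mul_colU hc hu0) (colU_degree _ hud) ?_
    refine case_inf ih hμ (colT_zero hz' hi₀J u) (colT_degree hd' hud) (colT_psd hP' _) hi₀J ?_
    -- the top coefficients
    have hR : ∀ l, (∑ i, u i * N' i l).coeff (δ i₀ + δ l) = 0 := by
      intro l
      rw [finsetSum_coeff]
      have h1 : ∀ i, (u i * N' i l).coeff (δ i₀ + δ l) =
          a ^ δ i * w i * (N' i l).coeff (δ i + δ l) := by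
        intro i
        by_cases hwi : w i = 0
        · rw [hu]
          simp [hwi]
        · have h2 := hmax i hwi
          have h3 : δ i₀ + δ l = (δ i₀ - δ i) + (δ i + δ l) := by omega
          rw [h3, coeff_mul_add_eq_of_natDegree_le (natDegree_C_mul_X_pow_le _ _) (hd' i l),
            coeff_C_mul, coeff_X_pow_self, mul_one]
      simp only [h1]
      by_cases hl : l ∈ J
      · have h2 := hker l hl
        simp only [hom_zero] at h2
        have h4 : ∑ i, a ^ δ i * w i * (N' i l).coeff (δ i + δ l) =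
            ∑ i, a ^ δ i * w i * (N l i).coeff (δ l + δ i) - ε * (a ^ δ l * w l) := by
          have h5 : ∀ i, a ^ δ i * w i * (N' i l).coeff (δ i + δ l) =
              a ^ δ i * w i * (N l i).coeff (δ l + δ i) -
                (if i = l then ε * (a ^ δ l * w l) else 0) := by
            intro i
            rw [hN'a, coeff_sub, coeff_C_mul, S_apply, hP.1.apply l i]
            by_cases hil : i = l
            · subst hil
              have h6 : ((1 + X ^ 2 : ℝ[X]) ^ δ i).coeff (δ i + δ i) = 1 := by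
                have h7 : (1 + X ^ 2 : ℝ[X]).natDegree ≤ 2 := by compute_degree
                have h8 := coeff_pow_of_natDegree_le (m := δ i) h7
                have h9 : δ i * 2 = δ i + δ i := by ring
                rw [h9] at h8
                rw [h8]
                simp [coeff_one, coeff_X_pow]
              rw [if_pos rfl, if_pos hl, if_pos rfl, h6]
              ring
            · rw [if_neg hil, if_neg hil, coeff_zero, mul_zero, sub_zero, sub_zero, add_comm (δ i)]
          simp only [h5, Finset.sum_sub_distrib]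
          simp
        rw [h4]
        have h10 : a ^ δ l * ∑ i, a ^ δ i * w i * (N l i).coeff (δ l + δ i) = ε * w l := by
          rw [← h2, Finset.mul_sum]
          refine Finset.sum_congr rfl fun i _ => ?_
          rw [pow_add]
          ring
        have h11 := haa (δ l)
        have h12 : a ^ δ l * (∑ i, a ^ δ i * w i * (N l i).coeff (δ l + δ i) -
            ε * (a ^ δ l * w l)) = 0 := by
          rw [mul_sub, h10]
          linear_combination (-(ε * w l)) * h11
        exact (mul_eq_zero.1 h12).resolve_left (pow_ne_zero _ ha0)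
      · refine Finset.sum_eq_zero fun i _ => ?_
        rw [hP'.1.apply l i, hz' l hl, coeff_zero, mul_zero]
    have hRd : ∀ l, (∑ i, u i * N' i l).natDegree ≤ δ i₀ + δ l := by
      intro l
      refine natDegree_sum_le_of_forall_le _ _ fun i _ => ?_
      rcases hud i with h | h
      · rw [h, zero_mul, natDegree_zero]
        exact Nat.zero_le _
      · have h1 := natDegree_mul_le (p := u i) (q := N' i l)
        have h2 := hd' i l
        omega
    intro j
    rw [colT_row, finsetSum_coeff]
    refine Finset.sum_eq_zero fun l _ => ?_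
    have hT : colT i₀ u l j = 0 ∨ δ l + (colT i₀ u l j).natDegree ≤ δ j := by
      rw [colT, Matrix.of_apply]
      by_cases hj : j = i₀
      · subst hj
        rw [if_pos rfl]
        exact hud l
      · rw [if_neg hj]
        by_cases hij : l = j
        · subst hij
          simp
        · simp [hij]
    rcases hT with h | h
    · rw [h, mul_zero, coeff_zero]
    · have h3 : δ i₀ + δ j = (δ i₀ + δ l) + (δ j - δ l) := by omega
      rw [h3, coeff_mul_add_eq_of_natDegree_le (hRd l) (by omega), hR, zero_mul]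
  · -- at a real point
    set x₀ := a / b with hx₀
    have hx2 : (1 + x₀ ^ 2) * b ^ 2 = 1 := by
      rw [hx₀]
      field_simp
      linarith
    set u : ι → ℝ[X] := fun i => C (b ^ δ i * w i) with hu
    have hud : ∀ i, u i = 0 ∨ δ i + (u i).natDegree ≤ δ i₀ := by
      intro i
      by_cases hwi : w i = 0
      · left
        rw [hu]
        simp [hwi]
      · right
        have h1 := hmax i hwi
        have h2 : (u i).natDegree = 0 := natDegree_C _
        omega
    have hc : b ^ δ i₀ * w i₀ ≠ 0 := mul_ne_zero (pow_ne_zero _ hb) hi₀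
    refine HasSos.conj (colT_mul_colU hc (rfl : u i₀ = C (b ^ δ i₀ * w i₀))) (colU_degree _ hud) ?_
    refine case_fin ih hμ (colT_zero hz' hi₀J u) (colT_degree hd' hud) (colT_psd hP' _) hi₀J
      (x₀ := x₀) ?_
    have hR : ∀ l, (∑ i, u i * N' i l).eval x₀ = 0 := by
      intro l
      rw [eval_finsetSum]
      simp only [eval_mul, hu, eval_C]
      by_cases hl : l ∈ J
      · have h2 := hker l hl
        have h4 : ∑ i, b ^ δ i * w i * (N' i l).eval x₀ =
            ∑ i, b ^ δ i * w i * (N l i).eval x₀ - ε * (b ^ δ l * w l * (1 + x₀ ^ 2) ^ δ l) := by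
          have h5 : ∀ i, b ^ δ i * w i * (N' i l).eval x₀ =
              b ^ δ i * w i * (N l i).eval x₀ -
                (if i = l then ε * (b ^ δ l * w l * (1 + x₀ ^ 2) ^ δ l) else 0) := by
            intro i
            rw [hN'a, eval_sub, eval_mul, eval_C, S_apply, hP.1.apply l i]
            by_cases hil : i = l
            · subst hil
              rw [if_pos rfl, if_pos hl, if_pos rfl]
              simp only [eval_pow, eval_add, eval_one, eval_X]
              ring
            · rw [if_neg hil, if_neg hil, eval_zero, mul_zero, sub_zero, sub_zero]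
          simp only [h5, Finset.sum_sub_distrib]
          simp
        rw [h4]
        have h10 : b ^ δ l * ∑ i, b ^ δ i * w i * (N l i).eval x₀ = ε * w l := by
          rw [← h2, Finset.mul_sum]
          refine Finset.sum_congr rfl fun i _ => ?_
          rw [hom_eval (hd l i) a hb, pow_add]
          ring
        have h11 : (1 + x₀ ^ 2) ^ δ l * (b ^ δ l * b ^ δ l) = 1 := by
          rw [← mul_pow, ← sq, ← mul_pow, hx2, one_pow]
        have h12 : b ^ δ l * (∑ i, b ^ δ i * w i * (N l i).eval x₀ -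
            ε * (b ^ δ l * w l * (1 + x₀ ^ 2) ^ δ l)) = 0 := by
          rw [mul_sub, h10]
          linear_combination (-(ε * w l)) * h11
        exact (mul_eq_zero.1 h12).resolve_left (pow_ne_zero _ hb)
      · refine Finset.sum_eq_zero fun i _ => ?_
        rw [hP'.1.apply l i, hz' l hl, eval_zero, mul_zero]
    intro j
    rw [colT_row, eval_finsetSum]
    refine Finset.sum_eq_zero fun l _ => ?_
    rw [eval_mul, hR, zero_mul]

theorem all_IH (μ : ℕ) : IH ι μ := by
  induction μ with
  | zero => intro J δ N h; exact absurd h (Nat.not_lt_zero _)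
  | succ μ ih =>
    intro J δ N h hz hd hP
    exact main_step ih (Nat.lt_succ_iff.1 h) hz hd hP

/-- **The matrix Fejér-Riesz theorem on the line.** -/
theorem matrix_sos {δ : ι → ℕ} {N : Matrix ι ι ℝ[X]} (hs : N.IsSymm)
    (hd : ∀ i j, (N i j).natDegree ≤ δ i + δ j)
    (hP : ∀ (x : ℝ) (w : ι → ℝ), 0 ≤ w ⬝ᵥ (N.map (eval x) *ᵥ w)) :
    ∃ (κ : Type) (_ : Fintype κ) (V : Matrix κ ι ℝ[X]),
      (∀ k i, (V k i).natDegree ≤ δ i) ∧ N = Vᵀ * V :=
  all_IH (meas Finset.univ δ + 1) Finset.univ δ N (Nat.lt_succ_self _)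
    (fun i hi => absurd (Finset.mem_univ i) hi) hd ⟨hs, hP⟩

end Vale.Agent.P256.MFR
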