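import Vale.Agent.P256.Bdl.B1

/-!
# Hyperbolic cubics all of whose double boundary points are ordinary
-/

namespace Vale.Agent.P256

open MvPolynomial

variable {n : ℕ} {p : MvPolynomial (Fin n) ℝ} {e : Fin n → ℝ}

/-- Symmetry of the polarization of a quadratic form. -/
theorem dd_symm_two {r : MvPolynomial (Fin n) ℝ} (hr : r.IsHomogeneous 2) (x y : Fin n → ℝ) :
    dd r x y = dd r y x := by
  have key : ∀ x y : Fin n → ℝ, eval (x + y) r = eval x r + dd r x y + eval y r := by
    intro x y
    have h1 := line_top hr x y
    have h2 : (line r x y).eval 1 = eval (x + y) r := by rw [eval_line, one_smul]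
    have h0 : (line r x y).coeff 0 = eval x r := by
      rw [Polynomial.coeff_zero_eq_eval_zero, eval_line, zero_smul, add_zero]
    have h3 : (line r x y).coeff 1 = dd r x y := by
      have h4 := eval_derivative_line r x y 0
      rw [zero_smul, add_zero, ← Polynomial.coeff_zero_eq_eval_zero,
        Polynomial.coeff_derivative] at h4
      simpa using h4
    rw [← h2, Polynomial.eval_eq_sum_range' (Nat.lt_succ_of_le h1.1), Finset.sum_range_succ,
      Finset.sum_range_succ, Finset.sum_range_one, h0, h3, h1.2]
    ring
  have h1 := key x y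
  have h2 := key y x
  rw [add_comm y x] at h2
  linarith

theorem dd_single' (r : MvPolynomial (Fin n) ℝ) (x : Fin n → ℝ) (i : Fin n) :
    dd r x (Pi.single i 1) = eval x (pderiv i r) := by
  rw [← eval_DL, DL_single]

/-- The gradient of the quadratic part of a cubic at `z` is the gradient of `D_z p`. -/
theorem eval_pderiv_part_two (hd : p.IsHomogeneous 3) (z v : Fin n → ℝ) (i : Fin n) :
    eval v (pderiv i (part p z 2)) = eval v (pderiv i (dirD p z)) := by
  have hr : (pderiv i p).IsHomogeneous 2 := hd.pderiv
  rw [← part_pderiv p z i 1, ← coeff_line]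
  have h3 : (line (pderiv i p) z v).coeff 1 = dd (pderiv i p) z v := by
    have h4 := eval_derivative_line (pderiv i p) z v 0
    rw [zero_smul, add_zero, ← Polynomial.coeff_zero_eq_eval_zero,
      Polynomial.coeff_derivative] at h4
    simpa using h4
  rw [h3, dd_symm_two hr, ← eval_DL, ← DL_single, ← DL_apply, ← DL_single]
  exact congrArg (eval v) (LinearMap.congr_fun (DL_comm z (Pi.single i 1)) p)

/-- A pointed hyperbolic cubic cone all of whose double boundary points `z` have a quadratic part
with kernel `ℝ z` is a spectrahedral shadow. -/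
theorem ord_shad (hp : IsHyperbolic p e) (hd : p.IsHomogeneous 3)
    (hpt : ∀ x ∈ hypCone p e, -x ∈ hypCone p e → x = 0)
    (hk : ∀ z ∈ hypCone p e, z ≠ 0 → eval z p = 0 → (∀ i, eval z (pderiv i p) = 0) →
      ∀ v, (∀ i, eval v (pderiv i (dirD p z)) = 0) → ∃ c : ℝ, v = c • z) :
    GShad (hypCone p e) := by
  refine NiceCone.shad ⟨hp, Or.inr ⟨hpt, fun z hz hz0 hzp => Or.inl ?_⟩⟩
  intro v hv hv0 hvz
  obtain ⟨m, hm, he⟩ := exists_mult hp hz
  have hne : part p z m ≠ 0 := by
    intro h
    rw [h, map_zero] at he
    exact lt_irrefl _ he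
  rw [localization_eq hm hne] at hv hv0 ⊢
  have c0 : ∀ y : Fin n → ℝ, eval y (part p z 0) = eval z p := by
    intro y
    rw [← coeff_line, Polynomial.coeff_zero_eq_eval_zero, eval_line, zero_smul, add_zero]
  rcases Nat.lt_or_ge m 4 with h4 | h4
  · interval_cases m
    · rw [c0, hzp] at he
      exact absurd he (lt_irrefl _)
    · have h1 := dd_euler (part_homog p z 1) e
      rw [Nat.cast_one, one_mul] at h1
      rw [← h1] at he
      have h2 : ∃ i, eval e (pderiv i (part p z 1)) ≠ 0 := by
        by_contra hcon
        push Not at hcon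
        refine he.ne' ?_
        unfold dd
        exact Finset.sum_eq_zero fun i _ => by rw [hcon i, mul_zero]
      obtain ⟨i, hi⟩ := h2
      refine ⟨i, ?_⟩
      have h3 : (pderiv i (part p z 1)).IsHomogeneous 0 := (part_homog p z 1).pderiv
      have h5 := eval_smul' h3 0 v
      have h6 := eval_smul' h3 0 e
      rw [zero_smul, pow_zero, one_mul] at h5 h6
      rw [← h5, h6]
      exact hi
    · by_contra hcon
      have hcon' : ∀ i, eval v (pderiv i (part p z 2)) = 0 := by
        intro i
        by_contra h
        exact hcon ⟨i, h⟩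
      have hgrad : ∀ i, eval z (pderiv i p) = 0 := by
        intro i
        rw [← dd_single']
        have h4 := eval_derivative_line p z (Pi.single i 1) 0
        rw [zero_smul, add_zero, ← Polynomial.coeff_zero_eq_eval_zero,
          Polynomial.coeff_derivative, coeff_line, hm 1 (by norm_num), map_zero, zero_mul] at h4
        exact h4.symm
      obtain ⟨c, hc⟩ := hk z hz hz0 hzp hgrad v fun i => by
        rw [← eval_pderiv_part_two hd]
        exact hcon' i
      exact hvz c hc
    · exfalso
      apply hz0
      apply hpt z hz
      intro t ht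
      have h1 : t • e - -z = z + t • e := by module
      rw [h1, eval_expand] at ht
      have h2 : ∀ k ∈ Finset.range (pdeg p z), t ^ k * eval e (part p z k) =
          if k = 3 then t ^ 3 * eval e (part p z 3) else 0 := by
        intro k _
        split_ifs with hk3
        · rw [hk3]
        · rcases Nat.lt_or_ge k 3 with h | h
          · rw [hm k h, map_zero, mul_zero]
          · rw [part_eq_zero_of_homog hd z (by omega) e, mul_zero]
      rw [Finset.sum_congr rfl h2, Finset.sum_ite_eq'] at ht
      split_ifs at ht with h3
      · rcases mul_eq_zero.1 ht with h | h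
        · exact (pow_eq_zero_iff (by norm_num)).1 h ▸ le_rfl
        · exact absurd h he.ne'
      · exfalso
        rw [Finset.mem_range, not_lt] at h3
        exact hne (part_eq_zero_of_ge p z h3)
  · exfalso
    rw [part_eq_zero_of_homog hd z (by omega) e] at he
    exact lt_irrefl _ he

end Vale.Agent.P256
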