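import Vale.Agent.P256.C5.L

/-!
# Positive semidefinite forms are sums of squares; cubics of the form `v₁v₂L - v₁Q₁ - v₂Q₂`
-/

namespace Vale.Agent.P256

open MvPolynomial

/-- A positive semidefinite symmetric bilinear form is a sum of squares of linear forms. -/
theorem psd_sum_sq {n : ℕ} (Q : (Fin n → ℝ) →ₗ[ℝ] (Fin n → ℝ) →ₗ[ℝ] ℝ)
    (hsymm : ∀ x y, Q x y = Q y x) (hpsd : ∀ x, 0 ≤ Q x x) :
    ∃ g : Fin n → (Fin n → ℝ) →ₗ[ℝ] ℝ, ∀ x, Q x x = ∑ i, (g i x) ^ 2 := by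
  classical
  have hQ : ∀ x y, Q x y = ∑ i, ∑ j, x i * y j * Q (Pi.single i 1) (Pi.single j 1) := by
    intro x y
    conv_lhs => rw [pi_eq_sum_univ' x, pi_eq_sum_univ' y]
    simp only [map_sum, LinearMap.sum_apply, map_smul, LinearMap.smul_apply, smul_eq_mul,
      Finset.mul_sum]
    refine Finset.sum_comm.trans ?_
    refine Finset.sum_congr rfl fun i _ => Finset.sum_congr rfl fun j _ => ?_
    ring
  let M : Matrix (Fin n) (Fin n) ℝ := Matrix.of fun i j => Q (Pi.single i 1) (Pi.single j 1)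
  have hM : M.PosSemidef := by
    refine Matrix.PosSemidef.of_dotProduct_mulVec_nonneg ?_ ?_
    · ext i j
      exact hsymm _ _
    · intro x
      have h1 : star x ⬝ᵥ M.mulVec x = Q x x := by
        rw [hQ x x]
        simp only [dotProduct, Matrix.mulVec, Pi.star_apply, star_trivial, Finset.mul_sum, M,
          Matrix.of_apply]
        refine Finset.sum_congr rfl fun i _ => Finset.sum_congr rfl fun j _ => ?_
        ring
      rw [h1]
      exact hpsd x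
  open scoped MatrixOrder Matrix.Norms.L2Operator in
  obtain ⟨B, hB⟩ := CStarAlgebra.nonneg_iff_eq_star_mul_self.mp hM.nonneg
  refine ⟨fun i => (LinearMap.proj i).comp B.mulVecLin, fun x => ?_⟩
  have h1 : Q x x = x ⬝ᵥ M.mulVec x := by
    rw [hQ x x]
    simp only [dotProduct, Matrix.mulVec, Finset.mul_sum, M, Matrix.of_apply]
    refine Finset.sum_congr rfl fun i _ => Finset.sum_congr rfl fun j _ => ?_
    ring
  rw [h1, hB, ← Matrix.mulVec_mulVec, Matrix.star_eq_conjTranspose, Matrix.conjTranspose_eq_transpose_of_trivial,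
    Matrix.mulVec_transpose, dotProduct_comm, ← Matrix.dotProduct_mulVec]
  simp only [dotProduct, LinearMap.comp_apply, Matrix.mulVecLin_apply, LinearMap.proj_apply, sq]

/-- the same without the symmetry hypothesis -/
theorem psd_sum_sq' {n : ℕ} (Q : (Fin n → ℝ) →ₗ[ℝ] (Fin n → ℝ) →ₗ[ℝ] ℝ)
    (hpsd : ∀ x, 0 ≤ Q x x) :
    ∃ g : Fin n → (Fin n → ℝ) →ₗ[ℝ] ℝ, ∀ x, Q x x = ∑ i, (g i x) ^ 2 := by
  have hap : ∀ x y, ((1 / 2 : ℝ) • (Q + Q.flip)) x y = (Q x y + Q y x) / 2 := by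
    intro x y
    rw [LinearMap.smul_apply, LinearMap.smul_apply, LinearMap.add_apply, LinearMap.add_apply,
      LinearMap.flip_apply, smul_eq_mul]
    ring
  obtain ⟨g, hg⟩ := psd_sum_sq ((1 / 2 : ℝ) • (Q + Q.flip))
    (fun x y => by rw [hap, hap, add_comm])
    (fun x => by rw [hap]; linarith [hpsd x])
  refine ⟨g, fun x => ?_⟩
  rw [← hg x, hap]
  ring

/-- the symmetric bilinear form with `(x, x) ↦ a x * b x` -/
noncomputable def mulForm {n : ℕ} (a b : (Fin n → ℝ) →ₗ[ℝ] ℝ) :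
    (Fin n → ℝ) →ₗ[ℝ] (Fin n → ℝ) →ₗ[ℝ] ℝ :=
  LinearMap.mk₂ ℝ (fun x y => (a x * b y + a y * b x) / 2)
    (fun x x' y => by simp only [map_add]; ring)
    (fun c x y => by simp only [map_smul, smul_eq_mul]; ring)
    (fun x y y' => by simp only [map_add]; ring)
    (fun c x y => by simp only [map_smul, smul_eq_mul]; ring)

theorem mulForm_apply {n : ℕ} (a b : (Fin n → ℝ) →ₗ[ℝ] ℝ) (x y : Fin n → ℝ) :
    mulForm a b x y = (a x * b y + a y * b x) / 2 := rfl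

theorem mulForm_self {n : ℕ} (a b : (Fin n → ℝ) →ₗ[ℝ] ℝ) (x : Fin n → ℝ) :
    mulForm a b x x = a x * b x := by
  rw [mulForm_apply]
  ring

theorem mulForm_symm {n : ℕ} (a b : (Fin n → ℝ) →ₗ[ℝ] ℝ) (x y : Fin n → ℝ) :
    mulForm a b x y = mulForm a b y x := by
  rw [mulForm_apply, mulForm_apply]
  ring

/-- Cubics `p = v₁ v₂ L - v₁ Q₁ - v₂ Q₂` with `Q₁, Q₂` positive semidefinite. -/
theorem case_two {n : ℕ} {p : MvPolynomial (Fin n) ℝ} {e : Fin n → ℝ}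
    (hp : IsHyperbolic p e) (v₁ v₂ L : (Fin n → ℝ) →ₗ[ℝ] ℝ)
    (Q₁ Q₂ : (Fin n → ℝ) →ₗ[ℝ] (Fin n → ℝ) →ₗ[ℝ] ℝ)
    (hp₁ : ∀ x, 0 ≤ Q₁ x x) (hp₂ : ∀ x, 0 ≤ Q₂ x x)
    (he₁ : 0 < v₁ e) (he₂ : 0 < v₂ e) (hK : ∀ x ∈ hypCone p e, 0 ≤ v₁ x)
    (h : ∀ x, eval x p = v₁ x * v₂ x * L x - v₁ x * Q₁ x x - v₂ x * Q₂ x x) :
    GShad (hypCone p e) := by
  obtain ⟨g, hg⟩ := psd_sum_sq' Q₁ hp₁
  refine lorentz_rep hp v₁ (mulForm v₁ v₂) (mulForm v₁ L - Q₂) n (fun i => mulForm v₁ (g i))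
    he₁ hK ?_ (fun x hx => ⟨?_, ?_⟩)
    (fun x => ?_)
  · rw [mulForm_self]
    exact mul_pos he₁ he₂
  · rw [mulForm_self, hx, zero_mul]
  · rw [LinearMap.sub_apply, LinearMap.sub_apply, mulForm_self, hx, zero_mul, zero_sub]
    exact neg_nonpos.2 (hp₂ x)
  · have h1 : ∑ i, (mulForm v₁ (g i) x x) ^ 2 = v₁ x ^ 2 * Q₁ x x := by
      rw [hg x, Finset.mul_sum]
      refine Finset.sum_congr rfl fun i _ => ?_
      rw [mulForm_self]
      ring
    rw [h1, h x, LinearMap.sub_apply, LinearMap.sub_apply, mulForm_self, mulForm_self]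
    ring

end Vale.Agent.P256
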