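import Vale.Agent.P256.C5.CaseC
import Vale.Agent.P256.C5.Two
import Vale.Agent.P256.C5.Ord
import Vale.Agent.P256.C5.Ind

/-! Hyperbolic cubics in at most five variables. -/

namespace Vale.Agent.P256

open Polynomial Filter Topology

variable {n : ℕ} {p : MvPolynomial (Fin n) ℝ} {e z : Fin n → ℝ}

theorem dd_dirD (hd : p.IsHomogeneous 3) (z v y : Fin n → ℝ) :
    dd (dirD p z) v y = 6 * triL p z v y := by
  have hr : ∀ x, MvPolynomial.eval x (dirD p z) = 3 * triL p z x x := by
    intro x
    rw [eval_dirD, dd_tri hd, triL_swap23, triL_swap12]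
  rw [← eval_part_one, ← coeff_line]
  have h : line (dirD p z) v y = C (3 * triL p z v v) + C (6 * triL p z v y) * X +
      C (3 * triL p z y y) * X ^ 2 + C 0 * X ^ 3 := by
    apply Polynomial.funext
    intro t
    rw [eval_line, hr]
    simp only [map_add, map_smul, LinearMap.add_apply, LinearMap.smul_apply, smul_eq_mul,
      eval_add, eval_mul, eval_C, eval_X, eval_pow]
    rw [triL_swap23 p z y v]
    ring
  rw [h]
  exact (coeff_cubic _ _ _ _).2

theorem nonneg_of_ne {α κ : ℝ} (hκ : 0 < κ) (h : ∀ t : ℝ, 0 < t → α + t * κ ≠ 0) : 0 ≤ α := by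
  by_contra hlt
  push Not at hlt
  apply h (-α / κ) (div_pos (neg_pos.2 hlt) hκ)
  field_simp
  ring

theorem DPt.shad (h : DPt p e z) (hpt : ∀ x ∈ hypCone p e, -x ∈ hypCone p e → x = 0)
    (hn : n ≤ 5) {v : Fin n → ℝ} (hv : ∀ y, triL p z v y = 0) (hvz : ∀ t : ℝ, v ≠ t • z) :
    GShad (hypCone p e) := by
  rcases h.struct hn hv hvz with ⟨x0, e0, h00, hpos, hq⟩ |
    ⟨x0, f1, e0, w1, h00, h10, h01, h11, hpos, h1e, hq⟩ |
    ⟨x0, f1, f2, s, τ, e0, w1, w2, h00, h10, h20, h01, h11, h21, h02, h12, h22, hpos, h1e, h2e,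
      hq, hx⟩
  · obtain ⟨L, Q2, -, hQ2, hp⟩ := h.dataA h00 hpos hq
    refine case_two h.hyp x0 x0 L 0 Q2 (fun x => ?_) hQ2 hpos hpos (fun x hxK => ?_)
      (fun x => ?_)
    · simp
    · refine nonneg_of_ne hpos fun t ht h0 => ?_
      apply (mem_hypCone_iff (part_homog p z 2) x).1 (h.sub hxK) t ht
      rw [part2 h.hom, hq, map_add, map_smul, smul_eq_mul, h0, zero_mul]
    · rw [hp]
      simp
  · obtain ⟨L, Q1, Q2, -, hQ1, -, hQ2, hp⟩ := h.dataB (a := x0 - f1) (c := x0 + f1)
      (Ea := (1 / 2 : ℝ) • (e0 - w1)) (Ec := (1 / 2 : ℝ) • (e0 + w1))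
      (by simp only [map_smul, map_sub, map_add, LinearMap.sub_apply, LinearMap.add_apply,
            smul_eq_mul, h00, h10, h01, h11]
          norm_num)
      (by simp only [map_smul, map_sub, map_add, LinearMap.sub_apply, LinearMap.add_apply,
            smul_eq_mul, h00, h10, h01, h11]
          norm_num)
      (by simp only [map_smul, map_sub, map_add, LinearMap.sub_apply, LinearMap.add_apply,
            smul_eq_mul, h00, h10, h01, h11]
          norm_num)
      (by simp only [map_smul, map_sub, map_add, LinearMap.sub_apply, LinearMap.add_apply,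
            smul_eq_mul, h00, h10, h01, h11]
          norm_num)
      (by simpa only [LinearMap.sub_apply, h1e, sub_zero] using hpos)
      (by simpa only [LinearMap.add_apply, h1e, add_zero] using hpos)
      (fun x y => by
        rw [hq]
        simp only [LinearMap.sub_apply, LinearMap.add_apply]
        ring)
    refine case_two h.hyp (x0 - f1) (x0 + f1) L Q1 Q2 hQ1 hQ2
      (by simpa only [LinearMap.sub_apply, h1e, sub_zero] using hpos)
      (by simpa only [LinearMap.add_apply, h1e, add_zero] using hpos) (fun x hxK => ?_) hp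
    refine nonneg_of_ne hpos fun t ht h0 => ?_
    apply (mem_hypCone_iff (part_homog p z 2) x).1 (h.sub hxK) t ht
    rw [part2 h.hom, hq]
    simp only [map_add, map_smul, smul_eq_mul, h1e, LinearMap.sub_apply] at h0 ⊢
    have h2 : (x0 x + t * x0 e) * (x0 x + t * x0 e) - (f1 x + t * 0) * (f1 x + t * 0) =
        (x0 x - f1 x + t * x0 e) * (x0 x + f1 x + t * x0 e) := by ring
    rw [h2, h0, zero_mul]
  · refine h.caseC hpt hv hvz (a := x0 - f1) (b := f2) (c := x0 + f1) (s := s) (τ := τ)
      (Ea := (1 / 2 : ℝ) • (e0 - w1)) (Eb := w2) (Ec := (1 / 2 : ℝ) • (e0 + w1))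
      ?_ ?_ ?_ ?_ ?_ ?_ ?_ ?_ ?_ ?_ ?_ ?_ ?_ ?_
    any_goals
      simp only [map_smul, map_sub, map_add, LinearMap.sub_apply, LinearMap.add_apply,
        smul_eq_mul, h00, h10, h01, h11, h20, h21, h02, h12, h22, h1e, h2e]
    any_goals norm_num
    · exact hpos
    · intro x y
      rw [hq]
      ring
    · intro x
      conv_lhs => rw [hx x]
      module

theorem cubic_pointed : ∀ n ≤ 5, ∀ (p : MvPolynomial (Fin n) ℝ) (e : Fin n → ℝ),
    IsHyperbolic p e → p.IsHomogeneous 3 → (∀ x ∈ hypCone p e, -x ∈ hypCone p e → x = 0) →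
    GShad (hypCone p e) := by
  intro n hn p e hp hd hpt
  by_cases hk : ∀ z ∈ hypCone p e, z ≠ 0 → MvPolynomial.eval z p = 0 →
      (∀ i, MvPolynomial.eval z (MvPolynomial.pderiv i p) = 0) →
      ∀ v, (∀ i, MvPolynomial.eval v (MvPolynomial.pderiv i (dirD p z)) = 0) → ∃ c : ℝ, v = c • z
  · exact ord_shad hp hd hpt hk
  · push Not at hk
    obtain ⟨z, hz, hz0, hzp, hzd, v, hv, hvz⟩ := hk
    have h : DPt p e z := by
      refine ⟨hp, hd, hz, hzp, fun y => ?_, fun h1 => hz0 (hpt z hz h1)⟩
      have h1 := dd_tri hd z y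
      have h2 : dd p z y = 0 := Finset.sum_eq_zero fun i _ => by rw [hzd, mul_zero]
      rw [h2] at h1
      linarith
    refine h.shad hpt hn (v := v) (fun y => ?_) hvz
    have h1 := dd_dirD hd z v y
    have h2 : dd (dirD p z) v y = 0 := Finset.sum_eq_zero fun i _ => by rw [hv, mul_zero]
    rw [h2] at h1
    linarith

/-- every hyperbolic cubic in at most five variables has a spectrahedral shadow as its cone -/
theorem cubic_five : ∀ n ≤ 5, ∀ (p : MvPolynomial (Fin n) ℝ) (e : Fin n → ℝ),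
    IsHyperbolic p e → p.IsHomogeneous 3 → GShad (hypCone p e) :=
  pointed_induction cubic_pointed

end Vale.Agent.P256
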