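import Vale.Agent.P256.H875.Deriv

/-! The trilinear form of a cubic, and double points. -/

namespace Vale.Agent.P256

open Polynomial Filter Topology

variable {n : ℕ} {p : MvPolynomial (Fin n) ℝ} {e z : Fin n → ℝ}

/-- the symmetric trilinear form of a cubic -/
noncomputable def tri (p : MvPolynomial (Fin n) ℝ) (x y w : Fin n → ℝ) : ℝ :=
  MvPolynomial.eval 0 (DL x (DL y (DL w p))) / 6

theorem tri_swap12 (p : MvPolynomial (Fin n) ℝ) (x y w : Fin n → ℝ) :
    tri p x y w = tri p y x w := by
  have h := LinearMap.congr_fun (DL_comm x y).eq (DL w p)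
  simp only [Module.End.mul_apply] at h
  rw [tri, tri, h]

theorem tri_swap23 (p : MvPolynomial (Fin n) ℝ) (x y w : Fin n → ℝ) :
    tri p x y w = tri p x w y := by
  have h := LinearMap.congr_fun (DL_comm y w).eq p
  simp only [Module.End.mul_apply] at h
  rw [tri, tri, h]

theorem tri_add (p : MvPolynomial (Fin n) ℝ) (x x' y w : Fin n → ℝ) :
    tri p (x + x') y w = tri p x y w + tri p x' y w := by
  simp only [tri, DL_add, LinearMap.add_apply, map_add, add_div]

theorem tri_smul (p : MvPolynomial (Fin n) ℝ) (c : ℝ) (x y w : Fin n → ℝ) :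
    tri p (c • x) y w = c * tri p x y w := by
  simp only [tri, DL_smul, LinearMap.smul_apply, MvPolynomial.smul_eval, mul_div_assoc]

/-- the trilinear form as an iterated linear map -/
noncomputable def triL (p : MvPolynomial (Fin n) ℝ) :
    (Fin n → ℝ) →ₗ[ℝ] (Fin n → ℝ) →ₗ[ℝ] (Fin n → ℝ) →ₗ[ℝ] ℝ :=
  LinearMap.mk₂ ℝ (fun x y =>
    ({ toFun := fun w => tri p x y w
       map_add' := fun w w' => by
        rw [tri_swap23, tri_swap12, tri_add, tri_swap12 p w, tri_swap12 p w', tri_swap23 p x w,
          tri_swap23 p x w']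
       map_smul' := fun c w => by
        rw [tri_swap23, tri_swap12, tri_smul, tri_swap12 p w, tri_swap23 p x w, RingHom.id_apply,
          smul_eq_mul] } : (Fin n → ℝ) →ₗ[ℝ] ℝ))
    (fun x x' y => LinearMap.ext fun w => tri_add p x x' y w)
    (fun c x y => LinearMap.ext fun w => tri_smul p c x y w)
    (fun x y y' => LinearMap.ext fun w => by
      show tri p x (y + y') w = tri p x y w + tri p x y' w
      rw [tri_swap12, tri_add, tri_swap12 p y, tri_swap12 p y'])
    (fun c x y => LinearMap.ext fun w => by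
      show tri p x (c • y) w = c * tri p x y w
      rw [tri_swap12, tri_smul, tri_swap12 p y])

theorem triL_swap12 (p : MvPolynomial (Fin n) ℝ) (x y w : Fin n → ℝ) :
    triL p x y w = triL p y x w := tri_swap12 p x y w

theorem triL_swap23 (p : MvPolynomial (Fin n) ℝ) (x y w : Fin n → ℝ) :
    triL p x y w = triL p x w y := tri_swap23 p x y w

theorem homog_DL {d : ℕ} (hd : p.IsHomogeneous (d + 1)) (v : Fin n → ℝ) :
    (DL v p).IsHomogeneous d := by
  rw [DL_apply]
  exact homog_dirD hd v

theorem eval_DL_self {d : ℕ} (hd : p.IsHomogeneous d) (x : Fin n → ℝ) :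
    MvPolynomial.eval x (DL x p) = d * MvPolynomial.eval x p := by
  rw [DL_apply, eval_dirD, dd_euler hd]

theorem tri_diag (hd : p.IsHomogeneous 3) (x : Fin n → ℝ) :
    MvPolynomial.eval x p = triL p x x x := by
  show _ = tri p x x x
  have h1 := eval_DL_self hd x
  have h2 := eval_DL_self (homog_DL hd x) x
  have h3 := eval_DL_self (homog_DL (homog_DL hd x) x) x
  have h4 := (MvPolynomial.totalDegree_zero_iff_isHomogeneous (Fin n)).2
    (homog_DL (homog_DL (homog_DL hd x) x) x)
  rw [MvPolynomial.totalDegree_eq_zero_iff_eq_C] at h4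
  have h5 : MvPolynomial.eval 0 (DL x (DL x (DL x p))) =
      MvPolynomial.eval x (DL x (DL x (DL x p))) := by
    rw [h4, MvPolynomial.eval_C, MvPolynomial.eval_C]
  rw [tri, h5, h3, h2, h1]
  push_cast
  ring

theorem eval_add_cubic (hd : p.IsHomogeneous 3) (x y : Fin n → ℝ) :
    MvPolynomial.eval (x + y) p = MvPolynomial.eval x p + 3 * triL p x x y + 3 * triL p x y y +
      MvPolynomial.eval y p := by
  simp only [tri_diag hd, map_add, LinearMap.add_apply]
  rw [triL_swap23 p x y x, triL_swap12 p y x x, triL_swap23 p x y x, triL_swap12 p y x y,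
    triL_swap23 p y y x, triL_swap12 p y x y]
  ring

theorem coeff_cubic (a b c d : ℝ) :
    (C a + C b * X + C c * X ^ 2 + C d * X ^ 3 : ℝ[X]).coeff 2 = c ∧
    (C a + C b * X + C c * X ^ 2 + C d * X ^ 3 : ℝ[X]).coeff 1 = b := by
  constructor
  · simp [coeff_X]
  · simp

theorem part2 (hd : p.IsHomogeneous 3) (z y : Fin n → ℝ) :
    MvPolynomial.eval y (part p z 2) = 3 * triL p z y y := by
  rw [← coeff_line]
  have h : line p z y = C (MvPolynomial.eval z p) + C (3 * triL p z z y) * X +
      C (3 * triL p z y y) * X ^ 2 + C (MvPolynomial.eval y p) * X ^ 3 := by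
    apply Polynomial.funext
    intro t
    rw [eval_line, eval_add_cubic hd]
    simp only [map_smul, LinearMap.smul_apply, smul_eq_mul, eval_add, eval_mul, eval_C, eval_X,
      eval_pow, eval_smul' hd]
    ring
  rw [h]
  exact (coeff_cubic _ _ _ _).1

theorem dd_tri (hd : p.IsHomogeneous 3) (z y : Fin n → ℝ) :
    dd p z y = 3 * triL p z z y := by
  rw [← eval_part_one, ← coeff_line]
  have h : line p z y = C (MvPolynomial.eval z p) + C (3 * triL p z z y) * X +
      C (3 * triL p z y y) * X ^ 2 + C (MvPolynomial.eval y p) * X ^ 3 := by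
    apply Polynomial.funext
    intro t
    rw [eval_line, eval_add_cubic hd]
    simp only [map_smul, LinearMap.smul_apply, smul_eq_mul, eval_add, eval_mul, eval_C, eval_X,
      eval_pow, eval_smul' hd]
    ring
  rw [h]
  exact (coeff_cubic _ _ _ _).2

/-- double points of a cubic, not in the lineality space -/
structure DPt (p : MvPolynomial (Fin n) ℝ) (e z : Fin n → ℝ) : Prop where
  hyp : IsHyperbolic p e
  hom : p.IsHomogeneous 3
  mem : z ∈ hypCone p e
  zero : MvPolynomial.eval z p = 0
  grad : ∀ v, triL p z z v = 0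
  neg : -z ∉ hypCone p e

theorem DPt.low (h : DPt p e z) : ∀ k < 2, part p z k = 0 := by
  intro k hk
  apply MvPolynomial.funext
  intro u
  rw [map_zero]
  interval_cases k
  · rw [eval_part_zero, h.zero]
  · rw [eval_part_one, dd_tri h.hom, h.grad, mul_zero]

theorem DPt.eval_add (h : DPt p e z) (y : Fin n → ℝ) (s : ℝ) :
    MvPolynomial.eval (y + s • z) p = MvPolynomial.eval y p + s * (3 * triL p z y y) := by
  rw [eval_add_cubic h.hom]
  simp only [map_smul, LinearMap.smul_apply, smul_eq_mul, eval_smul' h.hom, h.zero]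
  rw [triL_swap12 p y z z, triL_swap23 p z y z, h.grad, triL_swap23 p y y z, triL_swap12 p y z y]
  ring

theorem DPt.pos (h : DPt p e z) : 0 < MvPolynomial.eval e (part p z 2) := by
  obtain ⟨m, hm, he⟩ := exists_mult h.hyp h.mem
  have hm2 : 2 ≤ m := by
    by_contra hlt
    push Not at hlt
    rw [h.low m hlt, map_zero] at he
    exact lt_irrefl _ he
  rcases hm2.eq_or_lt with h2 | h2
  · rw [h2]; exact he
  · exfalso
    have h3 : ∀ y, triL p z y y = 0 := by
      intro y
      have := congrArg (MvPolynomial.eval y) (hm 2 h2)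
      rw [part2 h.hom, map_zero] at this
      linarith
    apply h.neg
    rw [mem_hypCone_iff h.hom]
    intro t ht
    have h4 : -z + t • e = t • e + (-1 : ℝ) • z := by module
    rw [h4, h.eval_add, h3, mul_zero, mul_zero, add_zero, eval_smul' h.hom]
    exact mul_ne_zero (pow_ne_zero _ ht.ne') h.hyp.2.1.ne'

theorem DPt.hypq (h : DPt p e z) : IsHyperbolic (part p z 2) e := part_hyp h.hyp h.low h.pos

theorem DPt.sub (h : DPt p e z) {x : Fin n → ℝ} (hx : x ∈ hypCone p e) :
    x ∈ hypCone (part p z 2) e := K_sub_part h.hyp h.mem h.low h.pos hx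

/-- the basic obstruction -/
theorem DPt.no_slide (hz : DPt p e z) {w h : Fin n → ℝ}
    (hIn : ∀ ε : ℝ, 0 < ε → InOpen (part p z 2) e (w + ε • h))
    (hlim : ∀ k : ℝ, ∀ᶠ ε : ℝ in 𝓝[>] 0, k * MvPolynomial.eval (w + ε • h) (part p z 2) <
      MvPolynomial.eval (w + ε • h) p) : False := by
  have hp := hz.hyp
  -- the whole line `w + ℝ z` is in the cone
  have h1 : ∀ K : ℝ, w - K • z ∈ hypCone p e := by
    intro K
    have hc : Continuous (fun ε : ℝ => w + ε • h - K • z) := by fun_prop
    have hc1 := (hc.tendsto 0).mono_left (nhdsWithin_le_nhds (s := Set.Ioi 0))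
    rw [zero_smul, add_zero] at hc1
    refine (isClosed_K hp).mem_of_tendsto hc1 ?_
    filter_upwards [self_mem_nhdsWithin, hlim (K + 1)] with ε hε hlt
    have hε' : (0 : ℝ) < ε := hε
    obtain ⟨b₀, hb₀, hb⟩ := eventually_inOpen_of_part hp hz.mem hz.low hz.pos (hIn ε hε')
    have hqpos : 0 < MvPolynomial.eval (w + ε • h) (part p z 2) := by
      have := (open_mono hz.hypq (hIn ε hε') 0 le_rfl).1
      simpa only [zero_smul, add_zero] using this
    -- choose a small `b`
    obtain ⟨b, hb1, hb2, hb3⟩ : ∃ b : ℝ, 0 < b ∧ b < b₀ ∧ 0 < 1 / b + (K + 1) := by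
      refine ⟨min (b₀ / 2) (1 / (|K + 1| + 1)), ?_, ?_, ?_⟩
      · positivity
      · exact lt_of_le_of_lt (min_le_left _ _) (by linarith)
      · have h3 : 0 < min (b₀ / 2) (1 / (|K + 1| + 1)) := by positivity
        have h4 : |K + 1| + 1 ≤ 1 / min (b₀ / 2) (1 / (|K + 1| + 1)) := by
          rw [le_div_iff₀ h3]
          calc (|K + 1| + 1) * min (b₀ / 2) (1 / (|K + 1| + 1))
              ≤ (|K + 1| + 1) * (1 / (|K + 1| + 1)) :=
                mul_le_mul_of_nonneg_left (min_le_right _ _) (by positivity)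
            _ = 1 := by field_simp
        have h5 := neg_abs_le (K + 1)
        linarith
    have h2 := (hb b hb1 hb2).smul hp (inv_pos.2 hb1)
    have h3 : b⁻¹ • (z + b • (w + ε • h)) = w + ε • h +
        (-(K + 1) + Real.exp (Real.log (1 / b + (K + 1)))) • z := by
      rw [Real.exp_log hb3, smul_add, smul_smul, inv_mul_cancel₀ hb1.ne', one_div]
      module
    rw [h3] at h2
    have h4 := path_lemma (p := p) (c := fun _ => e)
      (b := fun τ => w + ε • h + (-(K + 1) + Real.exp τ) • z) continuous_const (by fun_prop)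
      (fun _ => hp) (fun τ => by
        rw [hz.eval_add]
        rw [part2 hz.hom] at hlt hqpos
        have := mul_pos (Real.exp_pos τ) hqpos
        have h6 : 0 < MvPolynomial.eval (w + ε • h) p + (-(K + 1) + Real.exp τ) *
          (3 * triL p z (w + ε • h) (w + ε • h)) := by linarith
        exact h6.ne') h2 0
    have h5 : w + ε • h + (-(K + 1) + Real.exp 0) • z = w + ε • h - K • z := by
      rw [Real.exp_zero]
      module
    rw [h5] at h4
    exact h4.mem hp
  apply hz.neg
  refine K_limit hp (y := w) fun t ht => ?_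
  have h2 := K_smul hp (h1 (1 / t)) ht.le
  have h3 : t • (w - (1 / t) • z) = -z + t • w := by
    rw [smul_sub, smul_smul, mul_one_div_cancel ht.ne']
    module
  rwa [h3] at h2

/-- on the boundary of the tangent cone the cubic is nonpositive -/
theorem DPt.nonpos (hz : DPt p e z) {w : Fin n → ℝ} (hw : w ∈ hypCone (part p z 2) e)
    (hw0 : triL p z w w = 0) : MvPolynomial.eval w p ≤ 0 := by
  by_contra hlt
  push Not at hlt
  refine hz.no_slide (w := w) (h := e) (fun ε hε => (mem_K_iff hz.hypq w).1 hw ε hε) fun k => ?_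
  have hc : Continuous (fun ε : ℝ => MvPolynomial.eval (w + ε • e) p -
      k * MvPolynomial.eval (w + ε • e) (part p z 2)) := by
    refine Continuous.sub ((continuous_eval p).comp (by fun_prop))
      (continuous_const.mul ((continuous_eval _).comp (by fun_prop)))
  have h1 := (hc.tendsto 0).mono_left (nhdsWithin_le_nhds (s := Set.Ioi 0))
  rw [zero_smul, add_zero, part2 hz.hom, hw0, mul_zero, mul_zero, sub_zero] at h1
  filter_upwards [h1.eventually_const_lt hlt] with ε hε
  linarith

end Vale.Agent.P256
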