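import Vale.Agent.P256.C5.Ord
import Vale.Agent.P256.C5.Ind
import Vale.Agent.P256.C5.Tri
import Vale.Agent.P256.C5.ClassDefs2

/-!
# Hyperbolic cubics all of whose double points are ordinary modulo the lineality space
-/

namespace Vale.Agent.P256

open MvPolynomial

/-- `lineality_reduction` with a surjective linear map. -/
theorem lineality_reduction_surj {n d : ℕ} {p : MvPolynomial (Fin (n + 1)) ℝ}
    {e v : Fin (n + 1) → ℝ} (hp : IsHyperbolic p e) (hd : p.IsHomogeneous d) (hv : v ≠ 0)
    (hinv : ∀ (x : Fin (n + 1) → ℝ) (t : ℝ), eval (x + t • v) p = eval x p) :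
    ∃ (A : (Fin (n + 1) → ℝ) →ₗ[ℝ] (Fin n → ℝ)) (q : MvPolynomial (Fin n) ℝ),
      q.IsHomogeneous d ∧ IsHyperbolic q (A e) ∧ (∀ x, eval x p = eval (A x) q) ∧
      Function.Surjective A := by
  obtain ⟨i0, hi0⟩ : ∃ i, v i ≠ 0 := by
    by_contra hcon
    push Not at hcon
    exact hv (funext hcon)
  let A : (Fin (n + 1) → ℝ) →ₗ[ℝ] (Fin n → ℝ) :=
    { toFun := fun x j => x (i0.succAbove j) - (x i0 / v i0) * v (i0.succAbove j)
      map_add' := fun x y => by
        funext j
        simp only [Pi.add_apply]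
        ring
      map_smul' := fun c x => by
        funext j
        simp only [Pi.smul_apply, smul_eq_mul, RingHom.id_apply]
        ring }
  have hA : ∀ x j, A x j = x (i0.succAbove j) - (x i0 / v i0) * v (i0.succAbove j) :=
    fun x j => rfl
  obtain ⟨g, hg0, hgs⟩ : ∃ g : Fin (n + 1) → MvPolynomial (Fin n) ℝ,
      g i0 = 0 ∧ ∀ j, g (i0.succAbove j) = X j :=
    ⟨Fin.insertNth (α := fun _ => MvPolynomial (Fin n) ℝ) i0 0 (fun j => X j),
      Fin.insertNth_apply_same _ _ _, fun j => Fin.insertNth_apply_succAbove _ _ _ j⟩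
  let q : MvPolynomial (Fin n) ℝ := aeval g p
  have hq : q.IsHomogeneous d := by
    have := hd.aeval g (n := 1) (fun i => by
      rcases Fin.eq_self_or_eq_succAbove i0 i with h | ⟨j, h⟩
      · rw [h, hg0]
        exact isHomogeneous_zero _ _ _
      · rw [h, hgs]
        exact isHomogeneous_X _ _)
    rwa [one_mul] at this
  have hAq : ∀ x, eval x p = eval (A x) q := by
    intro x
    rw [show eval (A x) q = eval (fun i => eval (A x) (g i)) p from lr_eval_aeval g (A x) p,
      ← hinv x (-(x i0 / v i0))]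
    congr 1
    congr 1
    funext i
    rcases Fin.eq_self_or_eq_succAbove i0 i with h | ⟨j, h⟩
    · rw [h, hg0, map_zero, Pi.add_apply, Pi.smul_apply, smul_eq_mul]
      field_simp
      ring
    · rw [h, hgs, eval_X, hA, Pi.add_apply, Pi.smul_apply, smul_eq_mul]
      ring
  have hsec : ∀ y : Fin n → ℝ, ∃ x : Fin (n + 1) → ℝ,
      x i0 = 0 ∧ ∀ j, x (i0.succAbove j) = y j := fun y =>
    ⟨Fin.insertNth (α := fun _ => ℝ) i0 0 y,
      Fin.insertNth_apply_same _ _ _, fun j => Fin.insertNth_apply_succAbove _ _ _ j⟩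
  refine ⟨A, q, hq, ⟨⟨d, hq⟩, ?_, ?_⟩, hAq, fun y => ?_⟩
  · rw [← hAq]
    exact hp.2.1
  · intro y t ht
    have h1 : aeval (fun i => t * ((A e i : ℝ) : ℂ) - (y i : ℂ)) q =
        aeval (fun i => aeval (fun i => t * ((A e i : ℝ) : ℂ) - (y i : ℂ)) (g i)) p :=
      lr_aeval_aeval g _ p
    rw [h1] at ht
    obtain ⟨x, hx0, hxs⟩ := hsec y
    refine hp.2.2 x t ?_
    rw [← ht, ← inv_complex hinv (fun i => t * (e i : ℂ) - (x i : ℂ)) (-(t * (e i0 / v i0 : ℝ)))]
    congr 1
    congr 1
    funext i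
    rcases Fin.eq_self_or_eq_succAbove i0 i with h | ⟨j, h⟩
    · rw [h, hg0, map_zero, hx0]
      have : (v i0 : ℂ) ≠ 0 := by exact_mod_cast hi0
      push_cast
      field_simp
      ring
    · rw [h, hgs, aeval_X, hA, hxs]
      push_cast
      ring
  · obtain ⟨x, hx0, hxs⟩ := hsec y
    refine ⟨x, funext fun j => ?_⟩
    rw [hA, hx0, hxs, zero_div, zero_mul, sub_zero]

variable {n : ℕ} {p : MvPolynomial (Fin n) ℝ} {e z : Fin n → ℝ}

/-- polarization -/
theorem triL_pol (hd : p.IsHomogeneous 3) (x y w : Fin n → ℝ) :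
    6 * triL p x y w = eval (x + y + w) p - eval (x + y) p - eval (x + w) p - eval (y + w) p +
      eval x p + eval y p + eval w p := by
  have s1 : triL p x w y = triL p x y w := triL_swap23 p x w y
  have s2 : triL p y x w = triL p x y w := triL_swap12 p y x w
  have s3 : triL p y w x = triL p x y w := by rw [triL_swap23, s2]
  have s4 : triL p w x y = triL p x y w := by rw [triL_swap12, s1]
  have s5 : triL p w y x = triL p x y w := by rw [triL_swap12, s3]
  simp only [tri_diag hd, map_add, LinearMap.add_apply]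
  rw [s1, s2, s3, s4, s5]
  ring

theorem triL_pre {k : ℕ} {q : MvPolynomial (Fin k) ℝ} (A : (Fin n → ℝ) →ₗ[ℝ] (Fin k → ℝ))
    (hd : p.IsHomogeneous 3) (hq : q.IsHomogeneous 3) (h : ∀ x, eval x p = eval (A x) q)
    (x y w : Fin n → ℝ) : triL p x y w = triL q (A x) (A y) (A w) := by
  have h1 := triL_pol hd x y w
  have h2 := triL_pol hq (A x) (A y) (A w)
  simp only [h, map_add] at h1
  linarith

theorem grad_iff (hd : p.IsHomogeneous 3) (z : Fin n → ℝ) :
    (∀ i, eval z (pderiv i p) = 0) ↔ ∀ v, triL p z z v = 0 := by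
  constructor
  · intro h v
    rw [pi_eq_sum_univ' v, map_sum]
    refine Finset.sum_eq_zero fun i _ => ?_
    have h1 := h i
    rw [← dd_single', dd_tri hd] at h1
    rw [map_smul, smul_eq_mul]
    have h2 : triL p z z (Pi.single i 1) = 0 := by linarith
    rw [h2, mul_zero]
  · intro h i
    rw [← dd_single', dd_tri hd, h, mul_zero]

theorem eval_DL_DL' (hd : p.IsHomogeneous 3) (z y w : Fin n → ℝ) :
    eval z (DL y (DL w p)) = 6 * triL p z y w := by
  have hd' : p.IsHomogeneous (2 + 1) := hd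
  have h1 : (DL y (DL w p)).IsHomogeneous 1 := homog_DL (homog_DL hd' w) y
  have h2 := eval_DL_self h1 z
  have h3 : (DL z (DL y (DL w p))).IsHomogeneous 0 := homog_DL h1 z
  have h4 := (totalDegree_zero_iff_isHomogeneous (Fin n)).2 h3
  rw [totalDegree_eq_zero_iff_eq_C] at h4
  have h5 : eval 0 (DL z (DL y (DL w p))) = eval z (DL z (DL y (DL w p))) := by
    rw [h4, eval_C, eval_C]
  show _ = 6 * tri p z y w
  rw [tri, h5, h2]
  push_cast
  ring

theorem hessMat_mulVec (hd : p.IsHomogeneous 3) (z v : Fin n → ℝ) (i : Fin n) :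
    ((hessMat p z).mulVec v) i = 6 * triL p z (Pi.single i 1) v := by
  conv_rhs => rw [pi_eq_sum_univ' v]
  rw [map_sum, Finset.mul_sum]
  simp only [Matrix.mulVec, dotProduct, hessMat, Matrix.of_apply]
  refine Finset.sum_congr rfl fun j _ => ?_
  rw [← DL_single, ← DL_single, eval_DL_DL' hd, map_smul, smul_eq_mul]
  ring

theorem hessMat_ker (hd : p.IsHomogeneous 3) (z v : Fin n → ℝ) :
    (hessMat p z).mulVec v = 0 ↔ ∀ y, triL p z y v = 0 := by
  constructor
  · intro h y
    rw [pi_eq_sum_univ' y, map_sum, LinearMap.sum_apply]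
    refine Finset.sum_eq_zero fun i _ => ?_
    have h1 := congrFun h i
    rw [hessMat_mulVec hd, Pi.zero_apply] at h1
    have h2 : triL p z (Pi.single i 1) v = 0 := by linarith
    rw [map_smul, LinearMap.smul_apply, h2, smul_zero]
  · intro h
    funext i
    rw [hessMat_mulVec hd, h, mul_zero, Pi.zero_apply]

/-- Hyperbolic cubics such that, at all singular points `z` of the cone, the kernel of the Hessian
is spanned by `z` and by the lineality space of the cone. -/
theorem cubic_ordinary : ∀ {n : ℕ} {p : MvPolynomial (Fin n) ℝ} {e : Fin n → ℝ},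
    IsHyperbolic p e → p.IsHomogeneous 3 →
    (∀ z, IsDouble p e z → ∀ v : Fin n → ℝ, (hessMat p z).mulVec v = 0 →
      ∃ c : ℝ, v - c • z ∈ hypCone p e ∧ c • z - v ∈ hypCone p e) →
    GShad (hypCone p e) := by
  -- pointed cones
  have hpointed : ∀ {n : ℕ} {p : MvPolynomial (Fin n) ℝ} {e : Fin n → ℝ},
      IsHyperbolic p e → p.IsHomogeneous 3 →
      (∀ z, IsDouble p e z → ∀ v : Fin n → ℝ, (hessMat p z).mulVec v = 0 →
        ∃ c : ℝ, v - c • z ∈ hypCone p e ∧ c • z - v ∈ hypCone p e) →
      (∀ x ∈ hypCone p e, -x ∈ hypCone p e → x = 0) → GShad (hypCone p e) := by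
    intro n p e hp hd H hpt
    refine ord_shad hp hd hpt fun z hz hz0 hzp hgrad v hv => ?_
    have hker : (hessMat p z).mulVec v = 0 := by
      rw [hessMat_ker hd]
      intro y
      have h1 : ∀ i, triL p z (Pi.single i 1) v = 0 := by
        intro i
        have h2 := hv i
        rw [← DL_apply, ← DL_single, eval_DL_DL' hd, triL_swap23, triL_swap12,
          triL_swap23] at h2
        linarith
      rw [pi_eq_sum_univ' y, map_sum, LinearMap.sum_apply]
      refine Finset.sum_eq_zero fun i _ => ?_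
      rw [map_smul, LinearMap.smul_apply, h1, smul_zero]
    obtain ⟨c, h1, h2⟩ := H z ⟨hz, fun hneg => hz0 (hpt z hz hneg), hgrad⟩ v hker
    refine ⟨c, ?_⟩
    have h3 := hpt (v - c • z) h1 (by rwa [neg_sub])
    exact sub_eq_zero.1 h3
  intro n
  induction n with
  | zero =>
    intro p e hp hd H
    exact hpointed hp hd H fun x _ _ => Subsingleton.elim _ _
  | succ n ih =>
    intro p e hp hd H
    by_cases hpt : ∀ x ∈ hypCone p e, -x ∈ hypCone p e → x = 0
    · exact hpointed hp hd H hpt
    · push Not at hpt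
      obtain ⟨v, hv, hv', hv0⟩ := hpt
      obtain ⟨A, q, hq, hqh, hA, hsurj⟩ :=
        lineality_reduction_surj hp hd hv0 (eval_add_of_lin hp hv hv')
      have hK : hypCone p e = A ⁻¹' hypCone q (A e) := hypCone_comp A hA
      have hmem : ∀ x, x ∈ hypCone p e ↔ A x ∈ hypCone q (A e) := fun x => by rw [hK]; rfl
      rw [hK]
      refine (ih hqh hq ?_).preimage A
      rintro z' ⟨hz1, hz2, hz3⟩ v' hv1
      obtain ⟨z, rfl⟩ := hsurj z'
      obtain ⟨w, rfl⟩ := hsurj v'
      have hz : IsDouble p e z := by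
        refine ⟨(hmem z).2 hz1, fun hn => hz2 ?_, ?_⟩
        · have := (hmem (-z)).1 hn
          rwa [map_neg] at this
        · rw [grad_iff hd]
          intro u
          rw [triL_pre A hd hq hA]
          exact (grad_iff hq (A z)).1 hz3 (A u)
      have hw : (hessMat p z).mulVec w = 0 := by
        rw [hessMat_ker hd]
        intro y
        rw [triL_pre A hd hq hA]
        exact (hessMat_ker hq (A z) (A w)).1 hv1 (A y)
      obtain ⟨c, h1, h2⟩ := H z hz w hw
      refine ⟨c, ?_, ?_⟩
      · have := (hmem _).1 h1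
        rwa [map_sub, map_smul] at this
      · have := (hmem _).1 h2
        rwa [map_sub, map_smul] at this

end Vale.Agent.P256
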