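import Vale.Agent.P256.C5.CasesAB
import Vale.Agent.P256.C5.MFR
import Vale.Agent.P256.C5.Two
import Vale.Agent.P256.C5.S2

/-! A hyperbolic cubic with a double point whose tangent form has rank three (any number of
variables). -/

namespace Vale.Agent.P256

open Polynomial Matrix

variable {n : ℕ} {p : MvPolynomial (Fin n) ℝ} {e z : Fin n → ℝ}

theorem tri1 (p : MvPolynomial (Fin n) ℝ) (Ea Eb Ec u v : Fin n → ℝ) (a b c : ℝ) :
    triL p (a • Ea + b • Eb + c • Ec) u v =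
      a * triL p Ea u v + b * triL p Eb u v + c * triL p Ec u v := by
  simp only [map_add, map_smul, LinearMap.add_apply, LinearMap.smul_apply, smul_eq_mul]

theorem tri2 (p : MvPolynomial (Fin n) ℝ) (Ea Eb Ec u : Fin n → ℝ) (a b c : ℝ) :
    triL p (a • Ea + b • Eb + c • Ec) (a • Ea + b • Eb + c • Ec) u =
      a ^ 2 * triL p Ea Ea u + b ^ 2 * triL p Eb Eb u + c ^ 2 * triL p Ec Ec u +
      2 * a * b * triL p Ea Eb u + 2 * a * c * triL p Ea Ec u + 2 * b * c * triL p Eb Ec u := by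
  simp only [map_add, map_smul, LinearMap.add_apply, LinearMap.smul_apply, smul_eq_mul]
  rw [triL_swap12 p Eb Ea u, triL_swap12 p Ec Ea u, triL_swap12 p Ec Eb u]
  ring

theorem tri3 (p : MvPolynomial (Fin n) ℝ) (Ea Eb Ec : Fin n → ℝ) (a b c : ℝ) :
    triL p (a • Ea + b • Eb + c • Ec) (a • Ea + b • Eb + c • Ec) (a • Ea + b • Eb + c • Ec) =
      a ^ 3 * triL p Ea Ea Ea + 3 * a ^ 2 * b * triL p Ea Ea Eb + 3 * a ^ 2 * c * triL p Ea Ea Ec +
      3 * a * b ^ 2 * triL p Ea Eb Eb + 6 * a * b * c * triL p Ea Eb Ec +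
      3 * a * c ^ 2 * triL p Ea Ec Ec + b ^ 3 * triL p Eb Eb Eb +
      3 * b ^ 2 * c * triL p Eb Eb Ec + 3 * b * c ^ 2 * triL p Eb Ec Ec +
      c ^ 3 * triL p Ec Ec Ec := by
  rw [tri2]
  simp only [map_add, map_smul, smul_eq_mul]
  rw [triL_swap23 p Eb Eb Ea, triL_swap12 p Eb Ea Eb, triL_swap23 p Ec Ec Ea,
    triL_swap12 p Ec Ea Ec, triL_swap23 p Ec Ec Eb, triL_swap12 p Ec Eb Ec,
    triL_swap23 p Ea Eb Ea, triL_swap23 p Ea Ec Ea, triL_swap23 p Ea Ec Eb,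
    triL_swap23 p Eb Ec Ea, triL_swap12 p Eb Ea Ec, triL_swap23 p Eb Ec Eb]
  ring

theorem gram6 {κ : Type} [Fintype κ] (f0 f1 f2 f3 f4 f5 : κ → ℝ) (l0 l1 l2 l3 l4 l5 : ℝ) :
    ∑ k, (l0 * f0 k + l1 * f1 k + l2 * f2 k + l3 * f3 k + l4 * f4 k + l5 * f5 k) ^ 2 =
      l0 ^ 2 * ∑ k, f0 k ^ 2 + l1 ^ 2 * ∑ k, f1 k ^ 2 + l2 ^ 2 * ∑ k, f2 k ^ 2 +
      l3 ^ 2 * ∑ k, f3 k ^ 2 + l4 ^ 2 * ∑ k, f4 k ^ 2 + l5 ^ 2 * ∑ k, f5 k ^ 2 +
      2 * l0 * l1 * ∑ k, f0 k * f1 k + 2 * l0 * l2 * ∑ k, f0 k * f2 k +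
      2 * l0 * l3 * ∑ k, f0 k * f3 k + 2 * l0 * l4 * ∑ k, f0 k * f4 k +
      2 * l0 * l5 * ∑ k, f0 k * f5 k + 2 * l1 * l2 * ∑ k, f1 k * f2 k +
      2 * l1 * l3 * ∑ k, f1 k * f3 k + 2 * l1 * l4 * ∑ k, f1 k * f4 k +
      2 * l1 * l5 * ∑ k, f1 k * f5 k + 2 * l2 * l3 * ∑ k, f2 k * f3 k +
      2 * l2 * l4 * ∑ k, f2 k * f4 k + 2 * l2 * l5 * ∑ k, f2 k * f5 k +
      2 * l3 * l4 * ∑ k, f3 k * f4 k + 2 * l3 * l5 * ∑ k, f3 k * f5 k +
      2 * l4 * l5 * ∑ k, f4 k * f5 k := by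
  simp only [Finset.mul_sum, ← Finset.sum_add_distrib]
  exact Finset.sum_congr rfl fun k _ => by ring

section Data

variable (p) (Ea Eb Ec : Fin n → ℝ) (U : (Fin n → ℝ) →ₗ[ℝ] (Fin n → ℝ))

/-- the polynomial matrix of the cubic along the conic -/
noncomputable def nMat : Matrix (Option (Fin n)) (Option (Fin n)) ℝ[X] :=
  Matrix.of fun i j => match i, j with
  | some i, some j =>
    C (-(3 * triL p Ea (U (Pi.single i 1)) (U (Pi.single j 1)))) * X ^ 2 +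
      C (-(3 * triL p Eb (U (Pi.single i 1)) (U (Pi.single j 1)))) * X +
      C (-(3 * triL p Ec (U (Pi.single i 1)) (U (Pi.single j 1))))
  | some i, none =>
    C (-(3 / 2 * triL p Ea Ea (U (Pi.single i 1)))) * X ^ 4 +
      C (-(3 * triL p Ea Eb (U (Pi.single i 1)))) * X ^ 3 +
      C (-(3 * triL p Ea Ec (U (Pi.single i 1)) + 3 / 2 * triL p Eb Eb (U (Pi.single i 1)))) *
        X ^ 2 +
      C (-(3 * triL p Eb Ec (U (Pi.single i 1)))) * X +
      C (-(3 / 2 * triL p Ec Ec (U (Pi.single i 1))))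
  | none, some i =>
    C (-(3 / 2 * triL p Ea Ea (U (Pi.single i 1)))) * X ^ 4 +
      C (-(3 * triL p Ea Eb (U (Pi.single i 1)))) * X ^ 3 +
      C (-(3 * triL p Ea Ec (U (Pi.single i 1)) + 3 / 2 * triL p Eb Eb (U (Pi.single i 1)))) *
        X ^ 2 +
      C (-(3 * triL p Eb Ec (U (Pi.single i 1)))) * X +
      C (-(3 / 2 * triL p Ec Ec (U (Pi.single i 1))))
  | none, none =>
    C (-triL p Ea Ea Ea) * X ^ 6 + C (-(3 * triL p Ea Ea Eb)) * X ^ 5 +
      C (-(3 * triL p Ea Ea Ec + 3 * triL p Ea Eb Eb)) * X ^ 4 +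
      C (-(6 * triL p Ea Eb Ec + triL p Eb Eb Eb)) * X ^ 3 +
      C (-(3 * triL p Ea Ec Ec + 3 * triL p Eb Eb Ec)) * X ^ 2 +
      C (-(3 * triL p Eb Ec Ec)) * X + C (-triL p Ec Ec Ec)

/-- the degrees -/
def nDeg : Option (Fin n) → ℕ
  | some _ => 1
  | none => 3

theorem nMat_degree (i j : Option (Fin n)) :
    (nMat p Ea Eb Ec U i j).natDegree ≤ nDeg i + nDeg j := by
  rcases i with _ | i <;> rcases j with _ | j <;>
    simp only [nMat, nDeg, Matrix.of_apply, Nat.reduceAdd] <;> compute_degree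

theorem nMat_symm : (nMat p Ea Eb Ec U).IsSymm := by
  ext i j : 1
  rcases i with _ | i <;> rcases j with _ | j <;>
    simp only [nMat, Matrix.transpose_apply, Matrix.of_apply]
  rw [triL_swap23 p Ea (U (Pi.single j 1)), triL_swap23 p Eb (U (Pi.single j 1)),
    triL_swap23 p Ec (U (Pi.single j 1))]

theorem nMat_form (s : ℝ) (w : Option (Fin n) → ℝ) :
    w ⬝ᵥ ((nMat p Ea Eb Ec U).map (eval s) *ᵥ w) =
      -(3 * triL p (s ^ 2 • Ea + s • Eb + (1 : ℝ) • Ec) (U fun i => w (some i))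
          (U fun i => w (some i)) +
        3 * w none * triL p (s ^ 2 • Ea + s • Eb + (1 : ℝ) • Ec)
          (s ^ 2 • Ea + s • Eb + (1 : ℝ) • Ec) (U fun i => w (some i)) +
        w none ^ 2 * triL p (s ^ 2 • Ea + s • Eb + (1 : ℝ) • Ec)
          (s ^ 2 • Ea + s • Eb + (1 : ℝ) • Ec) (s ^ 2 • Ea + s • Eb + (1 : ℝ) • Ec)) := by
  set x : Fin n → ℝ := fun i => w (some i) with hx
  set E : Fin n → ℝ := s ^ 2 • Ea + s • Eb + (1 : ℝ) • Ec with hE
  have h1 : triL p E (U x) (U x) = ∑ j, ∑ l, (x j * x l) *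
      triL p E (U (Pi.single j 1)) (U (Pi.single l 1)) :=
    bilin_eq_sum ((triL p E).compl₁₂ U U) x x
  have h2 : triL p E E (U x) = ∑ j, x j * triL p E E (U (Pi.single j 1)) :=
    lin_eq_sum (triL p E E ∘ₗ U) x
  have m1 : ∀ i j, eval s (nMat p Ea Eb Ec U (some i) (some j)) =
      -(3 * triL p E (U (Pi.single i 1)) (U (Pi.single j 1))) := by
    intro i j
    rw [hE, tri1]
    simp only [nMat, Matrix.of_apply, eval_add, eval_mul, eval_C, eval_X, eval_pow]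
    ring
  have m2 : ∀ i, eval s (nMat p Ea Eb Ec U (some i) none) =
      -(3 / 2 * triL p E E (U (Pi.single i 1))) := by
    intro i
    rw [hE, tri2]
    simp only [nMat, Matrix.of_apply, eval_add, eval_mul, eval_C, eval_X, eval_pow]
    ring
  have m3 : ∀ i, eval s (nMat p Ea Eb Ec U none (some i)) =
      -(3 / 2 * triL p E E (U (Pi.single i 1))) := by
    intro i
    rw [hE, tri2]
    simp only [nMat, Matrix.of_apply, eval_add, eval_mul, eval_C, eval_X, eval_pow]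
    ring
  have m4 : eval s (nMat p Ea Eb Ec U none none) = -triL p E E E := by
    rw [hE, tri3]
    simp only [nMat, Matrix.of_apply, eval_add, eval_mul, eval_C, eval_X, eval_pow]
    ring
  rw [MFR.dot_eq, Fintype.sum_option, Fintype.sum_option]
  simp only [Fintype.sum_option, Matrix.map_apply, m1, m2, m3, m4, Finset.sum_add_distrib]
  rw [h1, h2, Finset.mul_sum, Finset.mul_sum]
  have h3 : ∑ i, w none * w (some i) * -(3 / 2 * triL p E E (U (Pi.single i 1))) =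
      -(1 / 2 * ∑ i, 3 * w none * (x i * triL p E E (U (Pi.single i 1)))) := by
    rw [Finset.mul_sum, ← Finset.sum_neg_distrib]
    exact Finset.sum_congr rfl fun i _ => by rw [hx]; ring
  have h4 : ∑ i, w (some i) * w none * -(3 / 2 * triL p E E (U (Pi.single i 1))) =
      -(1 / 2 * ∑ i, 3 * w none * (x i * triL p E E (U (Pi.single i 1)))) := by
    rw [Finset.mul_sum, ← Finset.sum_neg_distrib]
    exact Finset.sum_congr rfl fun i _ => by rw [hx]; ring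
  have h5 : ∑ i, ∑ j, w (some i) * w (some j) *
      -(3 * triL p E (U (Pi.single i 1)) (U (Pi.single j 1))) =
      -∑ i, 3 * ∑ j, x i * x j * triL p E (U (Pi.single i 1)) (U (Pi.single j 1)) := by
    rw [← Finset.sum_neg_distrib]
    refine Finset.sum_congr rfl fun i _ => ?_
    rw [Finset.mul_sum, ← Finset.sum_neg_distrib]
    exact Finset.sum_congr rfl fun j _ => by rw [hx]; ring
  rw [h3, h4, h5]
  ring

end Data

/-- the sum of squares representation along the conic -/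
theorem DPt.conic_sum (h : DPt p e z) {Ea Eb Ec : Fin n → ℝ} {U : (Fin n → ℝ) →ₗ[ℝ] (Fin n → ℝ)}
    (hU : ∀ x y, triL p z (U x) y = 0)
    (hneg : ∀ (s : ℝ) (u : Fin n → ℝ), (∀ y, triL p z u y = 0) → ∀ t : ℝ, 0 < t →
      MvPolynomial.eval (u + t • (s ^ 2 • Ea + s • Eb + (1 : ℝ) • Ec)) p ≤ 0) :
    ∃ (κ : Type) (_ : Fintype κ) (A B : κ → ((Fin n → ℝ) →ₗ[ℝ] ℝ)) (v3 v2 v1 v0 : κ → ℝ),
      ∀ (x : Fin n → ℝ) (s t : ℝ),
        ∑ k, (s * A k x + 1 * B k x + (t * s ^ 3) * v3 k + (t * s ^ 2) * v2 k + (t * s) * v1 k +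
          t * v0 k) ^ 2 =
        -(3 * triL p (s ^ 2 • Ea + s • Eb + (1 : ℝ) • Ec) (U x) (U x) +
          3 * t * triL p (s ^ 2 • Ea + s • Eb + (1 : ℝ) • Ec)
            (s ^ 2 • Ea + s • Eb + (1 : ℝ) • Ec) (U x) +
          t ^ 2 * triL p (s ^ 2 • Ea + s • Eb + (1 : ℝ) • Ec)
            (s ^ 2 • Ea + s • Eb + (1 : ℝ) • Ec) (s ^ 2 • Ea + s • Eb + (1 : ℝ) • Ec)) := by
  obtain ⟨κ, hκ, V, hV, hN⟩ := MFR.matrix_sos (δ := nDeg) (nMat_symm p Ea Eb Ec U)
    (nMat_degree p Ea Eb Ec U) (fun s w => by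
      rw [nMat_form]
      have := h.form_nonneg (w none) (hU fun i => w (some i)) (hneg s)
      linarith)
  refine ⟨κ, hκ, fun k => ∑ i, (V k (some i)).coeff 1 • LinearMap.proj i,
    fun k => ∑ i, (V k (some i)).coeff 0 • LinearMap.proj i, fun k => (V k none).coeff 3,
    fun k => (V k none).coeff 2, fun k => (V k none).coeff 1, fun k => (V k none).coeff 0,
    fun x s t => ?_⟩
  set w : Option (Fin n) → ℝ := fun i => i.elim t x with hw
  have h1 := nMat_form p Ea Eb Ec U s w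
  have h2 : (fun i => w (some i)) = x := rfl
  have h3 : w none = t := rfl
  rw [h2, h3] at h1
  rw [← h1, MFR.dot_eq]
  have h4 : ∀ i j, w i * w j * (nMat p Ea Eb Ec U).map (eval s) i j =
      ∑ k, (w i * (V k i).eval s) * (w j * (V k j).eval s) := by
    intro i j
    rw [Matrix.map_apply, hN, Matrix.mul_apply, eval_finsetSum, Finset.mul_sum]
    refine Finset.sum_congr rfl fun k _ => ?_
    rw [Matrix.transpose_apply, eval_mul]
    ring
  simp only [h4]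
  rw [Finset.sum_congr rfl (fun i _ => Finset.sum_comm), Finset.sum_comm]
  refine Finset.sum_congr rfl fun k _ => ?_
  rw [← Finset.sum_mul_sum, ← sq]
  congr 1
  rw [Fintype.sum_option]
  have h5 : (V k none).eval s = (V k none).coeff 0 + (V k none).coeff 1 * s +
      (V k none).coeff 2 * s ^ 2 + (V k none).coeff 3 * s ^ 3 := by
    have h6 : (V k none).natDegree ≤ 3 := hV k none
    rw [eval_eq_sum_range' (n := 4) (by omega)]
    simp [Finset.sum_range_succ]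
  have h7 : ∀ i, (V k (some i)).eval s = (V k (some i)).coeff 0 + (V k (some i)).coeff 1 * s := by
    intro i
    have h6 : (V k (some i)).natDegree ≤ 1 := hV k (some i)
    rw [eval_eq_sum_range' (n := 2) (by omega)]
    simp [Finset.sum_range_succ]
  have h8 : ∑ i, w (some i) * (V k (some i)).eval s =
      s * ∑ i, (V k (some i)).coeff 1 * x i + ∑ i, (V k (some i)).coeff 0 * x i := by
    rw [Finset.mul_sum, ← Finset.sum_add_distrib]
    refine Finset.sum_congr rfl fun i _ => ?_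
    rw [h7]
    show x i * _ = _
    ring
  rw [h8, h5, h3]
  simp only [LinearMap.sum_apply, LinearMap.smul_apply, LinearMap.proj_apply, smul_eq_mul]
  ring

theorem zero_of_three {A B C : ℝ} (h : ∀ t : ℝ, A + B * t + C * t ^ 2 = 0) :
    A = 0 ∧ B = 0 ∧ C = 0 := by
  have h0 := h 0
  have h1 := h 1
  have h2 := h (-1)
  norm_num at h0 h1 h2
  refine ⟨h0, ?_, ?_⟩ <;> linarith

theorem DPt.conic_coef {Ea Eb Ec : Fin n → ℝ} {U : (Fin n → ℝ) →ₗ[ℝ] (Fin n → ℝ)}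
    {κ : Type} [Fintype κ] {A B : κ → ((Fin n → ℝ) →ₗ[ℝ] ℝ)} {v3 v2 v1 v0 : κ → ℝ}
    (x : Fin n → ℝ)
    (hsum : ∀ s t : ℝ,
        ∑ k, (s * A k x + 1 * B k x + (t * s ^ 3) * v3 k + (t * s ^ 2) * v2 k + (t * s) * v1 k +
          t * v0 k) ^ 2 =
        -(3 * triL p (s ^ 2 • Ea + s • Eb + (1 : ℝ) • Ec) (U x) (U x) +
          3 * t * triL p (s ^ 2 • Ea + s • Eb + (1 : ℝ) • Ec)
            (s ^ 2 • Ea + s • Eb + (1 : ℝ) • Ec) (U x) +
          t ^ 2 * triL p (s ^ 2 • Ea + s • Eb + (1 : ℝ) • Ec)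
            (s ^ 2 • Ea + s • Eb + (1 : ℝ) • Ec) (s ^ 2 • Ea + s • Eb + (1 : ℝ) • Ec))) :
    (∑ k, B k x ^ 2) + 3 * triL p Ec (U x) (U x) = 0 ∧
    2 * (∑ k, A k x * B k x) + 3 * triL p Eb (U x) (U x) = 0 ∧
    (∑ k, A k x ^ 2) + 3 * triL p Ea (U x) (U x) = 0 ∧
    2 * (∑ k, B k x * v0 k) + 3 * triL p Ec Ec (U x) = 0 ∧
    2 * (∑ k, A k x * v0 k) + 2 * (∑ k, B k x * v1 k) + 6 * triL p Eb Ec (U x) = 0 ∧
    2 * (∑ k, A k x * v1 k) + 2 * (∑ k, B k x * v2 k) + 6 * triL p Ea Ec (U x) + 3 * triL p Eb Eb (U x) = 0 ∧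
    2 * (∑ k, A k x * v2 k) + 2 * (∑ k, B k x * v3 k) + 6 * triL p Ea Eb (U x) = 0 ∧
    2 * (∑ k, A k x * v3 k) + 3 * triL p Ea Ea (U x) = 0 ∧
    (∑ k, v0 k ^ 2) + triL p Ec Ec Ec = 0 ∧
    2 * (∑ k, v1 k * v0 k) + 3 * triL p Eb Ec Ec = 0 ∧
    2 * (∑ k, v2 k * v0 k) + (∑ k, v1 k ^ 2) + 3 * triL p Ea Ec Ec + 3 * triL p Eb Eb Ec = 0 ∧
    2 * (∑ k, v3 k * v0 k) + 2 * (∑ k, v2 k * v1 k) + 6 * triL p Ea Eb Ec + triL p Eb Eb Eb = 0 ∧
    2 * (∑ k, v3 k * v1 k) + (∑ k, v2 k ^ 2) + 3 * triL p Ea Ea Ec + 3 * triL p Ea Eb Eb = 0 ∧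
    2 * (∑ k, v3 k * v2 k) + 3 * triL p Ea Ea Eb = 0 ∧
    (∑ k, v3 k ^ 2) + triL p Ea Ea Ea = 0 := by
  have h0 : ∀ s t : ℝ,
      (((∑ k, B k x ^ 2) + 3 * triL p Ec (U x) (U x)) +
        (2 * (∑ k, A k x * B k x) + 3 * triL p Eb (U x) (U x)) * s +
        ((∑ k, A k x ^ 2) + 3 * triL p Ea (U x) (U x)) * s ^ 2 +
        (0) * s ^ 3 +
        (0) * s ^ 4 +
        (0) * s ^ 5 +
        (0) * s ^ 6 +
        (0) * s ^ 7 +
        (0) * s ^ 8) +
      ((2 * (∑ k, B k x * v0 k) + 3 * triL p Ec Ec (U x)) +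
        (2 * (∑ k, A k x * v0 k) + 2 * (∑ k, B k x * v1 k) + 6 * triL p Eb Ec (U x)) * s +
        (2 * (∑ k, A k x * v1 k) + 2 * (∑ k, B k x * v2 k) + 6 * triL p Ea Ec (U x) + 3 * triL p Eb Eb (U x)) * s ^ 2 +
        (2 * (∑ k, A k x * v2 k) + 2 * (∑ k, B k x * v3 k) + 6 * triL p Ea Eb (U x)) * s ^ 3 +
        (2 * (∑ k, A k x * v3 k) + 3 * triL p Ea Ea (U x)) * s ^ 4 +
        (0) * s ^ 5 +
        (0) * s ^ 6 +
        (0) * s ^ 7 +
        (0) * s ^ 8) * t +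
      (((∑ k, v0 k ^ 2) + triL p Ec Ec Ec) +
        (2 * (∑ k, v1 k * v0 k) + 3 * triL p Eb Ec Ec) * s +
        (2 * (∑ k, v2 k * v0 k) + (∑ k, v1 k ^ 2) + 3 * triL p Ea Ec Ec + 3 * triL p Eb Eb Ec) * s ^ 2 +
        (2 * (∑ k, v3 k * v0 k) + 2 * (∑ k, v2 k * v1 k) + 6 * triL p Ea Eb Ec + triL p Eb Eb Eb) * s ^ 3 +
        (2 * (∑ k, v3 k * v1 k) + (∑ k, v2 k ^ 2) + 3 * triL p Ea Ea Ec + 3 * triL p Ea Eb Eb) * s ^ 4 +
        (2 * (∑ k, v3 k * v2 k) + 3 * triL p Ea Ea Eb) * s ^ 5 +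
        ((∑ k, v3 k ^ 2) + triL p Ea Ea Ea) * s ^ 6 +
        (0) * s ^ 7 +
        (0) * s ^ 8) * t ^ 2 = 0 := by
    intro s t
    have h1 := hsum s t
    rw [gram6 (fun k => A k x) (fun k => B k x) v3 v2 v1 v0, tri1, tri2, tri3] at h1
    linear_combination h1
  have hA := poly8_zero fun s => (zero_of_three (h0 s)).1
  have hB := poly8_zero fun s => (zero_of_three (h0 s)).2.1
  have hC := poly8_zero fun s => (zero_of_three (h0 s)).2.2
  obtain ⟨a0, a1, a2, -⟩ := hA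
  obtain ⟨b0, b1, b2, b3, b4, -⟩ := hB
  obtain ⟨c0, c1, c2, c3, c4, c5, c6, -⟩ := hC
  exact ⟨a0, a1, a2, b0, b1, b2, b3, b4, c0, c1, c2, c3, c4, c5, c6⟩

/-- a hyperbolic cubic with a double point whose tangent form has rank three -/
theorem DPt.rank3 (h : DPt p e z) {a b c : (Fin n → ℝ) →ₗ[ℝ] ℝ} {Ea Eb Ec : Fin n → ℝ}
    (haa : a Ea = 1) (hab : a Eb = 0) (hac : a Ec = 0)
    (hba : b Ea = 0) (hbb : b Eb = 1) (hbc : b Ec = 0)
    (hca : c Ea = 0) (hcb : c Eb = 0) (hcc : c Ec = 1)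
    (hae : 0 < a e) (hce : c e = a e) (hbe : b e = 0)
    (hq : ∀ x y, 3 * triL p z x y = (a x * c y + a y * c x) / 2 - b x * b y) :
    GShad (hypCone p e) := by
  let U : (Fin n → ℝ) →ₗ[ℝ] (Fin n → ℝ) :=
    LinearMap.id - a.smulRight Ea - b.smulRight Eb - c.smulRight Ec
  have hU : ∀ x, U x = x - a x • Ea - b x • Eb - c x • Ec := fun x => rfl
  have haU : ∀ x, a (U x) = 0 := fun x => by
    simp only [hU, map_sub, map_smul, haa, hab, hac, smul_eq_mul]; ring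
  have hbU : ∀ x, b (U x) = 0 := fun x => by
    simp only [hU, map_sub, map_smul, hba, hbb, hbc, smul_eq_mul]; ring
  have hcU : ∀ x, c (U x) = 0 := fun x => by
    simp only [hU, map_sub, map_smul, hca, hcb, hcc, smul_eq_mul]; ring
  have hker : ∀ x y, triL p z (U x) y = 0 := fun x y => by
    have := hq (U x) y
    rw [haU, hbU, hcU] at this
    linarith
  have hkerabc : ∀ w, (∀ y, triL p z w y = 0) → a w = 0 ∧ b w = 0 ∧ c w = 0 := by
    intro w hw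
    have h1 := hq w Ea
    have h2 := hq w Eb
    have h3 := hq w Ec
    rw [hw, haa, hba, hca] at h1
    rw [hw, hab, hbb, hcb] at h2
    rw [hw, hac, hbc, hcc] at h3
    refine ⟨?_, ?_, ?_⟩ <;> linarith
  have hneg : ∀ (s : ℝ) (u : Fin n → ℝ), (∀ y, triL p z u y = 0) → ∀ t : ℝ, 0 < t →
      MvPolynomial.eval (u + t • (s ^ 2 • Ea + s • Eb + (1 : ℝ) • Ec)) p ≤ 0 := by
    intro s u hu t ht
    obtain ⟨hua, hub, huc⟩ := hkerabc u hu
    set w := u + t • (s ^ 2 • Ea + s • Eb + (1 : ℝ) • Ec) with hw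
    have wa : a w = t * s ^ 2 := by
      simp only [hw, map_add, map_smul, hua, haa, hab, hac, smul_eq_mul]; ring
    have wb : b w = t * s := by
      simp only [hw, map_add, map_smul, hub, hba, hbb, hbc, smul_eq_mul]; ring
    have wc : c w = t := by
      simp only [hw, map_add, map_smul, huc, hca, hcb, hcc, smul_eq_mul]; ring
    refine h.nonpos ?_ ?_
    · rw [mem_hypCone_iff (part_homog p z 2)]
      intro σ hσ
      rw [part2 h.hom, hq]
      simp only [map_add, map_smul, smul_eq_mul, wa, wb, wc, hce, hbe]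
      have h1 : 0 < σ ^ 2 * (a e) ^ 2 := by positivity
      have h2 : 0 ≤ t * σ * (a e) * (s ^ 2 + 1) := by positivity
      intro h3
      nlinarith
    · have h1 := hq w w
      rw [wa, wb, wc] at h1
      linarith
  obtain ⟨κ, hκ, A, B, v3, v2, v1, v0, hsum⟩ := h.conic_sum hker hneg
  -- the cubic
  have hp : ∀ x, MvPolynomial.eval x p =
      3 * triL p (a x • Ea + b x • Eb + c x • Ec) (U x) (U x) +
      3 * triL p (a x • Ea + b x • Eb + c x • Ec) (a x • Ea + b x • Eb + c x • Ec) (U x) +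
      triL p (a x • Ea + b x • Eb + c x • Ec) (a x • Ea + b x • Eb + c x • Ec)
        (a x • Ea + b x • Eb + c x • Ec) := by
    intro x
    have hx : x = U x + (a x • Ea + b x • Eb + c x • Ec) := by rw [hU]; abel
    conv_lhs => rw [hx]
    rw [eval_add_cubic h.hom, h.zero_of_ker (hker x),
      tri_diag h.hom (a x • Ea + b x • Eb + c x • Ec),
      triL_swap23 p (U x) (U x), triL_swap12 p (U x) (a x • Ea + b x • Eb + c x • Ec) (U x),
      triL_swap12 p (U x) (a x • Ea + b x • Eb + c x • Ec) (a x • Ea + b x • Eb + c x • Ec),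
      triL_swap23 p (a x • Ea + b x • Eb + c x • Ec) (U x)
        (a x • Ea + b x • Eb + c x • Ec)]
    ring
  -- the bilinear forms
  let G : κ → ((Fin n → ℝ) →ₗ[ℝ] (Fin n → ℝ) →ₗ[ℝ] ℝ) := fun k =>
    mulForm (A k) a + mulForm (B k) b + v3 k • mulForm a a + v2 k • mulForm a b +
      v1 k • mulForm a c + v0 k • mulForm b c
  have hG : ∀ k x, G k x x = a x * A k x + b x * B k x + (a x ^ 2) * v3 k + (a x * b x) * v2 k +
      (a x * c x) * v1 k + (b x * c x) * v0 k := by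
    intro k x
    simp only [G, LinearMap.add_apply, LinearMap.smul_apply, mulForm_self, smul_eq_mul]
    ring
  set c6 : ℝ := -(3 * triL p Ea Ea Ec) - 2 * ∑ k, v3 k * v1 k with hc6
  set c5 : ℝ := -(6 * triL p Ea Eb Ec) - 2 * ∑ k, v3 k * v0 k - 2 * ∑ k, v2 k * v1 k with hc5
  set c4 : ℝ := -(3 * triL p Ea Ec Ec) - ∑ k, v1 k ^ 2 with hc4
  set c2 : ℝ := -triL p Ec Ec Ec with hc2
  let R : (Fin n → ℝ) →ₗ[ℝ] (Fin n → ℝ) →ₗ[ℝ] ℝ :=
    (3 : ℝ) • (triL p Ec).compl₁₂ U U +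
      mulForm a ((6 : ℝ) • (triL p Ea Ec ∘ₗ U) + (2 : ℝ) • ∑ k, v1 k • A k) +
      mulForm c ((3 : ℝ) • (triL p Ec Ec ∘ₗ U)) - c6 • mulForm a a - c5 • mulForm a b -
      c4 • mulForm a c - c2 • mulForm c c
  have hR : ∀ x, R x x = 3 * triL p Ec (U x) (U x) +
      a x * (6 * triL p Ea Ec (U x) + 2 * ∑ k, A k x * v1 k) + c x * (3 * triL p Ec Ec (U x)) -
      c6 * (a x * a x) - c5 * (a x * b x) - c4 * (a x * c x) - c2 * (c x * c x) := by
    intro x
    simp only [R, LinearMap.add_apply, LinearMap.sub_apply, LinearMap.smul_apply, mulForm_self,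
      smul_eq_mul, LinearMap.compl₁₂_apply, LinearMap.comp_apply, LinearMap.sum_apply]
    have : ∑ k, v1 k * A k x = ∑ k, A k x * v1 k :=
      Finset.sum_congr rfl fun k _ => mul_comm _ _
    rw [this]
  let Q : (Fin n → ℝ) →ₗ[ℝ] (Fin n → ℝ) →ₗ[ℝ] ℝ := (3 : ℝ) • triL p z
  have hQ : ∀ x, Q x x = a x * c x - b x ^ 2 := by
    intro x
    have : Q x x = 3 * triL p z x x := rfl
    rw [this, hq]
    ring
  have hid : ∀ x, a x * MvPolynomial.eval x p = Q x x * R x x - ∑ k, (G k x x) ^ 2 := by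
    intro x
    obtain ⟨a0, a1, a2, b0, b1, b2, b3, b4, d0, d1, d2, d3, d4, d5, d6⟩ :=
      DPt.conic_coef (p := p) (Ea := Ea) (Eb := Eb) (Ec := Ec) (U := U) x (hsum x)
    simp only [hG]
    rw [gram6 (fun k => A k x) (fun k => B k x) v3 v2 v1 v0, hp, tri1, tri2, tri3, hQ, hR, hc6,
      hc5, hc4, hc2]
    linear_combination (a x) ^ 2 * a2 + (a x) * (b x) * a1 + (b x) ^ 2 * a0 + (a x) ^ 3 * b4 +
      (a x) ^ 2 * (b x) * b3 + (a x) * (b x) ^ 2 * b2 + (a x) * (b x) * (c x) * b1 +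
      (b x) ^ 2 * (c x) * b0 + (a x) ^ 4 * d6 + (a x) ^ 3 * (b x) * d5 +
      (a x) ^ 2 * (b x) ^ 2 * d4 + (a x) * (b x) ^ 3 * d3 + (a x) * (b x) ^ 2 * (c x) * d2 +
      (a x) * (b x) * (c x) ^ 2 * d1 + (b x) ^ 2 * (c x) ^ 2 * d0
  have hKa : ∀ x ∈ hypCone p e, 0 ≤ a x := by
    intro x hx
    by_contra hlt
    push Not at hlt
    have h1 := (mem_K_iff h.hypq x).1 (h.sub hx) (-a x / a e) (div_pos (by linarith) hae)
    have h2 := (open_mono h.hypq h1 0 le_rfl).1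
    rw [part2 h.hom, hq] at h2
    have h3 : a (x + (-a x / a e) • e) = 0 := by
      rw [map_add, map_smul, smul_eq_mul]
      field_simp
      ring
    rw [h3] at h2
    nlinarith [sq_nonneg (b (x + (-a x / a e) • e))]
  have hEc : ∀ u : Fin n → ℝ, (∀ y, triL p z u y = 0) → ∀ t : ℝ, 0 < t →
      MvPolynomial.eval (u + t • Ec) p ≤ 0 := by
    intro u hu t ht
    have := hneg 0 u hu t ht
    have h1 : (0 : ℝ) ^ 2 • Ea + (0 : ℝ) • Eb + (1 : ℝ) • Ec = Ec := by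
      rw [zero_pow two_ne_zero, zero_smul, zero_smul, one_smul, zero_add, zero_add]
    rwa [h1] at this
  refine lorentz_rep h.hyp a Q R (Fintype.card κ) (fun i => G ((Fintype.equivFin κ).symm i)) hae
    hKa ?_ ?_ ?_
  · rw [hQ, hce, hbe]
    nlinarith
  · intro x hx
    refine ⟨?_, ?_⟩
    · rw [hQ, hx, zero_mul]
      nlinarith [sq_nonneg (b x)]
    · by_cases hbx : b x = 0
      · rw [hR, hx, hbx, hc2]
        have := h.form_nonneg (c x) (hker x) hEc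
        linarith
      · have h1 := hid x
        rw [hx, zero_mul, hQ, hx, zero_mul, zero_sub] at h1
        have h2 : 0 ≤ ∑ k, (G k x x) ^ 2 := Finset.sum_nonneg fun _ _ => sq_nonneg _
        have h3 : 0 < b x ^ 2 := by positivity
        by_contra hlt
        push Not at hlt
        nlinarith [mul_pos h3 hlt]
  · intro x
    rw [hid, Equiv.sum_comp (Fintype.equivFin κ).symm fun k => (G k x x) ^ 2]

end Vale.Agent.P256
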