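import Vale.Agent.P256.C5.Struct

/-! Coordinates for the tangent form at a double point whose Hessian has rank at most three. -/

namespace Vale.Agent.P256

open Polynomial Filter Topology

variable {n : ℕ} {p : MvPolynomial (Fin n) ℝ} {e z : Fin n → ℝ}

/-- the Hessian matrix -/
noncomputable def hess (p : MvPolynomial (Fin n) ℝ) (z : Fin n → ℝ) : Matrix (Fin n) (Fin n) ℝ :=
  Matrix.of fun i j => MvPolynomial.eval z (MvPolynomial.pderiv i (MvPolynomial.pderiv j p))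

/-- a bilinear form `x ↦ xᵀ H y` of rank at most three has singular `4 × 4` Gram matrices -/
theorem gram_det_zero {H : Matrix (Fin n) (Fin n) ℝ} (hH : H.rank ≤ 3)
    (E : Matrix (Fin n) (Fin 4) ℝ) : (E.transpose * (H * E)).det = 0 := by
  by_contra hne
  have h1 : (E.transpose * (H * E)).rank = 4 := by
    have h2 := Matrix.rank_of_isUnit (E.transpose * (H * E))
      ((Matrix.isUnit_iff_isUnit_det _).2 (isUnit_iff_ne_zero.2 hne))
    rwa [Fintype.card_fin] at h2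
  have h2 := (Matrix.rank_mul_le_right E.transpose (H * E)).trans (Matrix.rank_mul_le_left H E)
  omega

/-- coordinates of the tangent form: rank one, two or three -/
theorem DPt.struct3 (h : DPt p e z)
    (hrk : ∀ w : Fin 4 → (Fin n → ℝ), (Matrix.of fun i j => 3 * triL p z (w i) (w j)).det = 0) :
    (∃ (x0 : (Fin n → ℝ) →ₗ[ℝ] ℝ) (e0 : Fin n → ℝ), x0 e0 = 1 ∧ 0 < x0 e ∧
      ∀ x y, 3 * triL p z x y = x0 x * x0 y) ∨
    (∃ (x0 f1 : (Fin n → ℝ) →ₗ[ℝ] ℝ) (e0 w1 : Fin n → ℝ), x0 e0 = 1 ∧ f1 e0 = 0 ∧ x0 w1 = 0 ∧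
      f1 w1 = 1 ∧ 0 < x0 e ∧ f1 e = 0 ∧ ∀ x y, 3 * triL p z x y = x0 x * x0 y - f1 x * f1 y) ∨
    (∃ (x0 f1 f2 : (Fin n → ℝ) →ₗ[ℝ] ℝ) (e0 w1 w2 : Fin n → ℝ), x0 e0 = 1 ∧ f1 e0 = 0 ∧
      f2 e0 = 0 ∧ x0 w1 = 0 ∧ f1 w1 = 1 ∧ f2 w1 = 0 ∧ x0 w2 = 0 ∧ f1 w2 = 0 ∧ f2 w2 = 1 ∧
      0 < x0 e ∧ f1 e = 0 ∧ f2 e = 0 ∧
      (∀ x y, 3 * triL p z x y = x0 x * x0 y - f1 x * f1 y - f2 x * f2 y)) := by
  have hqe := h.qe
  set Q := 3 * triL p z e e with hQ
  set r := Real.sqrt Q with hr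
  have hr0 : 0 < r := Real.sqrt_pos.2 hqe
  have hrr : r * r = Q := Real.mul_self_sqrt hqe.le
  -- the first form
  let β : (Fin n → ℝ) →ₗ[ℝ] (Fin n → ℝ) →ₗ[ℝ] ℝ := (3 : ℝ) • triL p z
  have hβ : ∀ x y, β x y = 3 * triL p z x y := fun x y => rfl
  have hβs : ∀ x y, β x y = β y x := fun x y => by rw [hβ, hβ, triL_swap23]
  let x0 : (Fin n → ℝ) →ₗ[ℝ] ℝ := r⁻¹ • β.flip e
  have hx0 : ∀ x, x0 x = r⁻¹ * β x e := fun x => rfl
  have hx0e : x0 e = r := by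
    rw [hx0, hβ, ← hQ, ← hrr]
    field_simp
  let γ : (Fin n → ℝ) →ₗ[ℝ] (Fin n → ℝ) →ₗ[ℝ] ℝ := x0.smulRight x0 - β
  have hγ : ∀ x y, γ x y = x0 x * x0 y - β x y := fun x y => rfl
  have hγs : ∀ x y, γ x y = γ y x := fun x y => by rw [hγ, hγ, hβs x y]; ring
  have hγp : ∀ x, 0 ≤ γ x x := by
    intro x
    have h1 := h.rcs x
    rw [hγ, hx0, hβ, hβ]
    have h2 : r⁻¹ * (3 * triL p z x e) * (r⁻¹ * (3 * triL p z x e)) =
        (3 * triL p z x e) ^ 2 / Q := by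
      rw [← hrr]
      field_simp
    rw [h2, sub_nonneg, le_div_iff₀ hqe]
    exact h1
  have hγe : ∀ y, γ e y = 0 := by
    intro y
    rw [hγ, hx0e, hx0, hβs y e]
    field_simp
    ring
  set e0 : Fin n → ℝ := r⁻¹ • e with he0
  have hx0e0 : x0 e0 = 1 := by
    rw [he0, map_smul, hx0e, smul_eq_mul, inv_mul_cancel₀ hr0.ne']
  have hγe0 : ∀ y, γ e0 y = 0 := fun y => by
    rw [he0, map_smul, LinearMap.smul_apply, hγe, smul_zero]
  have hq1 : ∀ x y, 3 * triL p z x y = x0 x * x0 y - γ x y := fun x y => by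
    rw [hγ, hβ]; ring
  clear_value e0
  rcases gs_step γ hγs hγp with h1 | ⟨f1, w1', γ1, hf1w, hf1, hγ1, hγ1s, hγ1p, hγ1w⟩
  · left
    exact ⟨x0, e0, hx0e0, by rw [hx0e]; exact hr0, fun x y => by rw [hq1, h1, sub_zero]⟩
  right
  have hf1_of : ∀ u, (∀ y, γ u y = 0) → f1 u = 0 := fun u hu => by rw [hf1, hu]
  have hγ1_of : ∀ u, (∀ y, γ u y = 0) → ∀ y, γ1 u y = 0 := fun u hu y => by
    have := hγ1 u y
    rw [hu, hf1_of u hu, zero_mul, zero_add] at this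
    exact this.symm
  set w1 : Fin n → ℝ := w1' - x0 w1' • e0 with hw1
  have hf1e0 : f1 e0 = 0 := hf1_of e0 hγe0
  have hf1e : f1 e = 0 := hf1_of e hγe
  have hf1w1 : f1 w1 = 1 := by rw [hw1, map_sub, map_smul, hf1e0, hf1w, smul_zero, sub_zero]
  have hx0w1 : x0 w1 = 0 := by rw [hw1, map_sub, map_smul, hx0e0, smul_eq_mul, mul_one, sub_self]
  have hγ1w1 : ∀ y, γ1 w1 y = 0 := fun y => by
    rw [hw1, map_sub, map_smul, LinearMap.sub_apply, LinearMap.smul_apply, hγ1_of e0 hγe0,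
      hγ1s w1', hγ1w, smul_zero, sub_zero]
  have hq2 : ∀ x y, 3 * triL p z x y = x0 x * x0 y - f1 x * f1 y - γ1 x y := fun x y => by
    rw [hq1, hγ1]; ring
  clear_value w1
  rcases gs_step γ1 hγ1s hγ1p with h2 | ⟨f2, w2', γ2, hf2w, hf2, hγ2, hγ2s, hγ2p, hγ2w⟩
  · left
    exact ⟨x0, f1, e0, w1, hx0e0, hf1e0, hx0w1, hf1w1, by rw [hx0e]; exact hr0, hf1e,
      fun x y => by rw [hq2, h2, sub_zero]⟩
  right
  have hf2_of : ∀ u, (∀ y, γ1 u y = 0) → f2 u = 0 := fun u hu => by rw [hf2, hu]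
  have hγ2_of : ∀ u, (∀ y, γ1 u y = 0) → ∀ y, γ2 u y = 0 := fun u hu y => by
    have := hγ2 u y
    rw [hu, hf2_of u hu, zero_mul, zero_add] at this
    exact this.symm
  set w2 : Fin n → ℝ := w2' - x0 w2' • e0 - f1 w2' • w1 with hw2
  have hf2e0 : f2 e0 = 0 := hf2_of e0 (hγ1_of e0 hγe0)
  have hf2e : f2 e = 0 := hf2_of e (hγ1_of e hγe)
  have hf2w1 : f2 w1 = 0 := hf2_of w1 hγ1w1
  have hf2w2 : f2 w2 = 1 := by
    rw [hw2, map_sub, map_sub, map_smul, map_smul, hf2e0, hf2w1, hf2w]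
    simp
  have hx0w2 : x0 w2 = 0 := by
    rw [hw2, map_sub, map_sub, map_smul, map_smul, hx0e0, hx0w1]
    simp
  have hf1w2 : f1 w2 = 0 := by
    rw [hw2, map_sub, map_sub, map_smul, map_smul, hf1e0, hf1w1]
    simp
  have hγ2w2 : ∀ y, γ2 w2 y = 0 := fun y => by
    have a1 := hγ2_of e0 (hγ1_of e0 hγe0) y
    have a2 := hγ2_of w1 hγ1w1 y
    have a3 : γ2 w2' y = 0 := by rw [hγ2s, hγ2w]
    rw [hw2]
    simp only [map_sub, map_smul, LinearMap.sub_apply, LinearMap.smul_apply, a1, a2, a3,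
      smul_zero, sub_zero]
  have hq3 : ∀ x y, 3 * triL p z x y = x0 x * x0 y - f1 x * f1 y - f2 x * f2 y - γ2 x y :=
    fun x y => by rw [hq2, hγ2]; ring
  clear_value w2
  rcases gs_step γ2 hγ2s hγ2p with h3 | ⟨f3, w3', γ3, hf3w, hf3, hγ3, hγ3s, -, hγ3w⟩
  · exact ⟨x0, f1, f2, e0, w1, w2, hx0e0, hf1e0, hf2e0, hx0w1, hf1w1,
      hf2w1, hx0w2, hf1w2, hf2w2, by rw [hx0e]; exact hr0, hf1e, hf2e,
      fun x y => by rw [hq3, h3, sub_zero]⟩
  · -- rank four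
    exfalso
    have hf3_of : ∀ u, (∀ y, γ2 u y = 0) → f3 u = 0 := fun u hu => by rw [hf3, hu]
    have hf3e0 := hf3_of e0 (hγ2_of e0 (hγ1_of e0 hγe0))
    have hf3w1 := hf3_of w1 (hγ2_of w1 hγ1w1)
    have hf3w2 := hf3_of w2 hγ2w2
    have k0 := hγ2_of e0 (hγ1_of e0 hγe0)
    have k1 := hγ2_of w1 hγ1w1
    set w3 : Fin n → ℝ := w3' - x0 w3' • e0 - f1 w3' • w1 - f2 w3' • w2 with hw3
    have hx0w3 : x0 w3 = 0 := by
      rw [hw3, map_sub, map_sub, map_sub, map_smul, map_smul, map_smul, hx0e0, hx0w1, hx0w2]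
      simp
    have hf1w3 : f1 w3 = 0 := by
      rw [hw3, map_sub, map_sub, map_sub, map_smul, map_smul, map_smul, hf1e0, hf1w1, hf1w2]
      simp
    have hf2w3 : f2 w3 = 0 := by
      rw [hw3, map_sub, map_sub, map_sub, map_smul, map_smul, map_smul, hf2e0, hf2w1, hf2w2]
      simp
    have hγ33 : γ2 w3 w3 = 1 := by
      have hww : γ2 w3' w3' = 1 := by rw [← hf3, hf3w]
      rw [hw3]
      simp only [map_sub, map_smul, LinearMap.sub_apply, LinearMap.smul_apply, k0, k1, hγ2w2,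
        hγ2s w3' e0, hγ2s w3' w1, hγ2s w3' w2, hww, smul_eq_mul, mul_zero, sub_zero]
    have hdet := hrk ![e0, w1, w2, w3]
    have hM : (Matrix.of fun i j => 3 * triL p z (![e0, w1, w2, w3] i) (![e0, w1, w2, w3] j)) =
        Matrix.diagonal ![(1 : ℝ), -1, -1, -1] := by
      have g0 : γ2 w3 e0 = 0 := by rw [hγ2s, k0]
      have g1 : γ2 w3 w1 = 0 := by rw [hγ2s, k1]
      have g2 : γ2 w3 w2 = 0 := by rw [hγ2s, hγ2w2]
      ext i j
      rw [Matrix.of_apply, hq3]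
      fin_cases i <;> fin_cases j <;>
        simp [hx0e0, hf1e0, hf2e0, hx0w1, hf1w1, hf2w1, hx0w2, hf1w2, hf2w2, hx0w3, hf1w3, hf2w3,
          hγ33, k0, k1, hγ2w2, g0, g1, g2]
    rw [hM, Matrix.det_diagonal, Fin.prod_univ_four] at hdet
    simp at hdet

theorem eval_DL_DL (hd : p.IsHomogeneous 3) (z x y : Fin n → ℝ) :
    MvPolynomial.eval z (DL x (DL y p)) = 6 * triL p z x y := by
  have h1 : (DL x (DL y p)).IsHomogeneous 1 := homog_DL (homog_DL hd y) x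
  have h2 := eval_DL_self h1 z
  have h4 := (MvPolynomial.totalDegree_zero_iff_isHomogeneous (Fin n)).2 (homog_DL h1 z)
  rw [MvPolynomial.totalDegree_eq_zero_iff_eq_C] at h4
  have h5 : MvPolynomial.eval 0 (DL z (DL x (DL y p))) =
      MvPolynomial.eval z (DL z (DL x (DL y p))) := by
    rw [h4, MvPolynomial.eval_C, MvPolynomial.eval_C]
  have h6 : triL p z x y = MvPolynomial.eval 0 (DL z (DL x (DL y p))) / 6 := rfl
  rw [h6, h5, h2]
  push_cast
  ring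

theorem hess_form (hd : p.IsHomogeneous 3) (z x y : Fin n → ℝ) :
    ∑ i, ∑ j, x i * (hess p z i j * y j) = 6 * triL p z x y := by
  rw [← eval_DL_DL hd, DL_eq, map_sum]
  refine Finset.sum_congr rfl fun i _ => ?_
  rw [MvPolynomial.smul_eval, DL_eq, map_sum, map_sum, Finset.mul_sum]
  refine Finset.sum_congr rfl fun j _ => ?_
  rw [Derivation.map_smul, MvPolynomial.smul_eval, hess, Matrix.of_apply]
  ring

theorem DPt.gram_of_rank (h : DPt p e z) (hH : (hess p z).rank ≤ 3)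
    (w : Fin 4 → (Fin n → ℝ)) : (Matrix.of fun i j => 3 * triL p z (w i) (w j)).det = 0 := by
  have h1 := gram_det_zero hH (Matrix.of fun a i => w i a)
  have h2 : (Matrix.of fun i j => 3 * triL p z (w i) (w j)) =
      (1 / 2 : ℝ) • ((Matrix.of fun a i => w i a : Matrix (Fin n) (Fin 4) ℝ).transpose *
        (hess p z * (Matrix.of fun a i => w i a : Matrix (Fin n) (Fin 4) ℝ))) := by
    ext i j
    rw [Matrix.smul_apply, Matrix.mul_apply]
    simp only [Matrix.mul_apply, Matrix.transpose_apply, Matrix.of_apply, smul_eq_mul,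
      Finset.mul_sum]
    have h3 := hess_form h.hom z (w i) (w j)
    have h4 : ∑ a, ∑ b, 1 / 2 * (w i a * (hess p z a b * w j b)) =
        1 / 2 * ∑ a, ∑ b, w i a * (hess p z a b * w j b) := by
      rw [Finset.mul_sum]
      refine Finset.sum_congr rfl fun a _ => ?_
      rw [Finset.mul_sum]
    rw [h4, h3]
    ring
  rw [h2, Matrix.det_smul, h1, mul_zero]

end Vale.Agent.P256
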