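import Vale.Agent.P256.C5.Main
import Vale.Agent.P256.C5.Struct3
import Vale.Agent.P256.C5.Rank3
import Vale.Agent.P256.C5.OrdLin

/-! Hyperbolic cubics with a double point whose Hessian has rank at most three. -/

namespace Vale.Agent.P256

open Polynomial Filter Topology

variable {n : ℕ} {p : MvPolynomial (Fin n) ℝ} {e z : Fin n → ℝ}

/-- a double point with Hessian of rank at most three -/
theorem DPt.shad3 (h : DPt p e z) (hH : (hess p z).rank ≤ 3) : GShad (hypCone p e) := by
  rcases h.struct3 (h.gram_of_rank hH) with ⟨x0, e0, h00, hpos, hq⟩ |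
    ⟨x0, f1, e0, w1, h00, h10, h01, h11, hpos, h1e, hq⟩ |
    ⟨x0, f1, f2, e0, w1, w2, h00, h10, h20, h01, h11, h21, h02, h12, h22, hpos, h1e, h2e, hq⟩
  · obtain ⟨L, Q2, -, hQ2, hp⟩ := h.dataA h00 hpos hq
    refine case_two h.hyp x0 x0 L 0 Q2 (fun x => ?_) hQ2 hpos hpos (fun x hxK => ?_)
      (fun x => ?_)
    · simp
    · refine nonneg_of_ne hpos fun t ht h0 => ?_
      apply (mem_hypCone_iff (part_homog p z 2) x).1 (h.sub hxK) t ht
      rw [part2 h.hom, hq, map_add, map_smul, smul_eq_mul, h0, zero_mul]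
    · rw [hp]
      simp
  · obtain ⟨L, Q1, Q2, -, hQ1, -, hQ2, hp⟩ := h.dataB (a := x0 - f1) (c := x0 + f1)
      (Ea := (1 / 2 : ℝ) • (e0 - w1)) (Ec := (1 / 2 : ℝ) • (e0 + w1))
      (by simp only [map_smul, map_sub, map_add, LinearMap.sub_apply, LinearMap.add_apply,
            smul_eq_mul, h00, h10, h01, h11]
          norm_num)
      (by simp only [map_smul, map_sub, map_add, LinearMap.sub_apply, LinearMap.add_apply,
            smul_eq_mul, h00, h10, h01, h11]
          norm_num)
      (by simp only [map_smul, map_sub, map_add, LinearMap.sub_apply, LinearMap.add_apply,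
            smul_eq_mul, h00, h10, h01, h11]
          norm_num)
      (by simp only [map_smul, map_sub, map_add, LinearMap.sub_apply, LinearMap.add_apply,
            smul_eq_mul, h00, h10, h01, h11]
          norm_num)
      (by simpa only [LinearMap.sub_apply, h1e, sub_zero] using hpos)
      (by simpa only [LinearMap.add_apply, h1e, add_zero] using hpos)
      (fun x y => by
        rw [hq]
        simp only [LinearMap.sub_apply, LinearMap.add_apply]
        ring)
    refine case_two h.hyp (x0 - f1) (x0 + f1) L Q1 Q2 hQ1 hQ2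
      (by simpa only [LinearMap.sub_apply, h1e, sub_zero] using hpos)
      (by simpa only [LinearMap.add_apply, h1e, add_zero] using hpos) (fun x hxK => ?_) hp
    refine nonneg_of_ne hpos fun t ht h0 => ?_
    apply (mem_hypCone_iff (part_homog p z 2) x).1 (h.sub hxK) t ht
    rw [part2 h.hom, hq]
    simp only [map_add, map_smul, smul_eq_mul, h1e, LinearMap.sub_apply] at h0 ⊢
    have h2 : (x0 x + t * x0 e) * (x0 x + t * x0 e) - (f1 x + t * 0) * (f1 x + t * 0) =
        (x0 x - f1 x + t * x0 e) * (x0 x + f1 x + t * x0 e) := by ring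
    rw [h2, h0, zero_mul]
  · refine h.rank3 (a := x0 - f1) (b := f2) (c := x0 + f1)
      (Ea := (1 / 2 : ℝ) • (e0 - w1)) (Eb := w2) (Ec := (1 / 2 : ℝ) • (e0 + w1))
      ?_ ?_ ?_ ?_ ?_ ?_ ?_ ?_ ?_ ?_ ?_ ?_ ?_
    any_goals
      simp only [map_smul, map_sub, map_add, LinearMap.sub_apply, LinearMap.add_apply,
        smul_eq_mul, h00, h10, h01, h11, h20, h21, h02, h12, h22, h1e, h2e]
    any_goals norm_num
    · exact hpos
    · intro x y
      rw [hq]
      ring

theorem DPt.of (hp : IsHyperbolic p e) (hd : p.IsHomogeneous 3) (hz : z ∈ hypCone p e)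
    (hz' : -z ∉ hypCone p e) (hg : ∀ i, MvPolynomial.eval z (MvPolynomial.pderiv i p) = 0) :
    DPt p e z := by
  have h2 : ∀ y, dd p z y = 0 := fun y => Finset.sum_eq_zero fun i _ => by rw [hg, mul_zero]
  refine ⟨hp, hd, hz, ?_, fun y => ?_, hz'⟩
  · have h1 := dd_euler hd z
    rw [h2] at h1
    push_cast at h1
    linarith
  · have h1 := dd_tri hd z y
    rw [h2] at h1
    linarith

/-- the cone of a tame hyperbolic cubic is a spectrahedral shadow -/
theorem tame_shad (h : TameCubic p e) : GShad (hypCone p e) := by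
  obtain ⟨hp, hd, h | ⟨z, ⟨hz, hz', hg⟩, hH⟩ | h⟩ := h
  · exact cubic_five n h p e hp hd
  · exact (DPt.of hp hd hz hz' hg).shad3 hH
  · exact cubic_ordinary hp hd h

end Vale.Agent.P256
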