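import Vale.Agent.P256.Bdl.B1

/-! A real polynomial which is nonnegative on the line is a sum of two squares. -/

namespace Vale.Agent.P256

open Polynomial

theorem nonneg_of_eventually_ne {q : ℝ[X]} {a : ℝ} (h : ∀ x, x ≠ a → 0 ≤ q.eval x) (x : ℝ) :
    0 ≤ q.eval x := by
  by_cases hx : x = a
  · subst hx
    have hlim : Filter.Tendsto (fun t => q.eval t) (nhdsWithin x (Set.Ioi x))
        (nhds (q.eval x)) := (q.continuous.tendsto x).mono_left nhdsWithin_le_nhds
    refine ge_of_tendsto hlim ?_
    filter_upwards [self_mem_nhdsWithin] with t ht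
    exact h t (ne_of_gt ht)
  · exact h x hx

theorem nonneg_two_sq_aux (N : ℕ) : ∀ p : ℝ[X], p.natDegree ≤ N → (∀ x, 0 ≤ p.eval x) →
    ∃ f g : ℝ[X], p = f ^ 2 + g ^ 2 ∧ 2 * f.natDegree ≤ p.natDegree ∧
      2 * g.natDegree ≤ p.natDegree := by
  induction N using Nat.strong_induction_on with
  | _ N ih =>
  intro p hpN hp
  by_cases h0 : p.natDegree = 0
  · obtain ⟨c, rfl⟩ := natDegree_eq_zero.1 h0
    have hc : 0 ≤ c := by simpa using hp 0
    refine ⟨C (Real.sqrt c), 0, ?_, by simp, by simp⟩
    rw [← C_pow, Real.sq_sqrt hc]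
    simp
  have hp0 : p ≠ 0 := fun h => h0 (by rw [h, natDegree_zero])
  obtain ⟨z, hz⟩ : ∃ z : ℂ, aeval z p = 0 := by
    apply IsAlgClosed.exists_aeval_eq_zero
    rw [Polynomial.degree_eq_natDegree hp0]
    exact_mod_cast h0
  by_cases him : z.im = 0
  · -- a real root
    set a := z.re with ha
    have hza : z = (a : ℂ) := Complex.ext rfl (by simpa using him)
    have hroot : p.eval a = 0 := by
      rw [hza] at hz
      have h1 : aeval ((a : ℝ) : ℂ) p = ((p.eval a : ℝ) : ℂ) := by
        have := Polynomial.aeval_algebraMap_apply ℂ a p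
        simpa using this
      rw [h1] at hz
      exact_mod_cast hz
    obtain ⟨q, hq⟩ := dvd_iff_isRoot.2 hroot
    have hqa : q.eval a = 0 := by
      have hval : ∀ x, p.eval x = (x - a) * q.eval x := by
        intro x
        rw [hq]
        simp
      have h1 : 0 ≤ q.eval a := by
        have hlim : Filter.Tendsto (fun t => q.eval t) (nhdsWithin a (Set.Ioi a))
            (nhds (q.eval a)) := (q.continuous.tendsto a).mono_left nhdsWithin_le_nhds
        refine ge_of_tendsto hlim ?_
        filter_upwards [self_mem_nhdsWithin] with t ht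
        have h2 := hp t
        rw [hval] at h2
        exact nonneg_of_mul_nonneg_right h2 (sub_pos.2 ht)
      have h3 : q.eval a ≤ 0 := by
        have hlim : Filter.Tendsto (fun t => q.eval t) (nhdsWithin a (Set.Iio a))
            (nhds (q.eval a)) := (q.continuous.tendsto a).mono_left nhdsWithin_le_nhds
        refine le_of_tendsto hlim ?_
        filter_upwards [self_mem_nhdsWithin] with t ht
        have h2 := hp t
        rw [hval] at h2
        have h4 : t - a < 0 := sub_neg.2 ht
        by_contra h5
        push Not at h5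
        have := mul_neg_of_neg_of_pos h4 h5
        linarith
      linarith
    obtain ⟨r, hr⟩ := dvd_iff_isRoot.2 hqa
    have hpr : p = (X - C a) ^ 2 * r := by rw [hq, hr]; ring
    have hr0 : r ≠ 0 := by
      rintro rfl
      exact hp0 (by rw [hpr, mul_zero])
    have hdeg : p.natDegree = 2 + r.natDegree := by
      rw [hpr, natDegree_mul (pow_ne_zero _ (X_sub_C_ne_zero a)) hr0, natDegree_pow,
        natDegree_X_sub_C]
    have hrn : ∀ x, 0 ≤ r.eval x := by
      refine nonneg_of_eventually_ne (a := a) fun x hx => ?_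
      have h2 := hp x
      rw [hpr] at h2
      simp only [eval_mul, eval_pow, eval_sub, eval_X, eval_C] at h2
      have h3 : 0 < (x - a) ^ 2 := by
        have : x - a ≠ 0 := sub_ne_zero.2 hx
        positivity
      exact nonneg_of_mul_nonneg_right h2 h3
    obtain ⟨f, g, hfg, hf, hg⟩ := ih r.natDegree (by omega) r le_rfl hrn
    refine ⟨(X - C a) * f, (X - C a) * g, ?_, ?_, ?_⟩
    · rw [hpr, hfg]; ring
    · have := natDegree_mul_le (p := X - C a) (q := f)
      rw [natDegree_X_sub_C] at this
      omega
    · have := natDegree_mul_le (p := X - C a) (q := g)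
      rw [natDegree_X_sub_C] at this
      omega
  · obtain ⟨r, hr⟩ := quadratic_dvd_of_aeval_eq_zero_im_ne_zero p hz him
    set m : ℝ[X] := X ^ 2 - C (2 * z.re) * X + C (‖z‖ ^ 2) with hm
    have hm2 : m = (X - C z.re) ^ 2 + (C z.im) ^ 2 := by
      have h1 : ‖z‖ ^ 2 = z.re ^ 2 + z.im ^ 2 := by
        rw [Complex.sq_norm, Complex.normSq_apply]
        ring
      rw [hm, h1]
      simp only [C_add, C_mul, C_pow]
      have h2 : (C (2 : ℝ) : ℝ[X]) = 2 := rfl
      rw [h2]
      ring
    have hmdeg : m.natDegree = 2 := by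
      have h1 : m = C (1 : ℝ) * X ^ 2 + C (-(2 * z.re)) * X + C (‖z‖ ^ 2) := by
        rw [hm]
        simp only [C_neg, C_1]
        ring
      rw [h1]
      exact natDegree_quadratic one_ne_zero
    have hr0 : r ≠ 0 := by
      rintro rfl
      exact hp0 (by rw [hr, mul_zero])
    have hm0 : m ≠ 0 := by
      intro h
      rw [h, natDegree_zero] at hmdeg
      omega
    have hdeg : p.natDegree = 2 + r.natDegree := by
      rw [hr, natDegree_mul hm0 hr0, hmdeg]
    have hrn : ∀ x, 0 ≤ r.eval x := by
      intro x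
      have h2 := hp x
      rw [hr, hm2] at h2
      simp only [eval_mul, eval_pow, eval_sub, eval_X, eval_C, eval_add] at h2
      have h3 : 0 < (x - z.re) ^ 2 + z.im ^ 2 := by positivity
      exact nonneg_of_mul_nonneg_right h2 h3
    obtain ⟨f, g, hfg, hf, hg⟩ := ih r.natDegree (by omega) r le_rfl hrn
    have hdX : ∀ u : ℝ[X], ((X - C z.re) * u).natDegree ≤ 1 + u.natDegree := by
      intro u
      have := natDegree_mul_le (p := X - C z.re) (q := u)
      rwa [natDegree_X_sub_C] at this
    have hdC : ∀ u : ℝ[X], (C z.im * u).natDegree ≤ u.natDegree := fun u =>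
      natDegree_C_mul_le _ _
    refine ⟨(X - C z.re) * f - C z.im * g, (X - C z.re) * g + C z.im * f, ?_, ?_, ?_⟩
    · rw [hr, hm2, hfg]; ring
    · have h1 := natDegree_sub_le ((X - C z.re) * f) (C z.im * g)
      have h2 := hdX f
      have h3 := hdC g
      have h4 : max ((X - C z.re) * f).natDegree (C z.im * g).natDegree ≤
        max (1 + f.natDegree) g.natDegree := max_le_max h2 h3
      omega
    · have h1 := natDegree_add_le ((X - C z.re) * g) (C z.im * f)
      have h2 := hdX g
      have h3 := hdC f
      have h4 : max ((X - C z.re) * g).natDegree (C z.im * f).natDegree ≤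
        max (1 + g.natDegree) f.natDegree := max_le_max h2 h3
      omega

/-- a real polynomial which is nonnegative on the line is a sum of two squares -/
theorem nonneg_two_sq (p : ℝ[X]) (h : ∀ x, 0 ≤ p.eval x) :
    ∃ f g : ℝ[X], p = f ^ 2 + g ^ 2 ∧ 2 * f.natDegree ≤ p.natDegree ∧
      2 * g.natDegree ≤ p.natDegree :=
  nonneg_two_sq_aux p.natDegree p le_rfl h

end Vale.Agent.P256
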