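import Vale.Agent.P256.C5.Tri

/-! Coordinates for the tangent form at a double point. -/

namespace Vale.Agent.P256

open Polynomial Filter Topology

section GS

variable {V : Type*} [AddCommGroup V] [Module ℝ V]

/-- one Gram-Schmidt step for a positive semidefinite form -/
theorem gs_step (γ : V →ₗ[ℝ] V →ₗ[ℝ] ℝ) (hs : ∀ x y, γ x y = γ y x) (hpsd : ∀ x, 0 ≤ γ x x) :
    (∀ x y, γ x y = 0) ∨ ∃ (f : V →ₗ[ℝ] ℝ) (w : V) (γ' : V →ₗ[ℝ] V →ₗ[ℝ] ℝ),
      f w = 1 ∧ (∀ x, f x = γ x w) ∧ (∀ x y, γ x y = f x * f y + γ' x y) ∧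
      (∀ x y, γ' x y = γ' y x) ∧ (∀ x, 0 ≤ γ' x x) ∧ (∀ x, γ' x w = 0) := by
  by_cases h0 : ∀ x, γ x x = 0
  · left
    intro x y
    have h1 := h0 (x + y)
    simp only [map_add, LinearMap.add_apply, h0, hs y x] at h1
    linarith
  · right
    push Not at h0
    obtain ⟨w0, hw0⟩ := h0
    have hpos : 0 < γ w0 w0 := lt_of_le_of_ne (hpsd w0) (Ne.symm hw0)
    set r := Real.sqrt (γ w0 w0) with hr
    have hr0 : 0 < r := Real.sqrt_pos.2 hpos
    have hrr : r * r = γ w0 w0 := Real.mul_self_sqrt hpos.le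
    set w := r⁻¹ • w0 with hw
    have hww : γ w w = 1 := by
      rw [hw]
      simp only [map_smul, LinearMap.smul_apply, smul_eq_mul]
      rw [← hrr]
      field_simp
    refine ⟨γ.flip w, w, γ - (γ.flip w).smulRight (γ.flip w), hww, fun x => rfl,
      fun x y => ?_, fun x y => ?_, fun x => ?_, fun x => ?_⟩
    · simp only [LinearMap.sub_apply, LinearMap.smulRight_apply, LinearMap.smul_apply,
        LinearMap.flip_apply, smul_eq_mul]
      ring
    · simp only [LinearMap.sub_apply, LinearMap.smulRight_apply, LinearMap.smul_apply,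
        LinearMap.flip_apply, smul_eq_mul, hs x y]
      ring
    · simp only [LinearMap.sub_apply, LinearMap.smulRight_apply, LinearMap.smul_apply,
        LinearMap.flip_apply, smul_eq_mul]
      have h1 := hpsd (x - (γ x w) • w)
      simp only [map_sub, map_smul, LinearMap.sub_apply, LinearMap.smul_apply, smul_eq_mul,
        hs w x, hww] at h1
      linarith
    · simp only [LinearMap.sub_apply, LinearMap.smulRight_apply, LinearMap.smul_apply,
        LinearMap.flip_apply, smul_eq_mul, hww]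
      ring

end GS

variable {n : ℕ} {p : MvPolynomial (Fin n) ℝ} {e z : Fin n → ℝ}

theorem DPt.qe (h : DPt p e z) : 0 < 3 * triL p z e e := by
  rw [← part2 h.hom]
  exact h.pos

/-- the reversed Cauchy-Schwarz inequality -/
theorem DPt.rcs (h : DPt p e z) (x : Fin n → ℝ) :
    (3 * triL p z x x) * (3 * triL p z e e) ≤ (3 * triL p z x e) ^ 2 := by
  by_contra hlt
  push Not at hlt
  have hq := h.hypq
  have hqe := h.qe
  have hex : ∀ t : ℝ, MvPolynomial.eval (x + t • e) (part p z 2) ≠ 0 := by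
    intro t h0
    rw [part2 h.hom] at h0
    simp only [map_add, map_smul, LinearMap.add_apply, LinearMap.smul_apply, smul_eq_mul] at h0
    rw [triL_swap23 p z e x] at h0
    nlinarith [sq_nonneg (3 * triL p z x e + t * (3 * triL p z e e))]
  have h1 : ∀ s : ℝ, x - s • e ∈ hypCone (part p z 2) e := by
    intro s
    rw [mem_hypCone_iff (part_homog p z 2)]
    intro t _
    have h2 : x - s • e + t • e = x + (t - s) • e := by module
    rw [h2]
    exact hex _
  have h2 : -e ∈ hypCone (part p z 2) e := by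
    refine K_limit hq (y := x) fun t ht => ?_
    have h3 := K_smul hq (h1 (1 / t)) ht.le
    have h4 : t • (x - (1 / t) • e) = -e + t • x := by
      rw [smul_sub, smul_smul, mul_one_div_cancel ht.ne']
      module
    rwa [h4] at h3
  have h3 := K_add_open hq h2 (e_inOpen hq) 0 le_rfl
  rw [neg_add_cancel, zero_smul, add_zero] at h3
  apply h3
  rw [part2 h.hom, map_zero, mul_zero]

/-- coordinates of the tangent form: rank one, two or three -/
theorem DPt.struct (h : DPt p e z) (hn : n ≤ 5) {v : Fin n → ℝ} (hv : ∀ y, triL p z v y = 0)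
    (hvz : ∀ c : ℝ, v ≠ c • z) :
    (∃ (x0 : (Fin n → ℝ) →ₗ[ℝ] ℝ) (e0 : Fin n → ℝ), x0 e0 = 1 ∧ 0 < x0 e ∧
      ∀ x y, 3 * triL p z x y = x0 x * x0 y) ∨
    (∃ (x0 f1 : (Fin n → ℝ) →ₗ[ℝ] ℝ) (e0 w1 : Fin n → ℝ), x0 e0 = 1 ∧ f1 e0 = 0 ∧ x0 w1 = 0 ∧
      f1 w1 = 1 ∧ 0 < x0 e ∧ f1 e = 0 ∧ ∀ x y, 3 * triL p z x y = x0 x * x0 y - f1 x * f1 y) ∨
    (∃ (x0 f1 f2 s τ : (Fin n → ℝ) →ₗ[ℝ] ℝ) (e0 w1 w2 : Fin n → ℝ), x0 e0 = 1 ∧ f1 e0 = 0 ∧
      f2 e0 = 0 ∧ x0 w1 = 0 ∧ f1 w1 = 1 ∧ f2 w1 = 0 ∧ x0 w2 = 0 ∧ f1 w2 = 0 ∧ f2 w2 = 1 ∧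
      0 < x0 e ∧ f1 e = 0 ∧ f2 e = 0 ∧
      (∀ x y, 3 * triL p z x y = x0 x * x0 y - f1 x * f1 y - f2 x * f2 y) ∧
      ∀ x, x = s x • z + τ x • v + x0 x • e0 + f1 x • w1 + f2 x • w2) := by
  have hqe := h.qe
  set Q := 3 * triL p z e e with hQ
  set r := Real.sqrt Q with hr
  have hr0 : 0 < r := Real.sqrt_pos.2 hqe
  have hrr : r * r = Q := Real.mul_self_sqrt hqe.le
  -- the first form
  let β : (Fin n → ℝ) →ₗ[ℝ] (Fin n → ℝ) →ₗ[ℝ] ℝ := (3 : ℝ) • triL p z
  have hβ : ∀ x y, β x y = 3 * triL p z x y := fun x y => rfl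
  have hβs : ∀ x y, β x y = β y x := fun x y => by rw [hβ, hβ, triL_swap23]
  let x0 : (Fin n → ℝ) →ₗ[ℝ] ℝ := r⁻¹ • β.flip e
  have hx0 : ∀ x, x0 x = r⁻¹ * β x e := fun x => rfl
  have hx0e : x0 e = r := by
    rw [hx0, hβ, ← hQ, ← hrr]
    field_simp
  let γ : (Fin n → ℝ) →ₗ[ℝ] (Fin n → ℝ) →ₗ[ℝ] ℝ := x0.smulRight x0 - β
  have hγ : ∀ x y, γ x y = x0 x * x0 y - β x y := fun x y => rfl
  have hγs : ∀ x y, γ x y = γ y x := fun x y => by rw [hγ, hγ, hβs x y]; ring
  have hγp : ∀ x, 0 ≤ γ x x := by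
    intro x
    have h1 := h.rcs x
    rw [hγ, hx0, hβ, hβ]
    have h2 : r⁻¹ * (3 * triL p z x e) * (r⁻¹ * (3 * triL p z x e)) =
        (3 * triL p z x e) ^ 2 / Q := by
      rw [← hrr]
      field_simp
    rw [h2, sub_nonneg, le_div_iff₀ hqe]
    exact h1
  have hγe : ∀ y, γ e y = 0 := by
    intro y
    rw [hγ, hx0e, hx0, hβs y e]
    field_simp
    ring
  have hz0 : ∀ y, β z y = 0 := fun y => by rw [hβ, h.grad, mul_zero]
  have hv0 : ∀ y, β v y = 0 := fun y => by rw [hβ, hv, mul_zero]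
  have hx0z : x0 z = 0 := by rw [hx0, hz0, mul_zero]
  have hx0v : x0 v = 0 := by rw [hx0, hv0, mul_zero]
  have hγz : ∀ y, γ z y = 0 := fun y => by rw [hγ, hx0z, hz0]; ring
  have hγv : ∀ y, γ v y = 0 := fun y => by rw [hγ, hx0v, hv0]; ring
  set e0 : Fin n → ℝ := r⁻¹ • e with he0
  have hx0e0 : x0 e0 = 1 := by
    rw [he0, map_smul, hx0e, smul_eq_mul, inv_mul_cancel₀ hr0.ne']
  have hγe0 : ∀ y, γ e0 y = 0 := fun y => by
    rw [he0, map_smul, LinearMap.smul_apply, hγe, smul_zero]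
  have hq1 : ∀ x y, 3 * triL p z x y = x0 x * x0 y - γ x y := fun x y => by
    rw [hγ, hβ]; ring
  clear_value e0
  have hzne : z ≠ 0 := by
    rintro rfl
    exact h.neg (by rw [neg_zero]; exact K_zero h.hyp)
  rcases gs_step γ hγs hγp with h1 | ⟨f1, w1', γ1, hf1w, hf1, hγ1, hγ1s, hγ1p, hγ1w⟩
  · left
    exact ⟨x0, e0, hx0e0, by rw [hx0e]; exact hr0, fun x y => by rw [hq1, h1, sub_zero]⟩
  right
  have hf1_of : ∀ u, (∀ y, γ u y = 0) → f1 u = 0 := fun u hu => by rw [hf1, hu]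
  have hγ1_of : ∀ u, (∀ y, γ u y = 0) → ∀ y, γ1 u y = 0 := fun u hu y => by
    have := hγ1 u y
    rw [hu, hf1_of u hu, zero_mul, zero_add] at this
    exact this.symm
  set w1 : Fin n → ℝ := w1' - x0 w1' • e0 with hw1
  have hf1e0 : f1 e0 = 0 := hf1_of e0 hγe0
  have hf1e : f1 e = 0 := hf1_of e hγe
  have hf1w1 : f1 w1 = 1 := by rw [hw1, map_sub, map_smul, hf1e0, hf1w, smul_zero, sub_zero]
  have hx0w1 : x0 w1 = 0 := by rw [hw1, map_sub, map_smul, hx0e0, smul_eq_mul, mul_one, sub_self]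
  have hγ1w1 : ∀ y, γ1 w1 y = 0 := fun y => by
    rw [hw1, map_sub, map_smul, LinearMap.sub_apply, LinearMap.smul_apply, hγ1_of e0 hγe0,
      hγ1s w1', hγ1w, smul_zero, sub_zero]
  have hq2 : ∀ x y, 3 * triL p z x y = x0 x * x0 y - f1 x * f1 y - γ1 x y := fun x y => by
    rw [hq1, hγ1]; ring
  clear_value w1
  rcases gs_step γ1 hγ1s hγ1p with h2 | ⟨f2, w2', γ2, hf2w, hf2, hγ2, hγ2s, hγ2p, hγ2w⟩
  · left
    exact ⟨x0, f1, e0, w1, hx0e0, hf1e0, hx0w1, hf1w1, by rw [hx0e]; exact hr0, hf1e,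
      fun x y => by rw [hq2, h2, sub_zero]⟩
  right
  have hf2_of : ∀ u, (∀ y, γ1 u y = 0) → f2 u = 0 := fun u hu => by rw [hf2, hu]
  have hγ2_of : ∀ u, (∀ y, γ1 u y = 0) → ∀ y, γ2 u y = 0 := fun u hu y => by
    have := hγ2 u y
    rw [hu, hf2_of u hu, zero_mul, zero_add] at this
    exact this.symm
  set w2 : Fin n → ℝ := w2' - x0 w2' • e0 - f1 w2' • w1 with hw2
  have hf2e0 : f2 e0 = 0 := hf2_of e0 (hγ1_of e0 hγe0)
  have hf2e : f2 e = 0 := hf2_of e (hγ1_of e hγe)
  have hf2w1 : f2 w1 = 0 := hf2_of w1 hγ1w1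
  have hf2w2 : f2 w2 = 1 := by
    rw [hw2, map_sub, map_sub, map_smul, map_smul, hf2e0, hf2w1, hf2w]
    simp
  have hx0w2 : x0 w2 = 0 := by
    rw [hw2, map_sub, map_sub, map_smul, map_smul, hx0e0, hx0w1]
    simp
  have hf1w2 : f1 w2 = 0 := by
    rw [hw2, map_sub, map_sub, map_smul, map_smul, hf1e0, hf1w1]
    simp
  have hγ2w2 : ∀ y, γ2 w2 y = 0 := fun y => by
    have a1 := hγ2_of e0 (hγ1_of e0 hγe0) y
    have a2 := hγ2_of w1 hγ1w1 y
    have a3 : γ2 w2' y = 0 := by rw [hγ2s, hγ2w]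
    rw [hw2]
    simp only [map_sub, map_smul, LinearMap.sub_apply, LinearMap.smul_apply, a1, a2, a3,
      smul_zero, sub_zero]
  have hq3 : ∀ x y, 3 * triL p z x y = x0 x * x0 y - f1 x * f1 y - f2 x * f2 y - γ2 x y :=
    fun x y => by rw [hq2, hγ2]; ring
  have hf1z := hf1_of z hγz
  have hf1v := hf1_of v hγv
  have hf2z := hf2_of z (hγ1_of z hγz)
  have hf2v := hf2_of v (hγ1_of v hγv)
  rcases gs_step γ2 hγ2s hγ2p with h3 | ⟨f3, w3, γ3, hf3w, hf3, -, -, -, -⟩
  · -- five independent vectors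
    have hli : LinearIndependent ℝ ![z, v, e0, w1, w2] := by
      rw [Fintype.linearIndependent_iff]
      intro g hg
      rw [Fin.sum_univ_five] at hg
      simp only [Matrix.cons_val] at hg
      have g2 := congrArg x0 hg
      have g3 := congrArg f1 hg
      have g4 := congrArg f2 hg
      simp only [map_add, map_smul, hx0z, hx0v, hx0e0, hx0w1, hx0w2, hf1z, hf1v, hf1e0, hf1w1,
        hf1w2, hf2z, hf2v, hf2e0, hf2w1, hf2w2, smul_eq_mul, mul_zero, mul_one, add_zero,
        zero_add, map_zero] at g2 g3 g4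
      rw [g2, g3, g4, zero_smul, zero_smul, zero_smul, add_zero, add_zero, add_zero] at hg
      have g1 : g 1 = 0 := by
        by_contra hne
        apply hvz (-(g 0 / g 1))
        have h4 : v = (g 1)⁻¹ • (g 1 • v) := by rw [smul_smul, inv_mul_cancel₀ hne, one_smul]
        have h5 : g 1 • v = -(g 0 • z) := (neg_eq_of_add_eq_zero_right hg).symm
        rw [h4, h5, smul_neg, smul_smul, neg_smul]
        congr 2
        field_simp
      rw [g1, zero_smul, add_zero] at hg
      have g0 : g 0 = 0 := (smul_eq_zero.1 hg).resolve_right hzne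
      intro i
      fin_cases i
      · exact g0
      · exact g1
      · exact g2
      · exact g3
      · exact g4
    have hcard : n = 5 := by
      have h4 := hli.fintype_card_le_finrank
      rw [Fintype.card_fin, Module.finrank_fin_fun] at h4
      omega
    have hcard' : Fintype.card (Fin 5) = Module.finrank ℝ (Fin n → ℝ) := by
      rw [Fintype.card_fin, Module.finrank_fin_fun, hcard]
    let b := basisOfLinearIndependentOfCardEqFinrank hli hcard'
    have hb : ∀ i, b i = ![z, v, e0, w1, w2] i := fun i => by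
      rw [coe_basisOfLinearIndependentOfCardEqFinrank]
    have hrep : ∀ x, x = b.coord 0 x • z + b.coord 1 x • v + b.coord 2 x • e0 +
        b.coord 3 x • w1 + b.coord 4 x • w2 := by
      intro x
      conv_lhs => rw [← b.sum_repr x, Fin.sum_univ_five]
      simp only [hb, Module.Basis.coord_apply]
      rfl
    have c2 : ∀ x, b.coord 2 x = x0 x := by
      intro x
      have := congrArg x0 (hrep x)
      simp only [map_add, map_smul, hx0z, hx0v, hx0e0, hx0w1, hx0w2, smul_eq_mul, mul_zero,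
        mul_one, add_zero, zero_add] at this
      exact this.symm
    have c3 : ∀ x, b.coord 3 x = f1 x := by
      intro x
      have := congrArg f1 (hrep x)
      simp only [map_add, map_smul, hf1z, hf1v, hf1e0, hf1w1, hf1w2, smul_eq_mul, mul_zero,
        mul_one, add_zero, zero_add] at this
      exact this.symm
    have c4 : ∀ x, b.coord 4 x = f2 x := by
      intro x
      have := congrArg f2 (hrep x)
      simp only [map_add, map_smul, hf2z, hf2v, hf2e0, hf2w1, hf2w2, smul_eq_mul, mul_zero,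
        mul_one, add_zero, zero_add] at this
      exact this.symm
    refine ⟨x0, f1, f2, b.coord 0, b.coord 1, e0, w1, w2, hx0e0, hf1e0, hf2e0, hx0w1, hf1w1,
      hf2w1, hx0w2, hf1w2, hf2w2, by rw [hx0e]; exact hr0, hf1e, hf2e,
      fun x y => by rw [hq3, h3, sub_zero], fun x => ?_⟩
    have := hrep x
    rwa [c2, c3, c4] at this
  · -- six independent vectors
    exfalso
    have hf3_of : ∀ u, (∀ y, γ2 u y = 0) → f3 u = 0 := fun u hu => by rw [hf3, hu]
    have hf3z := hf3_of z (hγ2_of z (hγ1_of z hγz))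
    have hf3v := hf3_of v (hγ2_of v (hγ1_of v hγv))
    have hf3e0 := hf3_of e0 (hγ2_of e0 (hγ1_of e0 hγe0))
    have hf3w1 := hf3_of w1 (hγ2_of w1 hγ1w1)
    have hf3w2 := hf3_of w2 hγ2w2
    have hli : LinearIndependent ℝ ![z, v, e0, w1, w2, w3] := by
      rw [Fintype.linearIndependent_iff]
      intro g hg
      rw [Fin.sum_univ_six] at hg
      simp only [Matrix.cons_val] at hg
      have g5 := congrArg f3 hg
      simp only [map_add, map_smul, hf3z, hf3v, hf3e0, hf3w1, hf3w2, hf3w, smul_eq_mul, mul_zero,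
        mul_one, add_zero, zero_add, map_zero] at g5
      rw [g5, zero_smul, add_zero] at hg
      have g2 := congrArg x0 hg
      have g3 := congrArg f1 hg
      have g4 := congrArg f2 hg
      simp only [map_add, map_smul, hx0z, hx0v, hx0e0, hx0w1, hx0w2, hf1z, hf1v, hf1e0, hf1w1,
        hf1w2, hf2z, hf2v, hf2e0, hf2w1, hf2w2, smul_eq_mul, mul_zero, mul_one, add_zero,
        zero_add, map_zero] at g2 g3 g4
      rw [g2, g3, g4, zero_smul, zero_smul, zero_smul, add_zero, add_zero, add_zero] at hg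
      have g1 : g 1 = 0 := by
        by_contra hne
        apply hvz (-(g 0 / g 1))
        have h4 : v = (g 1)⁻¹ • (g 1 • v) := by rw [smul_smul, inv_mul_cancel₀ hne, one_smul]
        have h5 : g 1 • v = -(g 0 • z) := (neg_eq_of_add_eq_zero_right hg).symm
        rw [h4, h5, smul_neg, smul_smul, neg_smul]
        congr 2
        field_simp
      rw [g1, zero_smul, add_zero] at hg
      have g0 : g 0 = 0 := (smul_eq_zero.1 hg).resolve_right hzne
      intro i
      fin_cases i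
      · exact g0
      · exact g1
      · exact g2
      · exact g3
      · exact g4
      · exact g5
    have h4 := hli.fintype_card_le_finrank
    rw [Fintype.card_fin, Module.finrank_fin_fun] at h4
    omega

end Vale.Agent.P256
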