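import Vale.Agent.P256.C5.Two
import Vale.Agent.P256.C5.S2

/-!
# Cubics with a double point whose tangent form has rank three
-/

namespace Vale.Agent.P256

open Filter Topology

/-- linear forms in three variables -/
def l3 (l : Fin 3 → ℝ) (a b c : ℝ) : ℝ := l 0 * a + l 1 * b + l 2 * c

theorem q3_line (f : Fin 6 → ℝ) (a b c a' b' c' : ℝ) :
    Continuous fun ε : ℝ => q3 f (a + ε * a') (b + ε * b') (c + ε * c') := by
  unfold q3
  fun_prop

theorem l3_nonneg {l : Fin 3 → ℝ} (hl : ∀ s t : ℝ, 0 ≤ l3 l (s ^ 2) (s * t) (t ^ 2)) :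
    0 ≤ l 0 ∧ 0 ≤ l 2 ∧ l 1 ^ 2 ≤ 4 * l 0 * l 2 := by
  have h0 := hl 1 0
  have h2 := hl 0 1
  simp only [l3] at h0 h2
  have h0' : 0 ≤ l 0 := by linarith
  have h2' : 0 ≤ l 2 := by linarith
  refine ⟨h0', h2', ?_⟩
  have h1 : ∀ s t : ℝ, 0 ≤ l 0 * s ^ 2 + l 1 * (s * t) + l 2 * t ^ 2 := hl
  rcases h0'.eq_or_lt with h | h
  · have h3 : l 1 = 0 := by
      have h4 := h1 (-(l 2 + 1) * l 1) 1
      have h5 := h1 (-(l 2 + 1)) (l 1)
      rw [← h] at h4 h5
      have h6 : (l 2 + 1) * l 1 ^ 2 ≤ l 2 := by nlinarith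
      have h7 : ∀ k : ℝ, 0 ≤ l 1 * k + l 2 := by
        intro k
        have := h1 k 1
        rw [← h] at this
        linarith
      by_contra hne
      have h8 := h7 (-(l 2 + 1) / l 1)
      have h9 : l 1 * (-(l 2 + 1) / l 1) = -(l 2 + 1) := by field_simp
      rw [h9] at h8
      linarith
    rw [h3, ← h]
    norm_num
  · have h3 := h1 (-l 1) (2 * l 0)
    have h4 : l 0 * (-l 1) ^ 2 + l 1 * (-l 1 * (2 * l 0)) + l 2 * (2 * l 0) ^ 2 =
        l 0 * (4 * l 0 * l 2 - l 1 ^ 2) := by ring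
    rw [h4] at h3
    have h5 := nonneg_of_mul_nonneg_right h3 h
    linarith

/-- the cone does not meet the kernel of a nonzero nonnegative linear form in its interior -/
theorem ker_neg {l : Fin 3 → ℝ} (h0 : 0 ≤ l 0) (h2 : 0 ≤ l 2) (h1 : l 1 ^ 2 ≤ 4 * l 0 * l 2)
    (hne : l ≠ 0) {a b c : ℝ} (h : l3 l a b c = 0) : a * c - b ^ 2 ≤ 0 := by
  by_contra hlt
  push Not at hlt
  have hl : l 0 * a + l 2 * c = -(l 1 * b) := by
    simp only [l3] at h
    linarith
  have h3 : (l 0 * a + l 2 * c) ^ 2 = l 1 ^ 2 * b ^ 2 := by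
    rw [hl]
    ring
  have h4 : 4 * (l 0 * l 2) * (a * c - b ^ 2) ≤ 0 := by
    nlinarith [sq_nonneg (l 0 * a - l 2 * c), mul_le_mul_of_nonneg_right h1 (sq_nonneg b)]
  have h5 : l 0 * l 2 = 0 := by
    have h6 : 0 ≤ l 0 * l 2 := mul_nonneg h0 h2
    by_contra hne'
    have h7 : 0 < l 0 * l 2 := lt_of_le_of_ne h6 (Ne.symm hne')
    have := mul_pos (mul_pos (by norm_num : (0 : ℝ) < 4) h7) hlt
    linarith
  have h6 : l 1 = 0 := by
    have : l 1 ^ 2 ≤ 0 := by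
      have h8 : 4 * l 0 * l 2 = 0 := by rw [mul_assoc, h5, mul_zero]
      linarith
    exact pow_eq_zero_iff (two_ne_zero) |>.1 (le_antisymm this (sq_nonneg _))
  have hac : 0 < a * c := by nlinarith [sq_nonneg b]
  have ha : a ≠ 0 := by rintro rfl; simp at hac
  have hc : c ≠ 0 := by rintro rfl; simp at hac
  rw [h6, zero_mul, neg_zero] at hl
  rcases mul_eq_zero.1 h5 with h7 | h7
  · rw [h7, zero_mul, zero_add] at hl
    have h8 := (mul_eq_zero.1 hl).resolve_right hc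
    apply hne
    funext i
    fin_cases i
    · exact h7
    · exact h6
    · exact h8
  · rw [h7, zero_mul, add_zero] at hl
    have h8 := (mul_eq_zero.1 hl).resolve_right ha
    apply hne
    funext i
    fin_cases i
    · exact h8
    · exact h6
    · exact h7

/-- nonnegativity of `k` on the plane `l = 0` -/
theorem ker_k {l : Fin 3 → ℝ} (h0 : 0 ≤ l 0) (h2 : 0 ≤ l 2) (h1 : l 1 ^ 2 ≤ 4 * l 0 * l 2)
    (hne : l ≠ 0) {k : Fin 6 → ℝ}
    (hk : ∀ a b c, l3 l a b c = 0 → (a * c - b ^ 2) * q3 k a b c ≤ 0) {a b c : ℝ}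
    (h : l3 l a b c = 0) : 0 ≤ q3 k a b c := by
  have hneg : ∀ a b c, l3 l a b c = 0 → a * c - b ^ 2 < 0 → 0 ≤ q3 k a b c := by
    intro a b c hl hq
    by_contra hlt
    push Not at hlt
    have := hk a b c hl
    have h3 := mul_pos_of_neg_of_neg hq hlt
    linarith
  obtain ⟨a', b', c', hw, hwq⟩ : ∃ a' b' c' : ℝ, l3 l a' b' c' = 0 ∧ a' * c' - b' ^ 2 < 0 := by
    rcases (mul_nonneg h0 h2).eq_or_lt with h3 | h3
    · refine ⟨0, 1, 0, ?_, by norm_num⟩
      have h6 : l 1 = 0 := by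
        have : l 1 ^ 2 ≤ 0 := by
          have h8 : 4 * l 0 * l 2 = 0 := by rw [mul_assoc, ← h3, mul_zero]
          linarith
        exact pow_eq_zero_iff (two_ne_zero) |>.1 (le_antisymm this (sq_nonneg _))
      simp [l3, h6]
    · refine ⟨l 2, 0, -l 0, ?_, ?_⟩
      · simp only [l3]
        ring
      · nlinarith
  have hline : ∀ ε : ℝ, l3 l (a + ε * a') (b + ε * b') (c + ε * c') = 0 := by
    intro ε
    have : l3 l (a + ε * a') (b + ε * b') (c + ε * c') = l3 l a b c + ε * l3 l a' b' c' := by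
      simp only [l3]
      ring
    rw [this, h, hw]
    ring
  rcases (ker_neg h0 h2 h1 hne h).eq_or_lt with hq | hq
  swap
  · exact hneg a b c h hq
  -- the null direction
  have hcross : a * c' + a' * c - 2 * b * b' = 0 := by
    have hε : ∀ ε : ℝ, ε * (a * c' + a' * c - 2 * b * b') + ε ^ 2 * (a' * c' - b' ^ 2) ≤ 0 := by
      intro ε
      have := ker_neg h0 h2 h1 hne (hline ε)
      have h5 : (a + ε * a') * (c + ε * c') - (b + ε * b') ^ 2 = (a * c - b ^ 2) +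
          ε * (a * c' + a' * c - 2 * b * b') + ε ^ 2 * (a' * c' - b' ^ 2) := by ring
      rw [h5, hq] at this
      linarith
    by_contra hne'
    set B := a * c' + a' * c - 2 * b * b' with hB
    set D := a' * c' - b' ^ 2 with hD
    have h6 := hε (B / (-D))
    have hD0 : D ≠ 0 := hwq.ne
    have h7 : B / (-D) * B + (B / (-D)) ^ 2 * D = 0 := by
      field_simp
      ring
    have h8 := hε (B / (2 * (-D)))
    have h9 : B / (2 * (-D)) * B + (B / (2 * (-D))) ^ 2 * D = B ^ 2 / (4 * (-D)) := by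
      field_simp
      ring
    rw [h9] at h8
    have h10 : 0 < B ^ 2 / (4 * (-D)) := by
      apply div_pos (by positivity)
      linarith
    linarith
  have hpos : ∀ᶠ ε : ℝ in 𝓝[≠] 0, 0 ≤ q3 k (a + ε * a') (b + ε * b') (c + ε * c') := by
    filter_upwards [self_mem_nhdsWithin] with ε hε
    have hε' : ε ≠ 0 := hε
    refine hneg _ _ _ (hline ε) ?_
    have h5 : (a + ε * a') * (c + ε * c') - (b + ε * b') ^ 2 = (a * c - b ^ 2) +
        ε * (a * c' + a' * c - 2 * b * b') + ε ^ 2 * (a' * c' - b' ^ 2) := by ring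
    rw [h5, hq, hcross, mul_zero, zero_add, zero_add]
    exact mul_neg_of_pos_of_neg (by positivity) hwq
  have hlim := ((q3_line k a b c a' b' c').tendsto 0).mono_left
    (nhdsWithin_le_nhds (s := {(0 : ℝ)}ᶜ))
  simp only [zero_mul, add_zero] at hlim
  exact ge_of_tendsto hlim hpos

/-- the bilinear form of `q3` in three linear forms -/
noncomputable def Q3 {n : ℕ} (f : Fin 6 → ℝ) (a b c : (Fin n → ℝ) →ₗ[ℝ] ℝ) :
    (Fin n → ℝ) →ₗ[ℝ] (Fin n → ℝ) →ₗ[ℝ] ℝ :=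
  f 0 • mulForm a a + f 1 • mulForm a b + f 2 • mulForm a c + f 3 • mulForm b b +
    f 4 • mulForm b c + f 5 • mulForm c c

theorem Q3_self {n : ℕ} (f : Fin 6 → ℝ) (a b c : (Fin n → ℝ) →ₗ[ℝ] ℝ) (x : Fin n → ℝ) :
    Q3 f a b c x x = q3 f (a x) (b x) (c x) := by
  simp only [Q3, LinearMap.add_apply, LinearMap.smul_apply, mulForm_self, smul_eq_mul, q3]
  ring

/-- the linear form `l3` in three linear forms -/
noncomputable def L3 {n : ℕ} (l : Fin 3 → ℝ) (a b c : (Fin n → ℝ) →ₗ[ℝ] ℝ) :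
    (Fin n → ℝ) →ₗ[ℝ] ℝ := l 0 • a + l 1 • b + l 2 • c

theorem L3_apply {n : ℕ} (l : Fin 3 → ℝ) (a b c : (Fin n → ℝ) →ₗ[ℝ] ℝ) (x : Fin n → ℝ) :
    L3 l a b c x = l3 l (a x) (b x) (c x) := by
  simp only [L3, LinearMap.add_apply, LinearMap.smul_apply, smul_eq_mul, l3]

/-- Cubics `s q + P + t m - t² l` with `q = a c - b²`. -/
theorem case_three {n : ℕ} {p : MvPolynomial (Fin n) ℝ} {e : Fin n → ℝ} (hp : IsHyperbolic p e)
    (a b c s t : (Fin n → ℝ) →ₗ[ℝ] ℝ) (P : ℝ → ℝ → ℝ → ℝ) (l : Fin 3 → ℝ)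
    (m g₁ g₂ k : Fin 6 → ℝ)
    (hsos : ∀ a b c : ℝ, -4 * l3 l a b c * P a b c - q3 m a b c ^ 2 =
      q3 g₁ a b c ^ 2 + q3 g₂ a b c ^ 2 + (a * c - b ^ 2) * q3 k a b c)
    (hl : ∀ s t : ℝ, 0 ≤ l3 l (s ^ 2) (s * t) (t ^ 2)) (hle : 0 < l3 l (a e) (b e) (c e))
    (hqe : 0 < a e * c e - b e ^ 2) (hK : ∀ x ∈ hypCone p e, 0 ≤ l3 l (a x) (b x) (c x))
    (h : ∀ x, MvPolynomial.eval x p = s x * (a x * c x - b x ^ 2) + P (a x) (b x) (c x) +
      t x * q3 m (a x) (b x) (c x) - t x ^ 2 * l3 l (a x) (b x) (c x)) :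
    GShad (hypCone p e) := by
  obtain ⟨h0, h2, h1⟩ := l3_nonneg hl
  have hne : l ≠ 0 := by
    rintro rfl
    simp [l3] at hle
  have hkk : ∀ a b c, l3 l a b c = 0 → (a * c - b ^ 2) * q3 k a b c ≤ 0 := by
    intro a b c hl0
    have := hsos a b c
    rw [hl0] at this
    nlinarith [sq_nonneg (q3 m a b c), sq_nonneg (q3 g₁ a b c), sq_nonneg (q3 g₂ a b c)]
  refine lorentz_rep hp (L3 l a b c) (mulForm a c - mulForm b b)
    (mulForm s (L3 l a b c) - (1 / 4 : ℝ) • Q3 k a b c) 3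
    ![(1 / 2 : ℝ) • Q3 g₁ a b c, (1 / 2 : ℝ) • Q3 g₂ a b c,
      mulForm t (L3 l a b c) - (1 / 2 : ℝ) • Q3 m a b c] ?_ ?_ ?_ ?_ ?_
  · rw [L3_apply]
    exact hle
  · intro x hx
    rw [L3_apply]
    exact hK x hx
  · rw [LinearMap.sub_apply, LinearMap.sub_apply, mulForm_self, mulForm_self, ← sq]
    exact hqe
  · intro x hx
    rw [L3_apply] at hx
    constructor
    · rw [LinearMap.sub_apply, LinearMap.sub_apply, mulForm_self, mulForm_self, ← sq]
      exact ker_neg h0 h2 h1 hne hx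
    · rw [LinearMap.sub_apply, LinearMap.sub_apply, mulForm_self, LinearMap.smul_apply,
        LinearMap.smul_apply, Q3_self, L3_apply, hx, mul_zero, zero_sub, smul_eq_mul]
      have := ker_k h0 h2 h1 hne hkk hx
      linarith
  · intro x
    have hs := hsos (a x) (b x) (c x)
    rw [h x, L3_apply, Fin.sum_univ_three]
    simp only [Matrix.cons_val_zero, Matrix.cons_val_one, Matrix.cons_val, LinearMap.sub_apply,
      LinearMap.smul_apply, mulForm_self, Q3_self, L3_apply, smul_eq_mul]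
    linear_combination (-1 / 4 : ℝ) * hs

end Vale.Agent.P256
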